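import Vale.Agent.P277Z.Pj.Defs
import Mathlib.Analysis.Polynomial.CauchyBound

/-!
# P277, block PROJ: the rows `BDD`, `REXT`, `FIB`
-/

open scoped Manifold ContDiff Topology
open Vale.Agent.P272.K Vale.Agent.P285.H281.FD Set Filter Metric
open Vale.Agent.P277 Vale.Agent.P277.H762 Vale.Agent.P277.PH

noncomputable section

namespace Vale.Agent.P277Z.Pj

namespace Bdd

/-- restriction of a branched covering to an open connected subset of the base -/
theorem preC_restr {W : Type} [TopologicalSpace W] {H : (W → ℂ) → W → Prop} {n : ℕ} {V : Set W}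
    {G : W → Cm (n + 1)} {B E B' : Set (Cm (n + 1))} (h : PreC H V G B E) (h1 : IsOpen B')
    (h2 : IsPreconnected B') (h3 : B' ⊆ B) : PreC H (V ∩ G ⁻¹' B') G B' E where
  hcont := h.hcont
  isOpen := h.cont.isOpen_inter_preimage h.isOpen h1
  openB := h1
  connB := h2
  cont := h.cont.mono inter_subset_left
  maps _ hx := hx.2
  proper K hK hc := by
    rw [inter_assoc, ← preimage_inter, inter_eq_right.2 hK]
    exact h.proper K (hK.trans h3) hc
  openE := by
    rw [show B' \ E = B' ∩ (B \ E) from Set.ext fun x =>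
      ⟨fun hx => ⟨hx.1, h3 hx.1, hx.2⟩, fun hx => ⟨hx.1, hx.2.2⟩⟩]
    exact h1.inter h.openE
  thin := h.thin.mono (inter_subset_inter_left _ h3)
  etale x hx hE := by
    obtain ⟨N, s, a1, a2, a3, a4, a5⟩ := h.etale x hx.1 hE
    refine ⟨N ∩ (V ∩ G ⁻¹' B'), s, a1.inter (h.cont.isOpen_inter_preimage h.isOpen h1), ⟨a2, hx⟩,
      inter_subset_right, ?_, fun y hy => a5 y hy.1⟩
    rw [← inter_assoc, inter_eq_left.2 a3, image_inter_preimage]
    exact a4.inter h1
  dense x hx := closure_mono (fun y hy => And.intro hy.1 hy.2.2)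
    ((h.cont.isOpen_inter_preimage h.isOpen h1).inter_closure ⟨hx, h.dense hx.1⟩)

open Polynomial in
theorem an_coeff {d : ℕ} (s : Finset (Fin d)) (A : Unit → Fin d → ℂ) (j : ℕ) :
    AnalyticAt ℂ (fun A : Unit → Fin d → ℂ => (∏ k ∈ s, (X - C (A () k))).coeff j) A := by
  induction s using Finset.induction_on generalizing j with
  | empty => exact analyticAt_const
  | insert k s hk ih =>
    simp only [Finset.prod_insert hk, coeff_mul, coeff_sub, coeff_C]
    refine Finset.analyticAt_fun_sum _ fun x _ => AnalyticAt.mul ?_ (ih _)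
    split_ifs
    · exact analyticAt_const.sub (((ContinuousLinearMap.proj (R := ℂ) (φ := fun _ : Fin d => ℂ)
        k).comp (ContinuousLinearMap.proj (φ := fun _ : Unit => Fin d → ℂ) ())).analyticAt A)
    · exact analyticAt_const

theorem cv_image_of_local {E F : Type*} [NormedAddCommGroup E] [NormedSpace ℂ E]
    [SecondCountableTopology E] [NormedAddCommGroup F] [NormedSpace ℂ F] {k : ℕ} {S : Set E}
    {g : E → F} (h : ∀ x ∈ S, ∃ N ∈ 𝓝 x, Cv k (g '' (N ∩ S))) : Cv k (g '' S) := by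
  choose! N hN hd using h
  obtain ⟨t, htT, htc, ht⟩ := TopologicalSpace.countable_cover_nhdsWithin
    (f := N) (s := S) fun p hp => mem_nhdsWithin_of_mem_nhds (hN p hp)
  refine (cv_biUnion htc fun p hp => hd p (htT hp)).mono ?_
  rintro _ ⟨x, hx, rfl⟩
  obtain ⟨p, hp, hxp⟩ := mem_iUnion₂.1 (ht hx)
  exact mem_iUnion₂.2 ⟨p, hp, x, ⟨hxp, hx⟩, rfl⟩

theorem an_det {n : ℕ} {M : Cm n → (Cm n →L[ℂ] Cm n)} {z : Cm n}
    (h : ∀ v, AnalyticAt ℂ (fun w => M w v) z) :
    AnalyticAt ℂ (fun w => LinearMap.det (M w : Cm n →ₗ[ℂ] Cm n)) z := by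
  simp only [← LinearMap.det_toMatrix', Matrix.det_apply', LinearMap.toMatrix'_apply]
  refine Finset.analyticAt_fun_sum _ fun σ _ => analyticAt_const.mul
    (Finset.analyticAt_fun_prod _ fun i _ => ?_)
  exact analyticAt_pi_iff.1 (h _) _

/-- the constant rank theorem: the image is locally the image of a slice -/
theorem cv_loc {n m k : ℕ} {R K : Type} [NormedAddCommGroup R] [NormedSpace ℂ R]
    [FiniteDimensional ℂ R] [NormedAddCommGroup K] [NormedSpace ℂ K] [FiniteDimensional ℂ K]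
    {U : Set (Cm n)} (hU : IsOpen U) {g : Cm n → Cm m} (hg : ∀ z ∈ U, AnalyticAt ℂ g z)
    (π : Cm m →L[ℂ] R) (κ : Cm n →L[ℂ] K) (hr : ∀ z ∈ U,
      Module.finrank ℂ (LinearMap.range (fderiv ℂ g z : Cm n →ₗ[ℂ] Cm m)) ≤ Module.finrank ℂ R)
    {p : Cm n} (hp : p ∈ U) (A : Cm n ≃L[ℂ] R × K)
    (hA : (A : Cm n →L[ℂ] R × K) = (π.comp (fderiv ℂ g p)).prod κ)
    (hk : Module.finrank ℂ R ≤ k) : ∃ N ∈ 𝓝 p, Cv k (g '' N) := by
  have : CompleteSpace R := FiniteDimensional.complete ℂ R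
  have : CompleteSpace K := FiniteDimensional.complete ℂ K
  set Ψ : Cm n → R × K := fun z => (π (g z), κ z) with hΨ
  have hΨd : ∀ z ∈ U, HasFDerivAt Ψ ((π.comp (fderiv ℂ g z)).prod κ) z := fun z hz =>
    (π.hasFDerivAt.comp z (hg z hz).differentiableAt.hasFDerivAt).prodMk κ.hasFDerivAt
  have hcd : ContDiffAt ℂ ω Ψ p :=
    (((π.analyticAt _).comp (hg p hp)).prod (κ.analyticAt _)).contDiffAt
  have hA' : HasFDerivAt Ψ (A : Cm n →L[ℂ] R × K) p := by rw [hA]; exact hΨd p hp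
  set e := hcd.toOpenPartialHomeomorph Ψ hA' (by simp) with he
  have heΨ : ∀ y, e y = Ψ y := fun y => rfl
  have hsrc : p ∈ e.source := hcd.mem_toOpenPartialHomeomorph_source hA' (by simp)
  have hinvA : AnalyticAt ℂ e.symm (Ψ p) := (hcd.to_localInverse hA' (by simp)).analyticAt
  have hg0 : e.symm (Ψ p) = p := e.left_inv hsrc
  obtain ⟨ε, hε, hball⟩ : ∃ ε > 0, ∀ q ∈ ball (Ψ p) ε, AnalyticAt ℂ e.symm q ∧ e.symm q ∈ U ∧
      q ∈ e.target := by
    refine Metric.eventually_nhds_iff_ball.1 (hinvA.eventually_analyticAt.and (.and ?_ ?_))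
    · exact hinvA.continuousAt.eventually_mem (by rw [hg0]; exact hU.mem_nhds hp)
    · exact e.open_target.mem_nhds (e.map_source hsrc)
  have hder : ∀ q ∈ ball (Ψ p) ε, ∀ τ : K,
      fderiv ℂ g (e.symm q) (fderiv ℂ e.symm q (0, τ)) = 0 := by
    intro q hq τ
    obtain ⟨h1, h2, h3⟩ := hball q hq
    have h5 : HasFDerivAt (fun q => Ψ (e.symm q)) (ContinuousLinearMap.id ℂ (R × K)) q := by
      refine (hasFDerivAt_id q).congr_of_eventuallyEq ?_
      filter_upwards [e.open_target.mem_nhds h3] with y hy using e.right_inv hy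
    have h6 := ((hΨd _ h2).comp q h1.differentiableAt.hasFDerivAt).unique h5
    have h7 : ∀ y : R × K, π (fderiv ℂ g (e.symm q) (fderiv ℂ e.symm q y)) = y.1 :=
      fun y => congrArg Prod.fst (DFunLike.congr_fun h6 y)
    let π' := (π : Cm m →ₗ[ℂ] R).comp
      (LinearMap.range (fderiv ℂ g (e.symm q) : Cm n →ₗ[ℂ] Cm m)).subtype
    have hsurj : Function.Surjective π' := fun s => ⟨⟨_, ⟨_, rfl⟩⟩, h7 (s, 0)⟩
    have hinj' : Function.Injective π' :=
      (LinearMap.injective_iff_surjective_of_finrank_eq_finrank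
        (le_antisymm (hr _ h2) (π'.finrank_le_finrank_of_surjective hsurj))).2 hsurj
    exact congrArg Subtype.val
      ((injective_iff_map_eq_zero π').1 hinj' ⟨_, ⟨fderiv ℂ e.symm q (0, τ), rfl⟩⟩ (h7 (0, τ)))
  have hb : ∀ {a τ}, a ∈ ball (Ψ p).1 ε → τ ∈ ball (Ψ p).2 ε → (a, τ) ∈ ball (Ψ p) ε :=
    fun ha hτ => by rw [← ball_prod_same]; exact ⟨ha, hτ⟩
  have hconst : ∀ a ∈ ball (Ψ p).1 ε, ∀ τ ∈ ball (Ψ p).2 ε,
      g (e.symm (a, τ)) = g (e.symm (a, (Ψ p).2)) := by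
    intro a ha τ hτ
    have hd : ∀ τ ∈ ball (Ψ p).2 ε, HasFDerivAt (𝕜 := ℂ) (fun τ => g (e.symm (a, τ))) 0 τ := by
      intro τ hτ
      obtain ⟨h1, h2, -⟩ := hball _ (hb ha hτ)
      have h4 := ((hg _ h2).differentiableAt.hasFDerivAt.comp (a, τ)
        h1.differentiableAt.hasFDerivAt).comp τ (hasFDerivAt_prodMk_right a τ)
      exact h4.congr_fderiv (ContinuousLinearMap.ext fun t => hder _ (hb ha hτ) t)
    exact isOpen_ball.is_const_of_fderiv_eq_zero (convex_ball _ _).isPreconnected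
      (fun τ hτ => (hd τ hτ).differentiableAt.differentiableWithinAt)
      (fun τ hτ => (hd τ hτ).fderiv) hτ (mem_ball_self hε)
  obtain ⟨i, hi⟩ := (finrank_le_iff_exists_linearMap (R := ℂ) (M := R) (M' := Cm k)).1
    (by simpa using hk)
  obtain ⟨L₀, hL⟩ := i.exists_leftInverse_of_injective (LinearMap.ker_eq_bot.2 hi)
  let L : Cm k →L[ℂ] R := LinearMap.toContinuousLinearMap L₀
  refine ⟨e.source ∩ Ψ ⁻¹' ball (Ψ p) ε, inter_mem (e.open_source.mem_nhds hsrc)
    (hcd.continuousAt.preimage_mem_nhds (ball_mem_nhds _ hε)), fun _ => L ⁻¹' ball (Ψ p).1 ε,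
    fun _ u => g (e.symm (L u, (Ψ p).2)), fun _ => isOpen_ball.preimage L.continuous,
    fun _ u hu => ?_, ?_⟩
  · obtain ⟨h1, h2, -⟩ := hball _ (hb hu (mem_ball_self hε))
    exact (hg _ h2).comp (f := fun u => e.symm (L u, (Ψ p).2))
      (h1.comp (f := fun u => (L u, (Ψ p).2)) ((L.analyticAt u).prod analyticAt_const))
  · rintro _ ⟨z, ⟨h1, h2⟩, rfl⟩
    have h3 : L (i (Ψ z).1) = (Ψ z).1 := DFunLike.congr_fun hL _
    rw [mem_preimage, ← ball_prod_same] at h2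
    refine mem_iUnion.2 ⟨0, i (Ψ z).1, by rw [mem_preimage, h3]; exact h2.1, ?_⟩
    simp only [h3]
    rw [← hconst _ h2.1 _ h2.2]
    exact congrArg g (e.left_inv h1)

theorem cv_conn {k m : ℕ} {B : Set (Cm (k + 1))} (hB : IsOpen B) (hc : IsPreconnected B)
    (hne : B.Nonempty) {g : Cm (k + 1) → Cm m} (hg : ∀ z ∈ B, AnalyticAt ℂ g z) :
    Cv k (g '' (B ∩ {z | ¬ Function.Injective (fderiv ℂ g z)})) := by
  set rk : Cm (k + 1) → ℕ := fun z => Module.finrank ℂ
    (LinearMap.range (fderiv ℂ g z : Cm (k + 1) →ₗ[ℂ] Cm m))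
  obtain ⟨p, hp, hmax⟩ : ∃ p ∈ B, ∀ z ∈ B, rk z ≤ rk p := by
    have h2 : BddAbove (rk '' B) := ⟨m, by
      rintro _ ⟨z, -, rfl⟩
      exact (Submodule.finrank_le _).trans (by simp)⟩
    obtain ⟨p, hp, h3⟩ := Nat.sSup_mem (hne.image rk) h2
    exact ⟨p, hp, fun z hz => h3 ▸ le_csSup h2 (mem_image_of_mem rk hz)⟩
  set R := LinearMap.range (fderiv ℂ g p : Cm (k + 1) →ₗ[ℂ] Cm m)
  set K := LinearMap.ker (fderiv ℂ g p : Cm (k + 1) →ₗ[ℂ] Cm m)
  obtain ⟨π₀, hπ⟩ := R.subtype.exists_leftInverse_of_injective (by simp)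
  obtain ⟨κ₀, hκ⟩ := K.subtype.exists_leftInverse_of_injective (by simp)
  let π : Cm m →L[ℂ] R := LinearMap.toContinuousLinearMap π₀
  let κ : Cm (k + 1) →L[ℂ] K := LinearMap.toContinuousLinearMap κ₀
  let D : Cm (k + 1) → (Cm (k + 1) →L[ℂ] R × K) := fun z => (π.comp (fderiv ℂ g z)).prod κ
  have hdim : Module.finrank ℂ (Cm (k + 1)) = Module.finrank ℂ (R × K) := by
    rw [Module.finrank_prod]
    exact (LinearMap.finrank_range_add_finrank_ker _).symm
  have hA : ∀ z, Function.Injective (D z) → ∃ A : Cm (k + 1) ≃L[ℂ] R × K,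
      (A : Cm (k + 1) →L[ℂ] R × K) = D z := fun z h =>
    ⟨(LinearMap.linearEquivOfInjective (D z : Cm (k + 1) →ₗ[ℂ] R × K) h
      hdim).toContinuousLinearEquiv, rfl⟩
  obtain ⟨A, hAp⟩ := hA p ((injective_iff_map_eq_zero _).2 fun h hh => by
    have h1 : π₀ (fderiv ℂ g p h) = 0 := congrArg Prod.fst hh
    have h2 : κ₀ h = 0 := congrArg Prod.snd hh
    have h3 : fderiv ℂ g p h = 0 := congrArg Subtype.val
      ((DFunLike.congr_fun hπ ⟨fderiv ℂ g p h, h, rfl⟩).symm.trans h1)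
    exact congrArg Subtype.val ((DFunLike.congr_fun hκ ⟨h, h3⟩).symm.trans h2))
  let M : Cm (k + 1) → (Cm (k + 1) →L[ℂ] Cm (k + 1)) := fun z =>
    (A.symm : R × K →L[ℂ] Cm (k + 1)).comp (D z)
  have hJ : ∀ z ∈ B, AnalyticAt ℂ (fun w => LinearMap.det (M w : Cm (k + 1) →ₗ[ℂ] _)) z :=
    fun z hz => an_det fun v => by
      have h1 : AnalyticAt ℂ (fun w => fderiv ℂ g w v) z :=
        ((ContinuousLinearMap.apply ℂ (Cm m) v).analyticAt _).comp (hg z hz).fderiv
      have h2 : AnalyticAt ℂ (fun w => (π (fderiv ℂ g w v), κ v)) z :=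
        ((π.analyticAt _).comp h1).prod analyticAt_const
      exact (A.symm.analyticAt _).comp h2
  obtain ⟨W, γ, a1, a2, a3⟩ := H622.stB1 k B _ hB hJ fun z hz h0 => by
    have h1 := AnalyticOnNhd.eqOn_zero_of_preconnected_of_eventuallyEq_zero hJ hc hz h0 hp
    simp [M, ← hAp] at h1
  have h1 := Cv.image (F := g) ⟨W, γ, a1, fun l q hq => (a2 l q hq).1, a3⟩ hB (fun _ h => h.1) hg
  have h2 : Cv k (g '' {z | z ∈ B ∧ ¬ Function.Injective (fderiv ℂ g z) ∧
      LinearMap.det (M z : Cm (k + 1) →ₗ[ℂ] _) ≠ 0}) := cv_image_of_local fun z hz => by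
    have h3 : Function.Injective (D z) := Function.Injective.of_comp (f := A.symm)
      (LinearMap.equivOfDetNeZero _ hz.2.2).injective
    obtain ⟨A', hA'⟩ := hA z h3
    obtain ⟨N, hN, h4⟩ := cv_loc (k := k) hB hg π κ hmax hz.1 A' hA' (by
      have : Nontrivial K := not_subsingleton_iff_nontrivial.1 fun _ => hz.2.1 fun a b h =>
        h3 (Prod.ext (congrArg π h) (Subsingleton.elim _ _))
      have h5 := Module.finrank_pos (R := ℂ) (M := K)
      rw [Module.finrank_prod, Module.finrank_fin_fun] at hdim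
      omega)
    exact ⟨N, hN, h4.mono (image_mono inter_subset_left)⟩
  refine (h1.union h2).mono ?_
  rintro _ ⟨z, hz, rfl⟩
  by_cases h : LinearMap.det (M z : Cm (k + 1) →ₗ[ℂ] _) = 0
  · exact Or.inl ⟨z, ⟨hz.1, h⟩, rfl⟩
  · exact Or.inr ⟨z, ⟨hz.1, hz.2, h⟩, rfl⟩

end Bdd

open Bdd

/-- ROW BDD -/
theorem bdd_of (h0 : CONN) (h1 : BR) : BDD := by
  intro W _ _ H n V G B E F h hF hc f hf b hb
  have h' := preC_restr h hF (h0 _ B F h.openB h.connB hc.succ) sdiff_subset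
  rcases (V ∩ G ⁻¹' (B \ F)).eq_empty_or_nonempty with he | hne
  · refine ⟨0, Eventually.of_forall fun b' hb' x hx e => ?_⟩
    have h2 : x ∈ V ∩ G ⁻¹' (B \ F) := ⟨hx, h.maps hx, e ▸ hb'⟩
    rw [he] at h2
    exact h2.elim
  obtain ⟨d, hd⟩ := h1 W H _ _ G _ E h' hne
  choose κ a1 a2 using fun j => hd.sym Unit (fun _ => f) (fun _ x hx => hf x hx.1 hx.2.2)
    (fun A => (∏ k, (Polynomial.X - Polynomial.C (A () k))).coeff j) (fun A => an_coeff _ A j)
    fun A σ => congrArg (Polynomial.coeff · j)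
      (Equiv.prod_comp σ fun k => Polynomial.X - Polynomial.C (A () k))
  choose κ' b1 b2 using fun j => hartogs_cv (V := Cm (n + 2)) (by simp) h.openB hF hc (a1 j)
  let M := (Finset.range d).sup fun j => ‖κ' j b‖₊ + 1
  have h3 : ∀ᶠ b' in 𝓝 b, ∀ j ∈ Finset.range d, ‖κ' j b'‖₊ < M :=
    (Finset.eventually_all _).2 fun j hj => (b1 j b hb).continuousAt.nnnorm.eventually_lt
      continuousAt_const ((lt_add_one _).trans_le
        (Finset.le_sup (f := fun j => ‖κ' j b‖₊ + 1) hj))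
  refine ⟨M + 1, h3.mono fun b' h4 hb' x hx e => ?_⟩
  subst e
  obtain ⟨y, k, hy, rfl⟩ := hd.lim' x ⟨hx, h.maps hx, hb'⟩
  have hm := Polynomial.monic_prod_X_sub_C (fun k => f (y k)) Finset.univ
  have h5 := Polynomial.IsRoot.norm_lt_cauchyBound hm.ne_zero (a := f (y k))
    (by rw [Polynomial.isRoot_prod]; exact ⟨k, Finset.mem_univ _, by simp⟩)
  rw [Polynomial.cauchyBound, hm.leadingCoeff, nnnorm_one, div_one,
    Polynomial.natDegree_finsetProd_X_sub_C_eq_card, Finset.card_fin] at h5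
  have h6 : ‖f (y k)‖₊ ≤ M + 1 := h5.le.trans (add_le_add_left (Finset.sup_le fun j hj => by
    rw [← a2 j _ ⟨h.maps hx, hb'⟩ y hy, ← b2 j _ ⟨h.maps hx, hb'⟩]
    exact (h4 j hj).le) 1)
  exact_mod_cast h6

/-- ROW REXT -/
theorem rext : REXT := by
  intro n W _ _ _ _ _ O S hO hOS hS f hf hb
  have key : ∀ e ∈ atlas (Cm (n + 1)) W, ∃ F : Cm (n + 1) → ℂ,
      (∀ z ∈ e.target ∩ e.symm ⁻¹' O, AnalyticAt ℂ F z) ∧ ∀ w ∈ O ∩ e.source,
        limUnder (𝓝[O \ S] w) f = F (e w) ∧ (w ∉ S → F (e w) = f w) := by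
    intro e he
    have hΩ := e.isOpen_inter_preimage_symm hO
    have hc : Cv n (e.target ∩ e.symm ⁻¹' O ∩ e.symm ⁻¹' S) := by
      rw [inter_assoc, ← preimage_inter]
      exact hS e he
    obtain ⟨F, a1, a2⟩ := riemann_ext_cv (V := Cm (n + 1)) (by simp) hΩ
      (by rw [inter_sdiff_assoc, ← preimage_sdiff]; exact e.isOpen_inter_preimage_symm hOS) hc
      (f := fun z => f (e.symm z))
      (fun z hz => by
        have h := hf _ ⟨hz.1.2, hz.2⟩ e ⟨he, e.map_target hz.1.1⟩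
        rwa [e.right_inv hz.1.1] at h)
      fun z hz => (hb _ hz.2).imp fun C hC => (e.continuousAt_symm hz.1).eventually hC
    have hm : ∀ w ∈ O ∩ e.source, e w ∈ e.target ∩ e.symm ⁻¹' O := fun w hw =>
      ⟨e.map_source hw.2, by rw [mem_preimage, e.left_inv hw.2]; exact hw.1⟩
    have a3 : ∀ w ∈ O ∩ e.source, w ∉ S → F (e w) = f w := fun w hw h => by
      rw [a2 _ ⟨hm w hw, by rw [mem_preimage, e.left_inv hw.2]; exact h⟩, e.left_inv hw.2]
    refine ⟨F, a1, fun w hw => ⟨?_, a3 w hw⟩⟩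
    have h1 := (e.continuousAt_symm (hm w hw).1).continuousWithinAt.mem_closure
      (hc.mem_closure (by simp) hΩ (hm w hw)) (t := O \ S) fun z hz => ⟨hz.1.2, hz.2⟩
    rw [e.left_inv hw.2] at h1
    have := mem_closure_iff_nhdsWithin_neBot.1 h1
    refine Tendsto.limUnder_eq ((((a1 _ (hm w hw)).continuousAt.comp
      (e.continuousAt hw.2)).mono_left nhdsWithin_le_nhds).congr' ?_)
    filter_upwards [self_mem_nhdsWithin, mem_nhdsWithin_of_mem_nhds (e.open_source.mem_nhds hw.2)]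
      with y h2 h3 using a3 y ⟨h2.1, h3⟩ h2.2
  refine ⟨fun w => limUnder (𝓝[O \ S] w) f, fun w hw e he => ?_, fun w hw => ?_⟩
  · obtain ⟨F, a1, a2⟩ := key e he.1
    have hm : e w ∈ e.target ∩ e.symm ⁻¹' O :=
      ⟨e.map_source he.2, by rw [mem_preimage, e.left_inv he.2]; exact hw⟩
    refine (a1 _ hm).congr ?_
    filter_upwards [(e.isOpen_inter_preimage_symm hO).mem_nhds hm] with z hz
    rw [(a2 _ ⟨hz.2, e.map_target hz.1⟩).1, e.right_inv hz.1]
  · obtain ⟨F, -, a2⟩ := key _ (chart_mem_atlas (Cm (n + 1)) w)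
    obtain ⟨h1, h2⟩ := a2 w ⟨hw.1, mem_chart_source _ w⟩
    exact h1.trans (h2 hw.2)

/-- ROW FIB -/
theorem fib : FIB := by
  intro k N D g hD hg
  refine ⟨g '' (D ∩ {z | ¬ Function.Injective (fderiv ℂ g z)}), cv_image_of_local fun x hx => ?_,
    fun y hy => H335.countable_of_isolated fun x hx => ?_⟩
  · obtain ⟨r, hr, h⟩ := Metric.isOpen_iff.1 hD x hx.1
    exact ⟨_, ball_mem_nhds x hr, (cv_conn isOpen_ball (convex_ball x r).isPreconnected
      ⟨x, mem_ball_self hr⟩ fun z hz => hg z (h hz)).mono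
        (image_mono fun z hz => ⟨hz.1, hz.2.2⟩)⟩
  · have h1 : Function.Injective (fderiv ℂ g x) := by_contra fun h => hy ⟨x, ⟨hx.1, h⟩, hx.2⟩
    obtain ⟨C, -, hC⟩ := (fderiv ℂ g x : Cm (k + 1) →ₗ[ℂ] Cm N).exists_antilipschitzWith
      (LinearMap.ker_eq_bot.2 h1)
    have h2 := (hg x hx.1).differentiableAt.hasFDerivAt.eventually_ne (c := y) ⟨C, hC⟩
    exact ⟨_, eventually_nhdsWithin_iff.1 h2, fun z hz hz' => by_contra fun h => hz h hz'.2⟩

end Vale.Agent.P277Z.Pj
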