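import Vale.Agent.P277.H762.CL1
import Vale.Agent.P277.H29.PH.Basic

/-!
# P277, block PROJ: branched coverings, images of proper maps, denominators (statements)
-/

open scoped Manifold ContDiff Topology
open Vale.Agent.P272.K Vale.Agent.P285.H281.FD Set Filter Metric
open Vale.Agent.P277 Vale.Agent.P277.H762 Vale.Agent.P277.PH

noncomputable section

namespace Vale.Agent.P277Z.Pj

/-! ### branched coverings -/

section cov

variable {W : Type} [TopologicalSpace W]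

/-- `y` enumerates the fibre of `G` over `b` in `V`. -/
def Enum {F : Type} (V : Set W) (G : W → F) {d : ℕ} (b : F) (y : Fin d → W) : Prop :=
  Function.Injective y ∧ ∀ x, (∃ k, y k = x) ↔ x ∈ V ∧ G x = b

/-- `G` has a local section through `x` along which the functions with `H` are analytic. -/
def LSec (H : (W → ℂ) → W → Prop) {n : ℕ} (V : Set W) (G : W → Cm n) (x : W) : Prop :=
  ∃ (N : Set W) (s : Cm n → W), IsOpen N ∧ x ∈ N ∧ N ⊆ V ∧ IsOpen (G '' N) ∧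
    ∀ y ∈ N, s (G y) = y ∧ ContinuousAt s (G y) ∧
      ∀ f, H f y → AnalyticAt ℂ (fun z => f (s z)) (G y)

/-- A proper map `G : V → B` which is a local isomorphism outside the thin closed set `E`;
`H f x` means that `f` is holomorphic near `x`. -/
structure PreC (H : (W → ℂ) → W → Prop) {n : ℕ} (V : Set W) (G : W → Cm (n + 1))
    (B E : Set (Cm (n + 1))) : Prop where
  hcont : ∀ f x, H f x → ContinuousAt f x
  isOpen : IsOpen V
  openB : IsOpen B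
  connB : IsPreconnected B
  cont : ContinuousOn G V
  maps : MapsTo G V B
  proper : ∀ K ⊆ B, IsCompact K → IsCompact (V ∩ G ⁻¹' K)
  openE : IsOpen (B \ E)
  thin : Cv n (B ∩ E)
  etale : ∀ x ∈ V, G x ∉ E → LSec H V G x
  dense : V ⊆ closure (V \ G ⁻¹' E)

/-- `y` is a limit of enumerations of unbranched fibres and lies over `b`. -/
def Lim {F : Type} (V : Set W) (G : W → F) (B E : Set F) {d : ℕ} (b : F) (y : Fin d → W) : Prop :=
  y ∈ closure {y' : Fin d → W | ∃ b' ∈ B \ E, Enum V G b' y'} ∧ ∀ k, y k ∈ V ∧ G (y k) = b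

/-- A branched covering with `d` sheets. -/
structure Cov (H : (W → ℂ) → W → Prop) {n : ℕ} (V : Set W) (G : W → Cm (n + 1))
    (B E : Set (Cm (n + 1))) (d : ℕ) : Prop extends PreC H V G B E where
  pos : 0 < d
  enum : ∀ b ∈ B \ E, ∃ y : Fin d → W, Enum V G b y
  lim : ∀ b ∈ B, ∃ y : Fin d → W, Lim V G B E b y
  lim' : ∀ x ∈ V, ∃ (y : Fin d → W) (k : Fin d), Lim V G B E (G x) y ∧ y k = x
  sym : ∀ (ι : Type) [Fintype ι] (a : ι → W → ℂ), (∀ i, ∀ x ∈ V, H (a i) x) →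
    ∀ Φ : (ι → Fin d → ℂ) → ℂ, (∀ A, AnalyticAt ℂ Φ A) →
    (∀ A (σ : Equiv.Perm (Fin d)), Φ (fun i k => A i (σ k)) = Φ A) →
    ∃ κ : Cm (n + 1) → ℂ, (∀ b ∈ B, AnalyticAt ℂ κ b) ∧
      ∀ b ∈ B, ∀ y : Fin d → W, Lim V G B E b y → κ b = Φ fun i k => a i (y k)

theorem Enum.lim {F : Type} {V : Set W} {G : W → F} {B E : Set F} {d : ℕ} {b : F}
    {y : Fin d → W} (h : Enum V G b y) (hb : b ∈ B \ E) : Lim V G B E b y :=
  ⟨subset_closure ⟨b, hb, h⟩, fun k => (h.2 _).1 ⟨k, rfl⟩⟩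

end cov

/-- ROW CONN: thin sets do not disconnect. -/
def CONN : Prop :=
  ∀ (n : ℕ) (B E : Set (Cm (n + 1))), IsOpen B → IsPreconnected B → Cv n (B ∩ E) →
    IsPreconnected (B \ E)

/-- ROW BR: branched coverings. -/
def BR : Prop :=
  ∀ (W : Type) [TopologicalSpace W] [T2Space W] (H : (W → ℂ) → W → Prop) (n : ℕ) (V : Set W)
    (G : W → Cm (n + 1)) (B E : Set (Cm (n + 1))), PreC H V G B E → V.Nonempty →
    ∃ d, Cov H V G B E d

/-! ### proper maps from manifolds -/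

section man

variable {W : Type} [TopologicalSpace W]

/-- `t` is an immersion at `w`. -/
def Imm (n : ℕ) [ChartedSpace (Cm n) W] {F : Type} [NormedAddCommGroup F] [NormedSpace ℂ F]
    (t : W → F) (w : W) : Prop :=
  ∀ e : Chart n W, At e w → Function.Injective (fderiv ℂ (fun z => t (e.symm z)) (e w))

/-- `t : O → Ω` is holomorphic and proper. -/
structure Prp (n : ℕ) [ChartedSpace (Cm n) W] {N : ℕ} (O : Set W) (t : W → Cm N)
    (Ω : Set (Cm N)) : Prop where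
  isOpen : IsOpen O
  isOpen' : IsOpen Ω
  hol : ∀ w ∈ O, ∀ i, HolF n (fun w => t w i) w
  maps : MapsTo t O Ω
  proper : ∀ K ⊆ Ω, IsCompact K → IsCompact (O ∩ t ⁻¹' K)

/-- `t : O → Ω` is holomorphic, proper and generically finite. -/
structure Gfin (n : ℕ) [ChartedSpace (Cm n) W] {N : ℕ} (O : Set W) (t : W → Cm N)
    (Ω : Set (Cm N)) : Prop extends Prp n O t Ω where
  imm : O ⊆ closure {w | w ∈ O ∧ Imm n t w}

/-- `t : O → Ω` is holomorphic, proper and bimeromorphic onto its image. -/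
structure Bim (n : ℕ) [ChartedSpace (Cm n) W] {N : ℕ} (O : Set W) (t : W → Cm N)
    (Ω : Set (Cm N)) : Prop extends Gfin n O t Ω where
  inj : O ⊆ closure (interior {w | w ∈ O ∧ ∀ w' ∈ O, t w' = t w → w' = w})

end man

/-- a statement on all manifolds of dimension `n + 1` -/
def AllM (P : ∀ (n : ℕ) (W : Type) [TopologicalSpace W] [ChartedSpace (Cm (n + 1)) W], Prop) :
    Prop :=
  ∀ (n : ℕ) (W : Type) [TopologicalSpace W] [T2Space W] [SecondCountableTopology W]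
    [ChartedSpace (Cm (n + 1)) W] [IsManifold 𝓘(ℂ, Cm (n + 1)) ω W], P n W

/-- ROW PRJ: good linear projections. -/
def PRJ : Prop :=
  AllM fun n W _ _ => ∀ (N : ℕ) (O : Set W) (t : W → Cm N) (Ω : Set (Cm N)),
    Gfin (n + 1) O t Ω → ∀ z ∈ Ω, ∃ π : Cm N →L[ℂ] Cm (n + 1), ∀ U ∈ 𝓝 z,
      ∃ (U' : Set (Cm N)) (r : ℝ) (E : Set (Cm (n + 1))), IsOpen U' ∧ z ∈ U' ∧ U' ⊆ U ∩ Ω ∧
        0 < r ∧ MapsTo π U' (ball (π z) r) ∧
        PreC (HolF (n + 1)) (O ∩ t ⁻¹' U') (fun w => π (t w)) (ball (π z) r) E ∧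
        ∀ w ∈ O ∩ t ⁻¹' U', π (t w) = π z → t w = z

/-- ROW REM: the image of a proper generically finite map is analytic. -/
def REM : Prop :=
  AllM fun n W _ _ => ∀ (N : ℕ) (O : Set W) (t : W → Cm N) (Ω : Set (Cm N)),
    Gfin (n + 1) O t Ω → ∀ z ∈ Ω, ∃ (m : ℕ) (h : Fin m → Cm N → ℂ),
      (∀ i, AnalyticAt ℂ (h i) z) ∧ ∀ᶠ y in 𝓝 z, (y ∈ t '' O ↔ ∀ i, h i y = 0)

/-- ROW DEN: universal denominators. -/
def DEN : Prop :=
  AllM fun n W _ _ => ∀ (N : ℕ) (O : Set W) (t : W → Cm N) (Ω : Set (Cm N)),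
    Bim (n + 1) O t Ω → ∀ z ∈ Ω, ∃ (U : Set (Cm N)) (δ : Cm N → ℂ), IsOpen U ∧ z ∈ U ∧ U ⊆ Ω ∧
      (∀ y ∈ U, AnalyticAt ℂ δ y) ∧ O ∩ t ⁻¹' U ⊆ closure {w | w ∈ O ∧ δ (t w) ≠ 0} ∧
      ∀ y ∈ U, ∀ h : W → ℂ, (∀ w ∈ O, t w = y → HolF (n + 1) h w) →
        ∃ a : Cm N → ℂ, AnalyticAt ℂ a y ∧
          ∀ w ∈ O, t w = y → ∀ᶠ w' in 𝓝 w, δ (t w') * h w' = a (t w')

/-- ROW BDD: functions which are holomorphic outside the preimage of a closed set of codimension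
two of the base are locally bounded. -/
def BDD : Prop :=
  ∀ (W : Type) [TopologicalSpace W] [T2Space W] (H : (W → ℂ) → W → Prop) (n : ℕ) (V : Set W)
    (G : W → Cm (n + 2)) (B E F : Set (Cm (n + 2))), PreC H V G B E → IsOpen (B \ F) →
    Cv n (B ∩ F) → ∀ f : W → ℂ, (∀ x ∈ V, G x ∉ F → H f x) →
    ∀ b ∈ B, ∃ C : ℝ, ∀ᶠ b' in 𝓝 b, b' ∉ F → ∀ x ∈ V, G x = b' → ‖f x‖ ≤ C

/-- ROW REXT: the extension theorem of Riemann on a manifold. -/
def REXT : Prop :=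
  AllM fun n W _ _ => ∀ (O S : Set W), IsOpen O → IsOpen (O \ S) →
    (∀ e ∈ atlas (Cm (n + 1)) W, Cv n (e.target ∩ e.symm ⁻¹' (O ∩ S))) →
    ∀ f : W → ℂ, (∀ w ∈ O \ S, HolF (n + 1) f w) →
    (∀ w ∈ O, ∃ C : ℝ, ∀ᶠ w' in 𝓝 w, w' ∉ S → ‖f w'‖ ≤ C) →
    ∃ g : W → ℂ, (∀ w ∈ O, HolF (n + 1) g w) ∧ ∀ w ∈ O \ S, g w = f w

/-- ROW FIB: the fibres of an analytic map are countable outside a set of smaller dimension. -/
def FIB : Prop :=
  ∀ (k N : ℕ) (D : Set (Cm (k + 1))) (g : Cm (k + 1) → Cm N), IsOpen D →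
    (∀ z ∈ D, AnalyticAt ℂ g z) →
    ∃ T : Set (Cm N), Cv k T ∧ ∀ y ∉ T, {z | z ∈ D ∧ g z = y}.Countable

end Vale.Agent.P277Z.Pj
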