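import Vale.Agent.P277Z.Pj.Defs

/-!
# P277, block PROJ, row PRJ: generic linear projections
-/

open scoped Manifold ContDiff Topology
open Vale.Agent.P272.K Vale.Agent.P285.H281.FD Set Filter Metric
open Vale.Agent.P277 Vale.Agent.P277.H762 Vale.Agent.P277.PH

noncomputable section

namespace Vale.Agent.P277Z.Pj

namespace H38

theorem cv_balls {V : Type*} [NormedAddCommGroup V] [NormedSpace ℂ V] {k : ℕ} {S : Set V}
    (h : Cv k S) : ∃ (κ : Type) (_ : Countable κ) (c : κ → Cm k) (ρ : κ → ℝ) (g : κ → Cm k → V),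
      (∀ i, 0 < ρ i) ∧ (∀ i, ∀ p ∈ ball (c i) (ρ i), AnalyticAt ℂ (g i) p) ∧
      S ⊆ ⋃ i, g i '' ball (c i) (ρ i) := by
  obtain ⟨Ω, g, h1, h2, h3⟩ := h
  have key : ∀ (l : ℕ) (p : Cm k), p ∈ Ω l → ∃ r : ℝ, 0 < r ∧ ball p r ⊆ Ω l := by
    intro l p hp
    obtain ⟨r, hr, hr'⟩ := Metric.isOpen_iff.1 (h1 l) p hp
    exact ⟨r, hr, hr'⟩
  choose! r hr hrΩ using key
  have key2 : ∀ l, ∃ t ⊆ Ω l, t.Countable ∧ Ω l ⊆ ⋃ p ∈ t, ball p (r l p) := by
    intro l
    refine TopologicalSpace.countable_cover_nhdsWithin fun p hp => mem_nhdsWithin_of_mem_nhds ?_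
    exact ball_mem_nhds p (hr l p hp)
  choose t ht htc htS using key2
  have : ∀ l, Countable (t l) := fun l => (htc l).to_subtype
  refine ⟨Σ l, t l, inferInstance, fun q => q.2, fun q => r q.1 q.2, fun q => g q.1,
    fun q => hr _ _ (ht _ q.2.2), fun q p hp => h2 _ p (hrΩ _ _ (ht _ q.2.2) hp), fun x hx => ?_⟩
  obtain ⟨l, p, hp, rfl⟩ := mem_iUnion.1 (h3 hx)
  obtain ⟨q, hq, hq'⟩ := mem_iUnion₂.1 (htS l hp)
  exact mem_iUnion.2 ⟨⟨l, q, hq⟩, p, hq', rfl⟩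

theorem cv_zs {k : ℕ} {D : Set (Cm (k + 1))} {J : Cm (k + 1) → ℂ} (hD : IsOpen D)
    (hJ : ∀ p ∈ D, AnalyticAt ℂ J p) (hne : ∀ p ∈ D, ¬ J =ᶠ[𝓝 p] 0) :
    Cv k {p | p ∈ D ∧ J p = 0} := by
  obtain ⟨W, g, h1, h2, h3⟩ := Vale.Agent.P277.H622.stB1 k D J hD hJ hne
  exact ⟨W, g, h1, fun l p hp => (h2 l p hp).1, h3⟩

theorem countable_of_cv {V : Type*} [NormedAddCommGroup V] [NormedSpace ℂ V] {S : Set V}
    (h : Cv 0 S) : S.Countable := by
  obtain ⟨Ω, g, -, -, h3⟩ := h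
  exact (countable_iUnion fun l => (Set.to_countable (Ω l)).image (g l)).mono h3

/-- a linear form which does not vanish on countably many nonzero vectors -/
theorem exists_form {N : ℕ} {T : Set (Cm N)} (hT : T.Countable) :
    ∃ l : Cm N →L[ℂ] ℂ, ∀ v ∈ T, v ≠ 0 → l v ≠ 0 := by
  have h1 : ∀ v : Cm N, v ≠ 0 → Dense {l : Cm N →L[ℂ] ℂ | l v ≠ 0} := by
    intro v hv
    let s : Submodule ℂ (Cm N →L[ℂ] ℂ) :=
      LinearMap.ker (ContinuousLinearMap.apply ℂ ℂ v : (Cm N →L[ℂ] ℂ) →ₗ[ℂ] ℂ)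
    have h2 : {l : Cm N →L[ℂ] ℂ | l v ≠ 0} = (s : Set (Cm N →L[ℂ] ℂ))ᶜ := by
      ext l
      simp [s]
    rw [h2, ← interior_eq_empty_iff_dense_compl]
    by_contra hne
    have h3 := s.eq_top_of_nonempty_interior' (nonempty_iff_ne_empty.2 hne)
    obtain ⟨i, hi⟩ := Function.ne_iff.1 hv
    have h4 : (ContinuousLinearMap.proj i : Cm N →L[ℂ] ℂ) ∈ s := by rw [h3]; trivial
    exact hi (by simpa [s] using h4)
  have h5 : Dense (⋂ v ∈ {v | v ∈ T ∧ v ≠ 0}, {l : Cm N →L[ℂ] ℂ | l v ≠ 0}) := by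
    refine dense_biInter_of_isOpen (fun v _ => ?_) (hT.mono fun v hv => hv.1)
      fun v hv => h1 v hv.2
    exact isOpen_ne_fun (ContinuousLinearMap.apply ℂ ℂ v).continuous continuous_const
  obtain ⟨l, hl⟩ := h5.nonempty
  exact ⟨l, fun v hv hv0 => mem_iInter₂.1 hl v ⟨hv, hv0⟩⟩

/-- generic projections -/
theorem exists_proj {N : ℕ} (z : Cm N) {κ : Type} [Countable κ] (k : ℕ) :
    ∀ (S : Set (Cm N)) (P : κ → Submodule ℂ (Cm N)), Cv k S → (∀ j, Module.finrank ℂ (P j) ≤ k) →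
      ∃ π : Cm N →L[ℂ] Cm k, {y | y ∈ S ∧ π y = π z}.Countable ∧
        ∀ j, ∀ v ∈ P j, π v = 0 → v = 0 := by
  induction k with
  | zero =>
    intro S P hS hP
    refine ⟨0, (countable_of_cv hS).mono fun y hy => hy.1, fun j v hv _ => ?_⟩
    have h1 : P j = ⊥ := Submodule.finrank_eq_zero.1 (Nat.le_zero.1 (hP j))
    rw [h1] at hv
    exact hv
  | succ k ih =>
    intro S P hS hP
    obtain ⟨ι, hι, c, ρ, g, hρ, hg, hSg⟩ := cv_balls hS
    have h1 : ∀ i, ∃ p ∈ ball (c i) (ρ i), (∃ q ∈ ball (c i) (ρ i), g i q ≠ z) → g i p ≠ z := by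
      intro i
      by_cases h : ∃ q ∈ ball (c i) (ρ i), g i q ≠ z
      · obtain ⟨q, hq, hq'⟩ := h
        exact ⟨q, hq, fun _ => hq'⟩
      · exact ⟨c i, mem_ball_self (hρ i), fun h' => (h h').elim⟩
    choose p hp hpz using h1
    have h2 : ∀ j, ∃ v ∈ P j, P j ≠ ⊥ → v ≠ 0 := by
      intro j
      by_cases h : P j = ⊥
      · exact ⟨0, zero_mem _, fun h' => (h' h).elim⟩
      · obtain ⟨v, hv, hv0⟩ := Submodule.exists_mem_ne_zero_of_ne_bot h
        exact ⟨v, hv, fun _ => hv0⟩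
    choose v hv hv0 using h2
    obtain ⟨l, hl⟩ := exists_form
      ((countable_range fun i => g i (p i) - z).union (countable_range v))
    have h3 : Cv k {y | y ∈ S ∧ y ≠ z ∧ l (y - z) = 0} := by
      have h4 : ∀ i, Cv k (g i '' {q | q ∈ ball (c i) (ρ i) ∧ g i q ≠ z ∧ l (g i q - z) = 0}) := by
        intro i
        by_cases h : ∃ q ∈ ball (c i) (ρ i), g i q ≠ z
        · have han : ∀ q ∈ ball (c i) (ρ i), AnalyticAt ℂ (fun q => l (g i q - z)) q :=
            fun q hq => (l.analyticAt _).comp ((hg i q hq).sub analyticAt_const)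
          have h5 := cv_zs isOpen_ball han fun q hq hcon => by
            have h6 : EqOn (fun q => l (g i q - z)) 0 (ball (c i) (ρ i)) :=
              AnalyticOnNhd.eqOn_of_preconnected_of_eventuallyEq (g := 0) han
                (fun _ _ => analyticAt_const) (convex_ball _ _).isPreconnected hq hcon
            exact hl _ (Or.inl ⟨i, rfl⟩) (sub_ne_zero.2 (hpz i h)) (h6 (hp i))
          refine (h5.image isOpen_ball (fun q hq => hq.1) (hg i)).mono (image_mono ?_)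
          exact fun q hq => ⟨hq.1, hq.2.2⟩
        · refine cv_empty.mono ?_
          rintro _ ⟨q, hq, rfl⟩
          exact h ⟨q, hq.1, hq.2.1⟩
      refine (cv_iUnion h4).mono fun y hy => ?_
      obtain ⟨i, q, hq, rfl⟩ := mem_iUnion.1 (hSg hy.1)
      exact mem_iUnion.2 ⟨i, q, ⟨hq, hy.2⟩, rfl⟩
    have h7 : ∀ j, Module.finrank ℂ (P j ⊓ LinearMap.ker (l : Cm N →ₗ[ℂ] ℂ) : Submodule ℂ _) ≤ k := by
      intro j
      by_cases h : P j = ⊥
      · rw [h, bot_inf_eq, finrank_bot]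
        exact Nat.zero_le _
      · have h8 : P j ⊓ LinearMap.ker (l : Cm N →ₗ[ℂ] ℂ) < P j := by
          refine lt_of_le_of_ne inf_le_left fun h9 => ?_
          have h10 : v j ∈ P j ⊓ LinearMap.ker (l : Cm N →ₗ[ℂ] ℂ) := by rw [h9]; exact hv j
          exact hl _ (Or.inr ⟨j, rfl⟩) (hv0 j h) h10.2
        have := Submodule.finrank_lt_finrank_of_lt h8
        have := hP j
        omega
    obtain ⟨π, hπ, hπ'⟩ := ih _ _ h3 h7
    let π' : Cm N →L[ℂ] Cm (k + 1) := ContinuousLinearMap.pi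
      (Fin.cons l fun i => (ContinuousLinearMap.proj i : Cm k →L[ℂ] ℂ).comp π)
    have h0 : ∀ y, π' y 0 = l y := fun y => rfl
    have hs : ∀ y (i : Fin k), π' y i.succ = π y i := fun y i => rfl
    refine ⟨π', (hπ.insert z).mono ?_, fun j w hw hw0 => ?_⟩
    · rintro y ⟨hy, hy'⟩
      by_cases hyz : y = z
      · exact Or.inl hyz
      · refine Or.inr ⟨⟨hy, hyz, ?_⟩, ?_⟩
        · rw [map_sub, ← h0, ← h0, hy', sub_self]
        · funext i
          rw [← hs, ← hs, hy']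
    · refine hπ' j w ⟨hw, ?_⟩ ?_
      · show l w = 0
        rw [← h0, hw0]
        rfl
      · funext i
        rw [← hs, hw0]
        rfl

end H38

end Vale.Agent.P277Z.Pj
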