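import Vale.Agent.P277Z.Pj.Defs
import Vale.Agent.P277.H622.B2

/-!
# P277, block PROJ: thin sets do not disconnect, branched coverings
-/

open scoped Topology
open Vale.Agent.P272.K Set Filter Metric
open Vale.Agent.P277 Vale.Agent.P277.H762

noncomputable section

namespace Vale.Agent.P277Z.Pj

namespace Br

theorem finrank_cm (n : ℕ) : Module.finrank ℝ (Cm n) = 2 * n := by
  rw [Module.finrank_pi_fintype ℝ]
  simp [Complex.finrank_real_complex, mul_comm]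

/-- the cone over a thin set is small -/
theorem cone_small {n : ℕ} {T : Set (Cm (n + 1))} (hT : Cv n T) (p : Cm (n + 1)) :
    ∃ S : Set (Cm (n + 1)), dimH S ≤ ((2 * n + 1 : ℕ) : ENNReal) ∧
      ∀ x ∉ S, p ∉ T → ∀ t : ℝ, p + t • (x - p) ∉ T := by
  obtain ⟨Ω, g, hΩ, hg, hcov⟩ := hT
  refine ⟨⋃ l, (fun ut : Cm n × ℝ => p + ut.2 • (g l ut.1 - p)) '' (Ω l ×ˢ (univ : Set ℝ)), ?_,
    fun x hx hp t ht => hx ?_⟩
  · rw [dimH_iUnion]
    refine iSup_le fun l => ?_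
    have h0 : ContDiffOn ℝ 1 (g l) (Ω l) := fun u hu =>
      ((hg l u hu).restrictScalars (𝕜 := ℝ)).contDiffAt.contDiffWithinAt
    have h1 : ContDiffOn ℝ 1 (fun ut : Cm n × ℝ => g l ut.1) (Ω l ×ˢ (univ : Set ℝ)) :=
      h0.comp contDiff_fst.contDiffOn fun x hx => hx.1
    refine (H622.dimH_image_open_le ((hΩ l).prod isOpen_univ)
      (contDiffOn_const.add (contDiff_snd.contDiffOn.smul (h1.sub contDiffOn_const)))).trans ?_
    rw [Module.finrank_prod, finrank_cm, Module.finrank_self]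
  · have ht0 : t ≠ 0 := by
      rintro rfl
      rw [zero_smul, add_zero] at ht
      exact hp ht
    obtain ⟨l, u, hu, hgu⟩ := mem_iUnion.1 (hcov ht)
    refine mem_iUnion.2 ⟨l, (u, t⁻¹), ⟨hu, mem_univ _⟩, ?_⟩
    simp only [hgu]
    rw [add_sub_cancel_left, smul_smul, inv_mul_cancel₀ ht0, one_smul, add_sub_cancel]

theorem conn_convex {n : ℕ} {C T : Set (Cm (n + 1))} (hC : IsOpen C) (hc : Convex ℝ C)
    (hT : Cv n T) : IsPreconnected (C \ T) := by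
  refine isPreconnected_of_forall_pair fun p hp q hq => ?_
  obtain ⟨S, hS, h1⟩ := cone_small hT p
  obtain ⟨S', hS', h2⟩ := cone_small hT q
  have hd : Dense (S ∪ S')ᶜ := by
    refine dense_compl_of_dimH_lt_finrank ?_
    rw [dimH_union, finrank_cm]
    refine (max_le hS hS').trans_lt ?_
    exact_mod_cast (by omega : 2 * n + 1 < 2 * (n + 1))
  obtain ⟨x, hx, hxn⟩ := hd.inter_open_nonempty C hC ⟨p, hp.1⟩
  have hseg : ∀ p ∈ C, (∀ t : ℝ, p + t • (x - p) ∉ T) → segment ℝ p x ⊆ C \ T := by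
    intro p hp h z hz
    refine ⟨hc.segment_subset hp hx hz, ?_⟩
    rw [segment_eq_image'] at hz
    obtain ⟨t, -, rfl⟩ := hz
    exact h t
  refine ⟨segment ℝ p x ∪ segment ℝ q x,
    union_subset (hseg p hp.1 (h1 x (fun h => hxn (.inl h)) hp.2))
      (hseg q hq.1 (h2 x (fun h => hxn (.inr h)) hq.2)),
    Or.inl (left_mem_segment ℝ p x), Or.inr (left_mem_segment ℝ q x), ?_⟩
  exact IsPreconnected.union x (right_mem_segment ℝ p x) (right_mem_segment ℝ q x)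
    (convex_segment p x).isPreconnected (convex_segment q x).isPreconnected

theorem lt_rank (n : ℕ) : n < Module.finrank ℂ (Cm (n + 1)) := by simp

end Br

theorem conn : CONN := by
  intro n D B hD hDc hB
  have hdense : D ⊆ closure (D \ B) := fun y hy => hB.mem_closure (Br.lt_rank n) hD hy
  have hloc : ∀ y ∈ D, ∃ U ⊆ D, IsOpen U ∧ y ∈ U ∧ IsPreconnected (U \ B) := by
    intro y hy
    obtain ⟨r, hr, hs⟩ := Metric.isOpen_iff.1 hD y hy
    refine ⟨ball y r, hs, isOpen_ball, mem_ball_self hr, ?_⟩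
    have h1 := Br.conn_convex isOpen_ball (convex_ball y r) hB
    have h2 : ball y r \ (D ∩ B) = ball y r \ B :=
      Set.ext fun z => ⟨fun hz => ⟨hz.1, fun h => hz.2 ⟨hs hz.1, h⟩⟩, fun hz => ⟨hz.1, fun h => hz.2 h.2⟩⟩
    rwa [h2] at h1
  intro u v hu hv huv ⟨a, ⟨haD, haB⟩, hau⟩ ⟨b, ⟨hbD, hbB⟩, hbv⟩
  by_contra hne
  have hdisj : ∀ x ∈ D, x ∉ B → x ∈ u → x ∈ v → False := fun x hxD hx h1 h2 =>
    hne ⟨x, ⟨hxD, hx⟩, h1, h2⟩
  have hcase : ∀ y ∈ D, (∃ N ∈ 𝓝 y, N \ B ⊆ u ∧ N ⊆ D) ∨ ∃ N ∈ 𝓝 y, N \ B ⊆ v ∧ N ⊆ D := by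
    intro y hy
    obtain ⟨U, hUD, hUo, hyU, hUc⟩ := hloc y hy
    have h1 : U \ B ⊆ u ∪ v := fun x hx => huv ⟨hUD hx.1, hx.2⟩
    rcases (U \ B ∩ u).eq_empty_or_nonempty with h2 | h2
    · right
      refine ⟨U, hUo.mem_nhds hyU, fun x hx => (h1 hx).resolve_left fun h3 => ?_, hUD⟩
      exact (h2 ▸ ⟨hx, h3⟩ : x ∈ (∅ : Set (Cm (n + 1)))).elim
    · left
      refine ⟨U, hUo.mem_nhds hyU, fun x hx => (h1 hx).resolve_right fun h3 => ?_, hUD⟩
      obtain ⟨z, hz, hzu, hzv⟩ := hUc u v hu hv h1 h2 ⟨x, hx, h3⟩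
      exact hdisj z (hUD hz.1) hz.2 hzu hzv
  have hopen : ∀ w : Set (Cm (n + 1)),
      IsOpen {y : Cm (n + 1) | ∃ N ∈ 𝓝 y, N \ B ⊆ w ∧ N ⊆ D} := by
    intro w
    rw [isOpen_iff_mem_nhds]
    rintro y ⟨N, hN, hNw⟩
    filter_upwards [eventually_mem_nhds_iff.2 hN] with z hz using ⟨N, hz, hNw⟩
  obtain ⟨x, -, ⟨N, hN, hNu, hND⟩, N', hN', hNv, -⟩ := hDc _ _ (hopen u) (hopen v)
    (fun y hy => hcase y hy)
    ⟨a, haD, u ∩ D, (hu.inter hD).mem_nhds ⟨hau, haD⟩, fun x hx => hx.1.1, inter_subset_right⟩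
    ⟨b, hbD, v ∩ D, (hv.inter hD).mem_nhds ⟨hbv, hbD⟩, fun x hx => hx.1.1, inter_subset_right⟩
  have hxD : x ∈ D := hND (mem_of_mem_nhds hN)
  obtain ⟨z, ⟨hzN, hzN'⟩, hzD, hzB⟩ := mem_closure_iff_nhds.1 (hdense hxD) _ (inter_mem hN hN')
  exact hdisj z hzD hzB (hNu ⟨hzN, hzB⟩) (hNv ⟨hzN', hzB⟩)

section enum

variable {W F : Type} {V : Set W} {G : W → F} {z : F}

theorem exists_enum {A : Set W} (hA : A.Finite) :
    ∃ (m : ℕ) (p : Fin m → W), Function.Injective p ∧ ∀ y, (∃ k, p k = y) ↔ y ∈ A := by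
  classical
  refine ⟨hA.toFinset.card, fun k => (hA.toFinset.equivFin.symm k : W), fun a b hab => ?_,
    fun y => ⟨?_, fun hy => ?_⟩⟩
  · exact hA.toFinset.equivFin.symm.injective (Subtype.ext hab)
  · rintro ⟨k, rfl⟩
    exact hA.mem_toFinset.1 (hA.toFinset.equivFin.symm k).2
  · exact ⟨hA.toFinset.equivFin ⟨y, hA.mem_toFinset.2 hy⟩, by simp⟩

theorem Enum.mem {d : ℕ} {x : Fin d → W} (h : Enum V G z x) (k : Fin d) :
    x k ∈ V ∧ G (x k) = z := (h.2 _).1 ⟨k, rfl⟩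

theorem Enum.card_eq {d d' : ℕ} {x : Fin d → W} {x' : Fin d' → W} (h : Enum V G z x)
    (h' : Enum V G z x') : d = d' := by
  have h1 : range x = range x' := by
    ext y
    rw [mem_range, mem_range, h.2, h'.2]
  have h2 := Set.ncard_range_of_injective h.1
  have h3 := Set.ncard_range_of_injective h'.1
  rw [Nat.card_fin] at h2 h3
  rw [← h2, ← h3, h1]

theorem Enum.perm {d : ℕ} {x x' : Fin d → W} (h : Enum V G z x) (h' : Enum V G z x') :
    ∃ σ : Equiv.Perm (Fin d), ∀ k, x' k = x (σ k) := by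
  have h1 : ∀ k, ∃ l, x l = x' k := fun k => (h.2 _).2 ((h'.2 _).1 ⟨k, rfl⟩)
  choose σ hσ using h1
  have hσi : Function.Injective σ := by
    intro a b hab
    apply h'.1
    rw [← hσ a, ← hσ b, hab]
  exact ⟨Equiv.ofBijective σ (Finite.injective_iff_bijective.1 hσi), fun k => (hσ k).symm⟩

end enum

namespace PreC

variable {W : Type} [TopologicalSpace W] {H : (W → ℂ) → W → Prop} {n : ℕ} {V : Set W}
  {G : W → Cm (n + 1)} {B E : Set (Cm (n + 1))}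

theorem contAt (h : PreC H V G B E) {x : W} (hx : x ∈ V) : ContinuousAt G x :=
  h.cont.continuousAt (h.isOpen.mem_nhds hx)

theorem exists_compact (h : PreC H V G B E) {b : Cm (n + 1)} (hb : b ∈ B) :
    ∃ K ∈ 𝓝 b, K ⊆ B ∧ IsCompact (V ∩ G ⁻¹' K) :=
  let ⟨K, h1, h2, h3⟩ := exists_compact_subset h.openB hb
  ⟨K, mem_interior_iff_mem_nhds.1 h2, h3, h.proper K h3 h1⟩

theorem mem_closure (h : PreC H V G B E) {b : Cm (n + 1)} (hb : b ∈ B) : b ∈ closure (B \ E) :=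
  h.thin.mem_closure (Br.lt_rank n) h.openB hb

/-- the fibres near `b` lie in every neighbourhood of the fibre over `b` -/
theorem tube (h : PreC H V G B E) {b : Cm (n + 1)} (hb : b ∈ B) {O : Set W} (hO : IsOpen O)
    (hbO : ∀ x ∈ V, G x = b → x ∈ O) : ∀ᶠ w in 𝓝 b, ∀ x ∈ V, G x = w → x ∈ O := by
  obtain ⟨K, hK, -, hc⟩ := h.exists_compact hb
  have h1 : IsClosed (G '' ((V ∩ G ⁻¹' K) \ O)) :=
    ((hc.diff hO).image_of_continuousOn (h.cont.mono fun x hx => hx.1.1)).isClosed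
  have h2 : b ∉ G '' ((V ∩ G ⁻¹' K) \ O) := fun ⟨x, hx, e⟩ => hx.2 (hbO x hx.1.1 e)
  filter_upwards [hK, h1.isOpen_compl.mem_nhds h2] with w hw hw' x hx e
  by_contra hxO
  exact hw' ⟨x, ⟨⟨hx, by rw [mem_preimage, e]; exact hw⟩, hxO⟩, e⟩

theorem finite_fibre (h : PreC H V G B E) {b : Cm (n + 1)} (hb : b ∈ B \ E) :
    {x | x ∈ V ∧ G x = b}.Finite := by
  have hK : IsCompact {x | x ∈ V ∧ G x = b} :=
    h.proper {b} (singleton_subset_iff.2 hb.1) isCompact_singleton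
  have h1 : ∀ x ∈ {x | x ∈ V ∧ G x = b}, ∃ N ∈ 𝓝 x, (N ∩ {x | x ∈ V ∧ G x = b}) ⊆ {x} := by
    rintro x ⟨hx, hxz⟩
    obtain ⟨N, s, hN, hxN, -, -, hs⟩ := h.etale x hx (hxz ▸ hb.2)
    refine ⟨N, hN.mem_nhds hxN, ?_⟩
    rintro y ⟨hy, -, hyz⟩
    show y = x
    rw [← (hs y hy).1, ← (hs x hxN).1, hyz, hxz]
  choose! N hN hNs using h1
  obtain ⟨t, ht, htc⟩ := hK.elim_nhds_subcover N hN
  refine t.finite_toSet.subset fun x hx => ?_
  obtain ⟨y, hy, hxy⟩ := mem_iUnion₂.1 (htc hx)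
  have h3 : x = y := hNs y (ht y hy) ⟨hxy, hx⟩
  rw [h3]; exact hy

variable [T2Space W]

/-- local trivialisation -/
theorem triv (h : PreC H V G B E) {b : Cm (n + 1)} (hb : b ∈ B \ E) :
    ∃ (d : ℕ) (s : Fin d → Cm (n + 1) → W), ∀ᶠ w in 𝓝 b, w ∈ B \ E ∧
      Enum V G w (fun k => s k w) ∧
      ∀ k f, H f (s k w) → AnalyticAt ℂ (fun z => f (s k z)) w := by
  obtain ⟨m, p, hinj, hp⟩ := exists_enum (h.finite_fibre hb)
  have hpV : ∀ k, p k ∈ V ∧ G (p k) = b := fun k => (hp (p k)).1 ⟨k, rfl⟩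
  choose N s hN hpN hNV hGN hs using fun k => h.etale (p k) (hpV k).1 ((hpV k).2 ▸ hb.2)
  obtain ⟨U, hU, hUd⟩ := (finite_range p).t2_separation
  have hsb : ∀ k, s k b = p k := fun k => by
    rw [← (hpV k).2]
    exact (hs k _ (hpN k)).1
  have h1 : ∀ k, ∀ᶠ w in 𝓝 b, w ∈ G '' N k ∧ s k w ∈ U (p k) := by
    intro k
    have h2 : ContinuousAt (s k) b := (hpV k).2 ▸ (hs k _ (hpN k)).2.1
    exact Eventually.and ((hGN k).mem_nhds ⟨p k, hpN k, (hpV k).2⟩)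
      (h2.eventually_mem ((hU (p k)).2.mem_nhds (by rw [hsb]; exact (hU (p k)).1)))
  have h2 := h.tube hb.1 (isOpen_iUnion hN) fun x hx e => by
    obtain ⟨k, rfl⟩ := (hp x).2 ⟨hx, e⟩
    exact mem_iUnion.2 ⟨k, hpN k⟩
  refine ⟨m, s, ?_⟩
  filter_upwards [eventually_all.2 h1, h2, h.openE.mem_nhds hb] with w hw hw' hwE
  have h3 : ∀ k, s k w ∈ N k ∧ G (s k w) = w := by
    intro k
    obtain ⟨y, hy, rfl⟩ := (hw k).1
    rw [(hs k y hy).1]
    exact ⟨hy, rfl⟩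
  refine ⟨hwE, ⟨fun k l hkl => ?_, fun y => ⟨?_, ?_⟩⟩, fun k f hf => ?_⟩
  · by_contra hne
    have h5 : s k w = s l w := hkl
    exact disjoint_left.1 (hUd (mem_range_self k) (mem_range_self l) fun e => hne (hinj e))
      (hw k).2 (h5 ▸ (hw l).2)
  · rintro ⟨k, rfl⟩
    exact ⟨hNV k (h3 k).1, (h3 k).2⟩
  · rintro ⟨hy, rfl⟩
    obtain ⟨k, hk⟩ := mem_iUnion.1 (hw' y hy rfl)
    exact ⟨k, (hs k y hk).1⟩
  · have := (hs k _ (h3 k).1).2.2 f hf
    rwa [(h3 k).2] at this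

/-- the degree is constant -/
theorem exists_degree (h : PreC H V G B E) :
    ∃ d : ℕ, ∀ z ∈ B \ E, ∃ x : Fin d → W, Enum V G z x := by
  have h1 : ∀ z ∈ B \ E, ∃ d : ℕ, ∃ x : Fin d → W, Enum V G z x := by
    intro z hz
    obtain ⟨d, s, hs⟩ := h.triv hz
    exact ⟨d, _, hs.self_of_nhds.2.1⟩
  choose! dg hdg using h1
  have hloc : ContinuousOn dg (B \ E) := by
    intro z hz
    obtain ⟨d, s, hs⟩ := h.triv hz
    obtain ⟨x, hx⟩ := hdg z hz
    have h2 : d = dg z := Enum.card_eq hs.self_of_nhds.2.1 hx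
    refine (continuousAt_const.congr (f := fun _ => dg z) ?_).continuousWithinAt
    filter_upwards [hs] with w hw
    obtain ⟨x', hx'⟩ := hdg w hw.1
    rw [← h2]
    exact Enum.card_eq hw.2.1 hx'
  rcases (B \ E).eq_empty_or_nonempty with he | ⟨z0, hz0⟩
  · exact ⟨0, fun z hz => by rw [he] at hz; exact hz.elim⟩
  · refine ⟨dg z0, fun z hz => ?_⟩
    rw [← (conn n B E h.openB h.connB h.thin).constant hloc hz hz0]
    exact hdg z hz

/-- limits of enumerations -/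
theorem ulim (h : PreC H V G B E) {d : ℕ} {α : Type} (𝒰 : Ultrafilter α) {w : α → Cm (n + 1)}
    {x : α → Fin d → W} {b : Cm (n + 1)} (hb : b ∈ B) (hw : Tendsto w 𝒰 (𝓝 b))
    (hx : ∀ᶠ a in 𝒰, w a ∈ B \ E ∧ Enum V G (w a) (x a)) :
    ∃ y, Lim V G B E b y ∧ Tendsto x 𝒰 (𝓝 y) := by
  obtain ⟨K, hK, -, hc⟩ := h.exists_compact hb
  obtain ⟨y, hy, hl⟩ := (isCompact_univ_pi fun _ : Fin d => hc).ultrafilter_le_nhds (𝒰.map x) (by
    rw [Ultrafilter.coe_map, le_principal_iff, mem_map]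
    filter_upwards [hx, hw.eventually_mem hK] with a ha ha' k _
    exact ⟨(ha.2.mem k).1, by rw [mem_preimage, (ha.2.mem k).2]; exact ha'⟩)
  have hl' : Tendsto x 𝒰 (𝓝 y) := hl
  have hyV : ∀ k, y k ∈ V := fun k => (hy k (mem_univ _)).1
  refine ⟨y, ⟨mem_closure_of_tendsto hl' (hx.mono fun a ha => ⟨w a, ha⟩), fun k => ⟨hyV k, ?_⟩⟩,
    hl'⟩
  refine tendsto_nhds_unique ((h.contAt (hyV k)).tendsto.comp (tendsto_pi_nhds.1 hl' k))
    (hw.congr' (hx.mono fun a ha => (ha.2.mem k).2.symm))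

/-- symmetric functions of the sheets -/
theorem descend (h : PreC H V G B E) {d : ℕ} (x : Cm (n + 1) → Fin d → W)
    (hx : ∀ z ∈ B \ E, Enum V G z (x z))
    {ι : Type} [Fintype ι] (a : ι → W → ℂ) (ha : ∀ i, ∀ x ∈ V, H (a i) x)
    (Φ : (ι → Fin d → ℂ) → ℂ) (hΦ : ∀ A, AnalyticAt ℂ Φ A)
    (hsym : ∀ A (σ : Equiv.Perm (Fin d)), Φ (fun i k => A i (σ k)) = Φ A) :
    ∃ κ : Cm (n + 1) → ℂ, (∀ z ∈ B, AnalyticAt ℂ κ z) ∧
      ∀ z ∈ B \ E, ∀ y : Fin d → W, Enum V G z y → κ z = Φ fun i k => a i (y k) := by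
  have huniq : ∀ z ∈ B \ E, ∀ x' : Fin d → W, Enum V G z x' →
      Φ (fun i k => a i (x z k)) = Φ fun i k => a i (x' k) := by
    intro z hz x' hx'
    obtain ⟨σ, hσ⟩ := Enum.perm (hx z hz) hx'
    rw [← hsym (fun i k => a i (x z k)) σ]
    simp only [hσ]
  have hf1 : ∀ z ∈ B \ E, AnalyticAt ℂ (fun z => Φ fun i k => a i (x z k)) z := by
    intro z hz
    obtain ⟨d', s, hs⟩ := h.triv hz
    have hdd : d' = d := Enum.card_eq hs.self_of_nhds.2.1 (hx z hz)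
    subst hdd
    have h1 : AnalyticAt ℂ (fun w => Φ fun i k => a i (s k w)) z := by
      have h2 : AnalyticAt ℂ (fun w => (fun i k => a i (s k w) : ι → Fin d' → ℂ)) z := by
        refine AnalyticAt.pi fun i => AnalyticAt.pi fun k => ?_
        exact hs.self_of_nhds.2.2 k _ (ha i _ (hs.self_of_nhds.2.1.mem k).1)
      exact AnalyticAt.fun_comp (hΦ _) h2
    refine h1.congr ?_
    filter_upwards [hs] with w hw
    exact (huniq w hw.1 _ hw.2.1).symm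
  have hf2 : ∀ z ∈ B, ∃ C : ℝ, ∀ᶠ w in 𝓝 z, w ∉ E →
      ‖(fun z => Φ fun i k => a i (x z k)) w‖ ≤ C := by
    intro z hz
    obtain ⟨K, hK, hKB, hc⟩ := h.exists_compact hz
    have h1 : ContinuousOn (fun y : Fin d → W => Φ fun i k => a i (y k))
        (Set.pi univ fun _ => V ∩ G ⁻¹' K) := fun y hy =>
      ((hΦ _).continuousAt.comp (continuousAt_pi.2 fun i => continuousAt_pi.2 fun k =>
        (h.hcont _ _ (ha i _ (hy k (mem_univ _)).1)).comp_of_eq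
          (continuousAt_apply k y) rfl)).continuousWithinAt
    obtain ⟨C, hC⟩ := (isCompact_univ_pi fun _ : Fin d => hc).exists_bound_of_continuousOn h1
    refine ⟨C, ?_⟩
    filter_upwards [hK] with w hw hwE
    refine hC (x w) fun k _ => ?_
    have h2 := (hx w ⟨hKB hw, hwE⟩).mem k
    exact ⟨h2.1, by rw [mem_preimage, h2.2]; exact hw⟩
  obtain ⟨F, hF, hFf⟩ := riemann_ext_cv (n := n) (by simp) h.openB h.openE h.thin hf1 hf2
  exact ⟨F, hF, fun z hz x' hx' => (hFf z hz).trans (huniq z hz x' hx')⟩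

end PreC

theorem br : BR := by
  intro W _ _ H n V G B E h ⟨x₀, hx₀⟩
  obtain ⟨d, hd⟩ := h.exists_degree
  have : Nonempty (Fin d → W) := ⟨fun _ => x₀⟩
  have hd' := hd
  choose! x hx using hd'
  have hpos : 0 < d := by
    obtain ⟨x₁, hx₁, hE⟩ := closure_nonempty_iff.1 ⟨x₀, h.dense hx₀⟩
    obtain ⟨k, -⟩ := ((hx _ ⟨h.maps hx₁, hE⟩).2 x₁).2 ⟨hx₁, rfl⟩
    exact k.pos
  refine ⟨d, h, hpos, hd, fun b hb => ?_, fun x₁ hx₁ => ?_, fun ι _ a ha Φ hΦ hsym => ?_⟩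
  · have := mem_closure_iff_nhdsWithin_neBot.1 (h.mem_closure hb)
    have hU := Ultrafilter.of_le (𝓝[B \ E] b)
    obtain ⟨y, hy, -⟩ := h.ulim (Ultrafilter.of (𝓝[B \ E] b)) (w := id) (x := x) hb
      (hU.trans nhdsWithin_le_nhds)
      ((eventually_mem_nhdsWithin.filter_mono hU).mono fun w hw => ⟨hw, hx w hw⟩)
    exact ⟨y, hy⟩
  · have := mem_closure_iff_nhdsWithin_neBot.1 (h.dense hx₁)
    have hU := Ultrafilter.of_le (𝓝[V \ G ⁻¹' E] x₁)
    have hU' := hU.trans nhdsWithin_le_nhds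
    have he : ∀ᶠ a in Ultrafilter.of (𝓝[V \ G ⁻¹' E] x₁), a ∈ V \ G ⁻¹' E :=
      eventually_mem_nhdsWithin.filter_mono hU
    obtain ⟨y, hy, hl⟩ := h.ulim (Ultrafilter.of (𝓝[V \ G ⁻¹' E] x₁)) (w := G)
      (x := fun a => x (G a)) (h.maps hx₁) ((h.contAt hx₁).tendsto.mono_left hU')
      (he.mono fun a ha => ⟨⟨h.maps ha.1, ha.2⟩, hx _ ⟨h.maps ha.1, ha.2⟩⟩)
    obtain ⟨k, hk⟩ := Ultrafilter.eventually_exists_iff.1
      (he.mono fun a ha => ((hx _ ⟨h.maps ha.1, ha.2⟩).2 a).2 ⟨ha.1, rfl⟩)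
    exact ⟨y, k, hy, tendsto_nhds_unique (tendsto_pi_nhds.1 hl k)
      (Tendsto.congr' (hk.mono fun a ha => ha.symm) hU')⟩
  · obtain ⟨κ, hκ, hκ'⟩ := h.descend x hx a ha Φ hΦ hsym
    refine ⟨κ, hκ, fun b hb y hy => ?_⟩
    have := mem_closure_iff_nhdsWithin_neBot.1 hy.1
    let k₀ : Fin d := ⟨0, hpos⟩
    have h1 : ContinuousAt (fun y' : Fin d → W => κ (G (y' k₀))) y :=
      (hκ b hb).continuousAt.comp_of_eq
        ((h.contAt (hy.2 k₀).1).comp_of_eq (continuousAt_apply k₀ y) rfl) (hy.2 k₀).2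
    have h2 : ContinuousAt (fun y' : Fin d → W => Φ fun i k => a i (y' k)) y :=
      (hΦ _).continuousAt.comp (continuousAt_pi.2 fun i => continuousAt_pi.2 fun k =>
        (h.hcont _ _ (ha i _ (hy.2 k).1)).comp_of_eq (continuousAt_apply k y) rfl)
    have h4 : ∀ᶠ y' in 𝓝[{y' : Fin d → W | ∃ b' ∈ B \ E, Enum V G b' y'}] y,
        κ (G (y' k₀)) = Φ fun i k => a i (y' k) := by
      filter_upwards [self_mem_nhdsWithin] with y' hy'
      obtain ⟨b', hb', he⟩ := hy'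
      rw [(he.mem k₀).2]
      exact hκ' b' hb' y' he
    have h3 := tendsto_nhds_unique (h1.continuousWithinAt.tendsto.congr' h4)
      h2.continuousWithinAt.tendsto
    rwa [(hy.2 k₀).2] at h3

end Vale.Agent.P277Z.Pj
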