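import Vale.Agent.P277Z.Pj.Prj1
import Vale.Agent.P277Z.Pj.Br

/-!
# P277, block PROJ, row PRJ: good linear projections
-/

open scoped Manifold ContDiff Topology
open Vale.Agent.P272.K Vale.Agent.P285.H281.FD Set Filter Metric
open Vale.Agent.P277 Vale.Agent.P277.H762 Vale.Agent.P277.PH

noncomputable section

namespace Vale.Agent.P277Z.Pj

namespace H38

/-- the matrix of an endomorphism of `ℂⁿ` -/
def mt {n : ℕ} (L : Cm n →L[ℂ] Cm n) : Matrix (Fin n) (Fin n) ℂ :=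
  Matrix.of fun i j => L (Pi.single j 1) i

theorem injective_iff_det {n : ℕ} (L : Cm n →L[ℂ] Cm n) :
    Function.Injective L ↔ (mt L).det ≠ 0 := by
  have h1 : mt L = LinearMap.toMatrix' (L : Cm n →ₗ[ℂ] Cm n) := by
    ext i j
    rw [LinearMap.toMatrix'_apply]
    rfl
  rw [h1, LinearMap.det_toMatrix']
  constructor
  · intro h
    exact (LinearEquiv.ofInjectiveEndo (L : Cm n →ₗ[ℂ] Cm n) h).isUnit_det'.ne_zero
  · intro h
    have h2 : LinearMap.ker (L : Cm n →ₗ[ℂ] Cm n) = ⊥ := by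
      by_contra hk
      exact h (LinearMap.det_eq_zero_iff_ker_ne_bot.2 hk)
    exact LinearMap.ker_eq_bot.1 h2

theorem an_det {n : ℕ} {f : Cm n → Cm n} {p : Cm n} (hf : AnalyticAt ℂ f p) :
    AnalyticAt ℂ (fun q => (mt (fderiv ℂ f q)).det) p := by
  refine H762.analyticAt_det fun i j => ?_
  have h2 := ((ContinuousLinearMap.apply ℂ (Cm n) (Pi.single j (1 : ℂ) : Cm n)).analyticAt _).comp
    hf.fderiv
  exact ((ContinuousLinearMap.proj (R := ℂ) (φ := fun _ : Fin n => ℂ) i).analyticAt _).comp h2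

section man

variable {m : ℕ} {W : Type} [TopologicalSpace W] [ChartedSpace (Cm m) W]

theorem cont_of {F : Type} [TopologicalSpace F] {h : W → F} {y : W}
    (hh : ∀ e : Chart m W, At e y → ContinuousAt (fun z => h (e.symm z)) (e y)) :
    ContinuousAt h y := by
  set e := chartAt (Cm m) y with he
  have hye : y ∈ e.source := mem_chart_source _ y
  have h1 := hh e ⟨chart_mem_atlas _ _, hye⟩
  have h2 : ContinuousAt (fun y' => h (e.symm (e y'))) y :=
    ContinuousAt.comp (g := fun z => h (e.symm z)) h1 (e.continuousAt hye)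
  refine h2.congr ?_
  filter_upwards [e.open_source.mem_nhds hye] with y' hy'
  rw [e.left_inv hy']

/-- `G` is analytic in all charts at `w`. -/
def An (m : ℕ) [ChartedSpace (Cm m) W] {k : ℕ} (G : W → Cm k) (w : W) : Prop :=
  ∀ e : Chart m W, At e w → AnalyticAt ℂ (fun z => G (e.symm z)) (e w)

theorem An.cont {k : ℕ} {G : W → Cm k} {w : W} (h : An m G w) : ContinuousAt G w :=
  cont_of fun e he => (h e he).continuousAt

theorem An.clm {k k' : ℕ} {G : W → Cm k} {w : W} (h : An m G w) (π : Cm k →L[ℂ] Cm k') :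
    An m (fun w => π (G w)) w := fun e he => (π.analyticAt _).comp (h e he)

theorem an_of {k : ℕ} {G : W → Cm k} {w : W} (h : ∀ i, HolF m (fun w => G w i) w) : An m G w :=
  fun e he => AnalyticAt.pi fun i => h i e he

theorem an_target {k : ℕ} {G : W → Cm k} {O : Set W} (h : ∀ w ∈ O, An m G w) {e : Chart m W}
    (he : e ∈ atlas (Cm m) W) {p : Cm m} (hp : p ∈ e.target ∩ e.symm ⁻¹' O) :
    AnalyticAt ℂ (fun z => G (e.symm z)) p := by
  have h1 := h _ hp.2 e ⟨he, e.map_target hp.1⟩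
  rwa [e.right_inv hp.1] at h1

/-- `G` is a local isomorphism at `w`. -/
def Rg (G : W → Cm m) (w : W) : Prop :=
  ∃ e : Chart m W, At e w ∧ Function.Injective (fderiv ℂ (fun z => G (e.symm z)) (e w))

theorem isOpen_rg {G : W → Cm m} {O : Set W} (hO : IsOpen O) (h : ∀ w ∈ O, An m G w) :
    IsOpen {w | w ∈ O ∧ Rg G w} := by
  rw [isOpen_iff_mem_nhds]
  rintro w ⟨hw, e, he, hi⟩
  have h1 := (an_det (h w hw e he)).continuousAt.eventually_ne ((injective_iff_det _).1 hi)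
  filter_upwards [hO.mem_nhds hw, e.open_source.mem_nhds he.2, e.continuousAt he.2 h1]
    with w' h2 h3 h4
  exact ⟨h2, e, ⟨he.1, h3⟩, (injective_iff_det _).2 h4⟩

theorem lsec {G : W → Cm m} {V : Set W} (hV : IsOpen V) {w : W} (hw : w ∈ V) (h : An m G w)
    (hr : Rg G w) : LSec (HolF m) V G w := by
  obtain ⟨e, he, hi⟩ := hr
  set L := fderiv ℂ (fun z => G (e.symm z)) (e w) with hL
  let i : Cm m ≃L[ℂ] Cm m :=
    (LinearEquiv.ofInjectiveEndo (L : Cm m →ₗ[ℂ] Cm m) hi).toContinuousLinearEquiv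
  obtain ⟨φ, hφ, hp, -, hφ'⟩ := exists_localInvV (h e he) i (by ext1 v; rfl)
  have hG : ∀ y ∈ e.source, G y = φ (e y) := by
    intro y hy
    rw [hφ]
    simp only [e.left_inv hy]
  have hN : IsOpen (e.source ∩ e ⁻¹' φ.source ∩ V) :=
    (e.isOpen_inter_preimage φ.open_source).inter hV
  refine ⟨e.source ∩ e ⁻¹' φ.source ∩ V, fun b => e.symm (φ.symm b), hN, ⟨⟨he.2, hp⟩, hw⟩,
    inter_subset_right, ?_, ?_⟩
  · have h1 : G '' (e.source ∩ e ⁻¹' φ.source ∩ V) = φ '' (e '' (e.source ∩ e ⁻¹' φ.source ∩ V)) := by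
      rw [image_image]
      exact image_congr fun y hy => hG y hy.1.1
    rw [h1]
    refine φ.isOpen_image_of_subset_source
      (e.isOpen_image_of_subset_source hN fun y hy => hy.1.1) ?_
    rintro _ ⟨y, hy, rfl⟩
    exact hy.1.2
  · rintro y ⟨⟨hy, hy'⟩, -⟩
    have h1 : φ.symm (G y) = e y := by rw [hG y hy, φ.left_inv hy']
    have h2 : AnalyticAt ℂ φ.symm (G y) := hφ' _ (by rw [hG y hy]; exact φ.map_source hy')
    refine ⟨by simp only [h1, e.left_inv hy], ?_, fun f hf => ?_⟩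
    · refine ContinuousAt.comp (g := e.symm) ?_ h2.continuousAt
      rw [h1]
      exact e.continuousAt_symm (e.map_source hy)
    · exact (hf e ⟨he.1, hy⟩).comp_of_eq h2 h1

end man

section build

variable {n : ℕ} {W : Type} [TopologicalSpace W] [ChartedSpace (Cm (n + 1)) W]
variable {N : ℕ} {O : Set W} {t : W → Cm N} {Ω : Set (Cm N)}

theorem exists_good [SecondCountableTopology W] (h : Gfin (n + 1) O t Ω) (z : Cm N) :
    ∃ π : Cm N →L[ℂ] Cm (n + 1), {y | y ∈ t '' O ∧ π y = π z}.Countable ∧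
      O ⊆ closure {w | w ∈ O ∧ Rg (fun w => π (t w)) w} ∧
      Cv n ((fun w => π (t w)) '' {w | w ∈ O ∧ ¬ Rg (fun w => π (t w)) w}) := by
  have han : ∀ w ∈ O, An (n + 1) t w := fun w hw => an_of (h.hol w hw)
  obtain ⟨T, -, hTc, hT⟩ := TopologicalSpace.countable_cover_nhdsWithin (s := O)
    (f := fun w => (chartAt (Cm (n + 1)) w).source)
    fun w _ => mem_nhdsWithin_of_mem_nhds (chart_source_mem_nhds _ w)
  obtain ⟨D', hD'c, hD'⟩ := TopologicalSpace.exists_countable_dense {w | w ∈ O ∧ Imm (n + 1) t w}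
  set D : Set W := Subtype.val '' D' with hD
  have hDc : D.Countable := hD'c.image _
  have hDs : ∀ w ∈ D, w ∈ O ∧ Imm (n + 1) t w := by
    rintro _ ⟨w, -, rfl⟩
    exact w.2
  have hDd : O ⊆ closure D := by
    refine h.imm.trans (closure_minimal ?_ isClosed_closure)
    exact Subtype.dense_iff.1 hD'
  have : Countable T := hTc
  have : Countable D := hDc
  have hop : ∀ x : W, IsOpen ((chartAt (Cm (n + 1)) x).target ∩
      (chartAt (Cm (n + 1)) x).symm ⁻¹' O) :=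
    fun x => (chartAt (Cm (n + 1)) x).isOpen_inter_preimage_symm h.isOpen
  have hS : Cv (n + 1) (t '' O) := by
    refine cv_of_family (κ := T) (fun x => (chartAt (Cm (n + 1)) x.1).target ∩
      (chartAt (Cm (n + 1)) x.1).symm ⁻¹' O) (fun x p => t ((chartAt (Cm (n + 1)) x.1).symm p))
      (fun x => hop x) (fun x p hp => an_target han (chart_mem_atlas _ _) hp) ?_
    rintro _ ⟨w, hw, rfl⟩
    obtain ⟨x, hx, hwx⟩ := mem_iUnion₂.1 (hT hw)
    have h1 := (chartAt (Cm (n + 1)) x).left_inv hwx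
    exact mem_iUnion.2 ⟨⟨x, hx⟩, chartAt (Cm (n + 1)) x w,
      ⟨(chartAt (Cm (n + 1)) x).map_source hwx, by rw [mem_preimage, h1]; exact hw⟩,
      by simp only [h1]⟩
  obtain ⟨π, hπ, hπ'⟩ := exists_proj z (κ := T × D) (n + 1) (t '' O)
    (fun j => LinearMap.range (fderiv ℂ (fun p => t ((chartAt (Cm (n + 1)) j.1.1).symm p))
      (chartAt (Cm (n + 1)) j.1.1 j.2.1) : Cm (n + 1) →ₗ[ℂ] Cm N)) hS
    fun j => (LinearMap.finrank_range_le _).trans (by simp)
  have key : ∀ x ∈ T, ∀ w ∈ D, w ∈ (chartAt (Cm (n + 1)) x).source → Function.Injective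
      (fderiv ℂ (fun p => π (t ((chartAt (Cm (n + 1)) x).symm p))) (chartAt (Cm (n + 1)) x w)) := by
    intro x hx w hw hwx
    have he : At (chartAt (Cm (n + 1)) x) w := ⟨chart_mem_atlas _ _, hwx⟩
    have h1 := (han w (hDs w hw).1 _ he).differentiableAt.hasFDerivAt
    have h2 := (π.hasFDerivAt.comp _ h1).fderiv
    have h3 : fderiv ℂ (fun p => π (t ((chartAt (Cm (n + 1)) x).symm p)))
        (chartAt (Cm (n + 1)) x w) = _ := h2
    rw [h3, injective_iff_map_eq_zero]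
    intro v hv
    have h4 := hπ' (⟨x, hx⟩, ⟨w, hw⟩) _ ⟨v, rfl⟩ hv
    exact (injective_iff_map_eq_zero _).1 ((hDs w hw).2 _ he) v h4
  have hG : ∀ w ∈ O, An (n + 1) (fun w => π (t w)) w := fun w hw => (han w hw).clm π
  refine ⟨π, hπ, hDd.trans (closure_mono fun w hw => ?_), ?_⟩
  · obtain ⟨x, hx, hwx⟩ := mem_iUnion₂.1 (hT (hDs w hw).1)
    exact ⟨(hDs w hw).1, _, ⟨chart_mem_atlas _ _, hwx⟩, key x hx w hw hwx⟩
  · have h1 : ∀ x ∈ T, Cv n ((fun p => π (t ((chartAt (Cm (n + 1)) x).symm p))) ''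
        {p | p ∈ (chartAt (Cm (n + 1)) x).target ∩ (chartAt (Cm (n + 1)) x).symm ⁻¹' O ∧
          (mt (fderiv ℂ (fun p => π (t ((chartAt (Cm (n + 1)) x).symm p))) p)).det = 0}) := by
      intro x hx
      set e := chartAt (Cm (n + 1)) x with he
      have h2 : ∀ p ∈ e.target ∩ e.symm ⁻¹' O, AnalyticAt ℂ (fun p => π (t (e.symm p))) p :=
        fun p hp => an_target hG (chart_mem_atlas _ _) hp
      refine (cv_zs (hop x) (fun p hp => an_det (h2 p hp)) fun p hp hcon => ?_).image (hop x)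
        (fun p hp => hp.1) h2
      have h3 : e.symm p ∈ e.source := e.map_target hp.1
      have h4 : ∀ᶠ w in 𝓝 (e.symm p),
          (mt (fderiv ℂ (fun p => π (t (e.symm p))) (e w))).det = 0 := by
        have h5 := e.continuousAt h3
        rw [ContinuousAt, e.right_inv hp.1] at h5
        exact h5.eventually hcon
      obtain ⟨w, ⟨h6, h7⟩, h8⟩ := mem_closure_iff_nhds.1 (hDd hp.2) _
        (inter_mem h4 (e.open_source.mem_nhds h3))
      exact (injective_iff_det _).1 (key x hx w h8 h7) h6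
    refine (cv_biUnion hTc h1).mono ?_
    rintro _ ⟨w, ⟨hw, hw'⟩, rfl⟩
    obtain ⟨x, hx, hwx⟩ := mem_iUnion₂.1 (hT hw)
    have h2 := (chartAt (Cm (n + 1)) x).left_inv hwx
    refine mem_iUnion₂.2 ⟨x, hx, chartAt (Cm (n + 1)) x w,
      ⟨⟨(chartAt (Cm (n + 1)) x).map_source hwx, by rw [mem_preimage, h2]; exact hw⟩, ?_⟩,
      by simp only [h2]⟩
    by_contra h3
    exact hw' ⟨_, ⟨chart_mem_atlas _ _, hwx⟩, (injective_iff_det _).2 h3⟩

theorem build (h : Prp (n + 1) O t Ω) {z : Cm N} {π : Cm N →L[ℂ] Cm (n + 1)}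
    (hd : O ⊆ closure {w | w ∈ O ∧ Rg (fun w => π (t w)) w})
    (hc : Cv n ((fun w => π (t w)) '' {w | w ∈ O ∧ ¬ Rg (fun w => π (t w)) w}))
    {ρ : ℝ} (hρ : closedBall z ρ ⊆ Ω) (hs : ∀ w ∈ O, dist (t w) z = ρ → π (t w) ≠ π z) :
    ∃ (r : ℝ) (E : Set (Cm (n + 1))), 0 < r ∧
      PreC (HolF (n + 1)) (O ∩ t ⁻¹' (ball z ρ ∩ π ⁻¹' ball (π z) r)) (fun w => π (t w))
        (ball (π z) r) E := by
  have han : ∀ w ∈ O, An (n + 1) t w := fun w hw => an_of (h.hol w hw)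
  have hG : ∀ w ∈ O, An (n + 1) (fun w => π (t w)) w := fun w hw => (han w hw).clm π
  have htc : ContinuousOn t O := fun w hw => (han w hw).cont.continuousWithinAt
  have hGc : ContinuousOn (fun w => π (t w)) O := fun w hw => (hG w hw).cont.continuousWithinAt
  have hK : IsCompact ((fun w => π (t w)) '' (O ∩ t ⁻¹' sphere z ρ)) :=
    (h.proper _ (sphere_subset_closedBall.trans hρ) (isCompact_sphere z ρ)).image_of_continuousOn
      (hGc.mono inter_subset_left)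
  obtain ⟨r, hr, hrK⟩ := Metric.isOpen_iff.1 hK.isClosed.isOpen_compl (π z) (by
    rintro ⟨w, hw, hw'⟩
    exact hs w hw.1 hw.2 hw')
  set V := O ∩ t ⁻¹' (ball z ρ ∩ π ⁻¹' ball (π z) r) with hV
  have hVo : IsOpen V :=
    htc.isOpen_inter_preimage h.isOpen (isOpen_ball.inter (isOpen_ball.preimage π.continuous))
  have hpr : ∀ K ⊆ ball (π z) r, IsCompact K → IsCompact (V ∩ (fun w => π (t w)) ⁻¹' K) := by
    intro K hKb hKc
    have h1 : V ∩ (fun w => π (t w)) ⁻¹' K = O ∩ t ⁻¹' (closedBall z ρ ∩ π ⁻¹' K) := by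
      ext w
      constructor
      · rintro ⟨⟨h2, h3, -⟩, h4⟩
        exact ⟨h2, ball_subset_closedBall h3, h4⟩
      · rintro ⟨h2, h3, h4⟩
        refine ⟨⟨h2, mem_ball.2 (lt_of_le_of_ne (mem_closedBall.1 h3) fun h5 => ?_), hKb h4⟩, h4⟩
        exact hrK (hKb h4) ⟨w, ⟨h2, h5⟩, rfl⟩
    rw [h1]
    exact h.proper _ (inter_subset_left.trans hρ)
      ((isCompact_closedBall z ρ).inter_right (hKc.isClosed.preimage π.continuous))
  set E := (fun w => π (t w)) '' (V \ {w | w ∈ O ∧ Rg (fun w => π (t w)) w}) with hE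
  have hEc : Cv n E := hc.mono (image_mono fun w hw => ⟨hw.1.1, fun h' => hw.2 ⟨hw.1.1, h'⟩⟩)
  refine ⟨r, E, hr, fun f x hf => cont_of fun e he => (hf e he).continuousAt, hVo, isOpen_ball,
    (convex_ball _ _).isPreconnected, hGc.mono inter_subset_left, fun w hw => hw.2.2, hpr, ?_,
    hEc.mono inter_subset_right, fun x hx hxE => ?_, fun x hx => ?_⟩
  · rw [isOpen_iff_mem_nhds]
    rintro b ⟨hb, hbE⟩
    obtain ⟨K, hKb, hKs, hKc⟩ := local_compact_nhds (isOpen_ball.mem_nhds hb)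
    have h1 := ((hpr K hKs hKc).diff (isOpen_rg h.isOpen hG)).image_of_continuousOn
      (hGc.mono fun w hw => hw.1.1.1)
    have h2 := h1.isClosed.isOpen_compl.mem_nhds (x := b) (by
      rintro ⟨w, hw, hw'⟩
      exact hbE ⟨w, ⟨hw.1.1, hw.2⟩, hw'⟩)
    filter_upwards [hKb, h2] with b' h3 h4
    refine ⟨hKs h3, ?_⟩
    rintro ⟨w, hw, rfl⟩
    exact h4 ⟨w, ⟨⟨hw.1, h3⟩, hw.2⟩, rfl⟩
  · refine lsec hVo hx (hG x hx.1) ?_
    by_contra h1
    exact hxE ⟨x, ⟨hx, fun h' => h1 h'.2⟩, rfl⟩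
  · rw [_root_.mem_closure_iff]
    intro M hM hxM
    obtain ⟨w, ⟨h1, h2⟩, h3, h4⟩ := _root_.mem_closure_iff.1 (hd hx.1) _ (hM.inter hVo) ⟨hxM, hx⟩
    obtain ⟨N', s, -, h5, h6, h7, -⟩ := lsec (hM.inter hVo) ⟨h1, h2⟩ (hG w h3) h4
    by_contra hcon
    refine not_cv_nhds (k := n) (by simp) (h7.mem_nhds ⟨w, h5, rfl⟩) (hEc.mono ?_)
    rintro _ ⟨y, hy, rfl⟩
    by_contra h8
    exact hcon ⟨y, (h6 hy).1, (h6 hy).2, h8⟩

end build

/-- the fibres of a branched covering are finite modulo holomorphic functions -/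
theorem fin_of_cov {W : Type} [TopologicalSpace W] {H : (W → ℂ) → W → Prop} {n : ℕ} {V : Set W}
    {G : W → Cm (n + 1)} {B E : Set (Cm (n + 1))} {d : ℕ} (h : Cov H V G B E d) {a : W → ℂ}
    (ha : ∀ x ∈ V, H a x) {b : Cm (n + 1)} (hb : b ∈ B) :
    (a '' {x | x ∈ V ∧ G x = b}).Finite := by
  obtain ⟨y, hy⟩ := h.lim b hb
  refine (finite_range fun k => a (y k)).subset ?_
  rintro _ ⟨x, ⟨hx, hxb⟩, rfl⟩
  obtain ⟨y', k, hy', hk⟩ := h.lim' x hx
  rw [hxb] at hy'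
  obtain ⟨κ, -, hκ⟩ := h.sym Unit (fun _ => a) (fun _ => ha) (fun A => ∏ j, (a x - A () j))
    (fun A => Finset.analyticAt_fun_prod _ fun j _ => analyticAt_const.sub
      (((ContinuousLinearMap.proj (R := ℂ) (φ := fun _ : Fin d => ℂ) j).comp
        (ContinuousLinearMap.proj (R := ℂ) (φ := fun _ : Unit => Fin d → ℂ) ())).analyticAt A))
    (fun A σ => Equiv.prod_comp σ fun j => a x - A () j)
  have h1 : ∏ j, (a x - a (y j)) = 0 := by
    have h2 : ∏ j, (a x - a (y j)) = ∏ j, (a x - a (y' j)) :=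
      (hκ b hb y hy).symm.trans (hκ b hb y' hy')
    rw [h2]
    exact Finset.prod_eq_zero (Finset.mem_univ k) (by rw [hk, sub_self])
  obtain ⟨j, -, hj⟩ := Finset.prod_eq_zero_iff.1 h1
  exact ⟨j, (sub_eq_zero.1 hj).symm⟩

end H38

open H38 in
theorem prj_of (hBR : BR) : PRJ := by
  intro n W _ _ _ _ _ N O t Ω h z hz
  obtain ⟨π, hπ, hd, hc⟩ := exists_good h z
  obtain ⟨ε, hε, hεΩ⟩ := nhds_basis_closedBall.mem_iff.1 (h.isOpen'.mem_nhds hz)
  obtain ⟨ρ, hρ, hρ'⟩ : ∃ ρ ∈ Ioo 0 ε, ρ ∉ (fun y => dist y z) '' {y | y ∈ t '' O ∧ π y = π z} := by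
    obtain ⟨ρ, h1, h2⟩ := ((hπ.image fun y => dist y z).dense_compl ℝ).inter_open_nonempty _
      isOpen_Ioo (nonempty_Ioo.2 hε)
    exact ⟨ρ, h1, h2⟩
  obtain ⟨r, E, hr, hP⟩ := build h.toPrp hd hc ((closedBall_subset_closedBall hρ.2.le).trans hεΩ)
    fun w hw h1 h2 => hρ' ⟨t w, ⟨⟨w, hw, rfl⟩, h2⟩, h1⟩
  have hfin : (t '' {w | w ∈ O ∩ t ⁻¹' (ball z ρ ∩ π ⁻¹' ball (π z) r) ∧ π (t w) = π z}).Finite := by
    rcases (O ∩ t ⁻¹' (ball z ρ ∩ π ⁻¹' ball (π z) r)).eq_empty_or_nonempty with h1 | h1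
    · rw [h1]
      simp
    · obtain ⟨d, hd⟩ := hBR _ _ _ _ _ _ _ hP h1
      refine (Set.Finite.pi' fun i => fin_of_cov hd (a := fun w => t w i)
        (fun x hx => h.hol x hx.1 i) (mem_ball_self hr)).subset ?_
      rintro _ ⟨w, hw, rfl⟩ i
      exact ⟨w, hw, rfl⟩
  have hiso : ∀ᶠ y in 𝓝 z, ∀ w ∈ O, t w = y → π y = π z → y = z := by
    have h1 := (hfin.sdiff (t := {z})).isClosed.isOpen_compl.mem_nhds (x := z) fun h' => h'.2 rfl
    filter_upwards [h1, ball_mem_nhds z hρ.1] with y h2 h3 w hw hwy hy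
    subst hwy
    by_contra h4
    exact h2 ⟨⟨w, ⟨⟨hw, h3, by rw [mem_preimage, hy]; exact mem_ball_self hr⟩, hy⟩, rfl⟩, h4⟩
  refine ⟨π, fun U hU => ?_⟩
  obtain ⟨δ, hδ, hδs⟩ := nhds_basis_closedBall.mem_iff.1
    (inter_mem hiso (inter_mem hU (h.isOpen'.mem_nhds hz)))
  obtain ⟨r', E', hr', hP'⟩ := build h.toPrp hd hc (ρ := δ) (fun y hy => (hδs hy).2.2)
    fun w hw h1 h2 => by
      have h3 := (hδs (show t w ∈ closedBall z δ from h1.le)).1 w hw rfl h2
      rw [h3, dist_self] at h1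
      exact hδ.ne h1
  refine ⟨_, r', E', isOpen_ball.inter (isOpen_ball.preimage π.continuous),
    ⟨mem_ball_self hδ, mem_ball_self hr'⟩, fun y hy => (hδs (ball_subset_closedBall hy.1)).2, hr',
    fun y hy => hy.2, hP', fun w hw h1 => ?_⟩
  exact (hδs (ball_subset_closedBall hw.2.1)).1 w hw.1 rfl h1

theorem prj : PRJ := prj_of br

end Vale.Agent.P277Z.Pj
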