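import Vale.Agent.P277Z.Pj.Defs

/-!
# P277, block PROJ: the characteristic polynomial of a function on a branched covering
-/

open Vale.Agent.P272.K Set Filter Polynomial

noncomputable section

namespace Vale.Agent.P277Z.Pj

theorem analytic_coeff {d : ℕ} (s : Finset (Fin d)) (i : ℕ) (A : Fin d → ℂ) :
    AnalyticAt ℂ (fun f : Fin d → ℂ => (∏ k ∈ s, (X - C (f k)) : ℂ[X]).coeff i) A := by
  induction s using Finset.induction_on generalizing i with
  | empty =>
    simp only [Finset.prod_empty]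
    exact analyticAt_const
  | insert a s ha ih =>
    simp only [Finset.prod_insert ha, sub_mul, coeff_sub, coeff_C_mul]
    have hp : AnalyticAt ℂ (fun f : Fin d → ℂ => f a) A :=
      (ContinuousLinearMap.proj (R := ℂ) (φ := fun _ : Fin d => ℂ) a).analyticAt _
    cases i with
    | zero =>
      simp only [mul_coeff_zero, coeff_X_zero, zero_mul, zero_sub]
      exact (hp.mul (ih 0)).neg
    | succ i =>
      simp only [coeff_X_mul]
      exact (ih i).sub (hp.mul (ih (i + 1)))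

theorem prod_sub_eq {d : ℕ} (A : Fin d → ℂ) (T : ℂ) : ∏ k, (T - A k) =
    T ^ d + ∑ i ∈ Finset.range d, (∏ k, (X - C (A k)) : ℂ[X]).coeff i * T ^ i := by
  have hm : (∏ k, (X - C (A k)) : ℂ[X]).Monic := monic_prod_of_monic _ _ fun k _ => monic_X_sub_C _
  have hd : (∏ k, (X - C (A k)) : ℂ[X]).natDegree = d := by
    rw [natDegree_prod_of_monic _ _ fun k _ => monic_X_sub_C _]
    simp
  have := eval_eq_sum_range (p := (∏ k, (X - C (A k)) : ℂ[X])) T
  rw [Finset.sum_range_succ, hm.coeff_natDegree, hd, eval_prod] at this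
  simp only [eval_sub, eval_X, eval_C] at this
  rw [this, one_mul, add_comm]

variable {W : Type} [TopologicalSpace W] {H : (W → ℂ) → W → Prop} {n : ℕ} {V : Set W}
  {G : W → Cm (n + 1)} {B E : Set (Cm (n + 1))} {d : ℕ}

/-- the characteristic polynomial -/
theorem Cov.poly (h : Cov H V G B E d) (f : W → ℂ) (hf : ∀ x ∈ V, H f x) :
    ∃ κ : ℕ → Cm (n + 1) → ℂ, (∀ i, ∀ b ∈ B, AnalyticAt ℂ (κ i) b) ∧
      ∀ b ∈ B, ∀ y : Fin d → W, Lim V G B E b y → ∀ T : ℂ,
        ∏ k, (T - f (y k)) = T ^ d + ∑ i ∈ Finset.range d, κ i b * T ^ i := by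
  have h1 := fun i : ℕ => h.sym Unit (fun _ => f) (fun _ => hf)
    (fun A => (∏ k, (X - C (A () k)) : ℂ[X]).coeff i)
    (fun A => AnalyticAt.fun_comp (g := fun f : Fin d → ℂ => (∏ k, (X - C (f k)) : ℂ[X]).coeff i)
      (f := fun A : Unit → Fin d → ℂ => A ()) (analytic_coeff _ i (A ()))
      ((ContinuousLinearMap.proj (R := ℂ) (φ := fun _ : Unit => Fin d → ℂ) ()).analyticAt _))
    (fun A σ => by
      show (∏ k, (X - C (A () (σ k))) : ℂ[X]).coeff i = _
      rw [Equiv.prod_comp σ fun k => (X - C (A () k) : ℂ[X])])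
  choose κ h2 h3 using h1
  refine ⟨κ, h2, fun b hb y hy T => ?_⟩
  rw [prod_sub_eq fun k => f (y k)]
  exact congrArg _ (Finset.sum_congr rfl fun i _ => by rw [h3 i b hb y hy])

/-- the values of a function are roots of its characteristic polynomial -/
theorem Cov.poly' (h : Cov H V G B E d) (f : W → ℂ) (hf : ∀ x ∈ V, H f x) :
    ∃ κ : ℕ → Cm (n + 1) → ℂ, (∀ i, ∀ b ∈ B, AnalyticAt ℂ (κ i) b) ∧
      (∀ b ∈ B, ∀ y : Fin d → W, Lim V G B E b y → ∀ T : ℂ,
        ∏ k, (T - f (y k)) = T ^ d + ∑ i ∈ Finset.range d, κ i b * T ^ i) ∧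
      ∀ x ∈ V, f x ^ d + ∑ i ∈ Finset.range d, κ i (G x) * f x ^ i = 0 := by
  obtain ⟨κ, h1, h2⟩ := h.poly f hf
  refine ⟨κ, h1, h2, fun x hx => ?_⟩
  obtain ⟨y, k, hy, e⟩ := h.lim' x hx
  rw [← h2 _ (h.maps hx) y hy]
  exact Finset.prod_eq_zero (Finset.mem_univ k) (by rw [e, sub_self])

/-- the moment curve -/
def mom (N : ℕ) (a : ℂ) : Cm N →L[ℂ] ℂ := ∑ j : Fin N, a ^ (j : ℕ) • ContinuousLinearMap.proj j

theorem mom_apply {N : ℕ} (a : ℂ) (v : Cm N) : mom N a v = ∑ j : Fin N, a ^ (j : ℕ) * v j := by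
  simp [mom]

/-- finitely many nonzero vectors are detected by one of finitely many fixed linear forms -/
theorem exists_mom {N : ℕ} {ι : Type} [Fintype ι] (v : ι → Cm N) (hv : ∀ k, v k ≠ 0) {M : ℕ}
    (hM : Fintype.card ι * N < M) : ∃ a : Fin M, ∀ k, mom N ((a : ℕ) : ℂ) (v k) ≠ 0 := by
  let P : ι → ℂ[X] := fun k => ∑ j : Fin N, C (v k j) * X ^ (j : ℕ)
  have h1 : ∀ k, P k ≠ 0 := fun k e => hv k (funext fun j => by
    have := congrArg (coeff · j) e
    simpa [P, coeff_X_pow, Fin.val_inj] using this)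
  have h2 : ∀ k, (P k).natDegree ≤ N := fun k =>
    natDegree_sum_le_of_forall_le _ _ fun j _ => (natDegree_C_mul_X_pow_le _ _).trans j.2.le
  by_contra! hc
  refine Finset.prod_ne_zero_iff.2 (fun k _ => h1 k) (eq_zero_of_natDegree_lt_card_of_eval_eq_zero
    (∏ k, P k) (f := fun a : Fin M => ((a : ℕ) : ℂ))
    (fun a b e => Fin.ext (Nat.cast_injective e)) (fun a => ?_) ?_)
  · obtain ⟨k, hk⟩ := hc a
    rw [eval_prod]
    refine Finset.prod_eq_zero (Finset.mem_univ k) ?_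
    rw [← hk, mom_apply]
    simp only [P, eval_finsetSum, eval_mul, eval_C, eval_pow, eval_X]
    exact Finset.sum_congr rfl fun j _ => mul_comm _ _
  · rw [Fintype.card_fin]
    refine lt_of_le_of_lt ((natDegree_prod_le _ _).trans ?_) hM
    simpa using Finset.sum_le_card_nsmul Finset.univ _ N fun k _ => h2 k

end Vale.Agent.P277Z.Pj
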