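import Vale.Agent.P277Z.Pj.Api

/-!
# P277, block PROJ: the rows RAP, PRJC and REMG
-/

open scoped Manifold ContDiff Topology
open Vale.Agent.P272.K Vale.Agent.P285.H281.FD Set Filter Metric
open Vale.Agent.P277 Vale.Agent.P277.H762 Vale.Agent.P277.PH
open Vale.Agent.P277Z.Coh (ScAt LBOn prpBase holSys)

noncomputable section

namespace Vale.Agent.P277Z.Pj

theorem rap : RAP := by
  intro n W _ _ _ _ _ X p P hp hP hA x
  obtain ⟨V, k, r, s, hV, hx, -, h1, h2, h3, h4⟩ := hA x
  obtain ⟨N, k', V', Ω, h, ψ, hx', hs, hM⟩ := model_small X x hV hx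
  have hpr := hp.prp hM
  obtain ⟨D, ν, hD, key⟩ := FreeOn.pmap (M := P.pow k) (O := p ⁻¹' V') (τ := s)
    ⟨fun l w hw i hi => ⟨(h1 l).holo i w (hs hw) hi, fun j => (h1 l).change i j w (hs hw) hi⟩,
      fun w hw i => h2 w i (hs hw)⟩ (lbOn_pow (lbOn_of_isLB hP _) k) hpr.isOpen
  refine ⟨N, k', V', Ω, h, ψ, hx', hM, r, D, ν, hD, fun m w hw w' hw' e1 e2 => by_contra fun ne => ?_,
    fun m w hw => ?_⟩
  · obtain ⟨i, hi⟩ := hP.cover w
    obtain ⟨j, hj⟩ := hP.cover w'
    have a := key w (hD.sub m hw) i hi m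
    have a' := key w' (hD.sub m hw') j hj m
    obtain ⟨l, l', h5⟩ := h3 w w' i j (hs (hD.sub m hw))
      (hM.injOn (hD.sub m hw') (hD.sub m hw) e1) ne hi hj
    have b : ∀ l, s l i w = ν m w l * s m i w := fun l => by
      rw [a.2, div_mul_cancel₀ _ (a.1.1 hw)]
    have b' : ∀ l, s l j w' = ν m w l * s m j w' := fun l => by
      rw [← e2, a'.2, div_mul_cancel₀ _ (a'.1.1 hw')]
    exact h5 (by rw [b l, b l', b' l, b' l']; ring)
  · obtain ⟨i, hi⟩ := hP.cover w
    have hO := hD.sub m hw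
    have he := at_chartAt (n := n + 1) w
    have ev : ∀ᶠ v in 𝓝 w, (fun l => s l i v / s m i v) = ν m v := by
      filter_upwards [hpr.isOpen.mem_nhds hO, (hP.isOpen i).mem_nhds hi] with v a1 a2
        using funext fun l => ((key v a1 i a2 m).2 l).symm
    have H : ∀ a : Fin (n + 1), ∃ G : Cm N × Cm (r + 1) → ℂ, AnalyticAt ℂ G (ψ (p w), ν m w) ∧
        ∀ᶠ v in 𝓝 w, chartAt (Cm (n + 1)) w v a = G (ψ (p v), ν m v) := fun a => by
      obtain ⟨M, g, G, b1, b2, b3⟩ := h4 w i m (hs hO) hi ((key w hO i hi m).1.1 hw)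
        (fun v : W => chartAt (Cm (n + 1)) w v a) (holV_pi.1 (holV_chart he) a :)
      obtain ⟨G', c1, c2⟩ := model_vec hM hO (g := fun y a => g a y) b1
      refine ⟨fun q => G (G' q.1, q.2), AnalyticAt.fun_comp (g := G)
        (f := fun q : Cm N × Cm (r + 1) => (G' q.1, q.2)) ?_ ((AnalyticAt.fun_comp (g := G')
          (f := Prod.fst) (x := (ψ (p w), ν m w)) c1 analyticAt_fst).prod analyticAt_snd), ?_⟩
      · rw [← c2.self_of_nhds, ← ev.self_of_nhds]
        exact b2
      · filter_upwards [b3, ev, hp.cont.continuousAt.eventually c2] with v d1 d2 d3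
        rw [← d2, ← d3]
        exact d1
    choose G G1 G2 using H
    exact imm_of_left_inv he ((holV_pi.2 (hpr.hol w hO)).prod (hD.holV hw))
      (G := fun q a => G a q) (analyticAt_pi_iff.2 G1)
      ((eventually_all.2 G2).mono fun v hv => funext hv)

theorem prjc : PRJC := by
  intro n W _ _ _ _ _ X Y φ q hφ hq hG y
  obtain ⟨N, k, V, Ω, h, ψ, hV, hM, r, D, ν, hE⟩ := hG (q y)
  obtain ⟨N', k', V', Ω', h', ψ', hV', hs, hM'⟩ := model_small Y y
    (hM.isOpen.preimage (continuous_iff_continuousAt.2 fun y => (hq y).1)) hV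
  have hpr := hφ.prp hM'
  refine ⟨N', k', V', Ω', h', ψ', hV', hM', r, _, ν, (hE.restrict hpr.isOpen fun w hw =>
    hs hw).of_comp hpr.hol (fun w hw w' hw' e => congrArg (fun y => ψ (q y)) (hM'.injOn hw' hw e))
     fun w hw => ?_⟩
  obtain ⟨G, h1, h2⟩ := model_vec hM' hw (g := fun y => ψ (q y))
    fun a => (hq _).2 _ (model_crd hM (hs hw) a)
  exact ⟨G, h1, hφ.cont.continuousAt.eventually h2⟩

/-- locally constant functions near a compact set with many components -/
theorem exists_indic {W : Type} [TopologicalSpace W] [T2Space W] {F : Set W} (hF : IsCompact F)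
    [Infinite (ConnectedComponents F)] (s : ℕ) :
    ∃ (f : Fin (s + 1) → W → ℂ) (w : Fin (s + 1) → W), (∀ i, w i ∈ F) ∧
      (∀ i, ∀ v ∈ F, ∃ c, ∀ᶠ v' in 𝓝 v, f i v' = c) ∧ ∀ i j, f i (w j) = if i = j then 1 else 0 := by
  classical
  have := isCompact_iff_compactSpace.1 hF
  obtain ⟨U, h1, h2, h3, -⟩ := ConnectedComponents.exists_fun_isClopen_of_infinite F (s + 1)
    s.succ_pos
  choose w hw using h2
  choose G G' a1 a2 a3 a4 a5 using fun i => SeparatedNhds.of_isCompact_isCompact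
    ((h1 i).isClosed.isCompact.image continuous_subtype_val)
    ((h1 i).compl.isClosed.isCompact.image continuous_subtype_val)
    (disjoint_image_of_injective Subtype.val_injective disjoint_compl_right)
  refine ⟨fun i => (G i).indicator 1, fun i => w i, fun i => (w i).2, fun i v hv => ?_,
    fun i j => ?_⟩
  · by_cases k : (⟨v, hv⟩ : F) ∈ U i
    · exact ⟨1, mem_of_superset ((a1 i).mem_nhds (a3 i ⟨_, k, rfl⟩)) fun v' b =>
        indicator_of_mem b _⟩
    · exact ⟨0, mem_of_superset ((a2 i).mem_nhds (a4 i ⟨_, k, rfl⟩)) fun v' b =>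
        indicator_of_notMem (disjoint_right.1 (a5 i) b) _⟩
  · split_ifs with k
    · exact indicator_of_mem (a3 i ⟨w j, k ▸ hw i, rfl⟩) _
    · exact indicator_of_notMem (disjoint_right.1 (a5 i)
        (a4 i ⟨_, disjoint_right.1 (h3 k) (hw j), rfl⟩)) _

theorem remg_of (h1 : COHT) (h2 : REMP) : REMG := by
  intro n W _ _ _ _ _ X p hp hG
  have := ChartedSpace.secondCountable_of_sigmaCompact (Cm (n + 1)) W
  refine ⟨fun x _ => ?_, fun x => ?_⟩
  · obtain ⟨N, k, V, Ω, h, ψ, hV, hM, hP⟩ := hG x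
    obtain ⟨m, g, g1, g2⟩ := h2 n W N _ _ Ω (hp.prp hM) hP _ (model_mem hM hV).1
    refine ⟨m, fun i => g i ∘ ψ, fun i => (hM.hol x hV _).2 ⟨_, g1 i, EventuallyEq.rfl⟩, ?_⟩
    filter_upwards [(hM.continuousAt hV).eventually g2, hM.isOpen.mem_nhds hV] with y a1 a2
    exact Iff.trans ⟨fun ⟨w, hw⟩ => ⟨w, (show p w ∈ V from hw ▸ a2), congrArg ψ hw⟩,
      fun ⟨w, hw, e⟩ => ⟨w, hM.injOn hw a2 e⟩⟩ a1
  · obtain ⟨N, k, V, Ω, h, ψ, hV, hM, hP⟩ := hG x
    have hpr := hp.prp hM
    obtain ⟨s, e, he⟩ := (h1 n W N _ _ Ω hpr hP _ (lbOn_triv _) _ (model_mem hM hV).1).1.fg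
    have : Finite (ConnectedComponents (p ⁻¹' {x})) := not_infinite_iff_finite.1 fun _ => by
      obtain ⟨f, w, a1, a2, a3⟩ := exists_indic (isClosed_singleton.preimage hp.cont).isCompact
        (F := p ⁻¹' {x}) s
      obtain ⟨K, k1, k2, k3⟩ := exists_compact_subset hM.isOpen' (model_mem hM hV).1
      choose c _ hc using fun i => ((Coh.Base.gen_img_iff e).1 he).2 (fun _ => f i)
        (Coh.Base.near_of_fibre (hpr.proper K k3 k1) inter_subset_left
          (mem_of_superset (mem_interior_iff_mem_nhds.1 k2) fun y hy v hv (b : ψ (p v) = y) =>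
            ⟨hv, show ψ (p v) ∈ K from b ▸ hy⟩) fun v hv b => by
          obtain ⟨c, hc⟩ := a2 i v (hM.injOn hv hV b)
          exact hc.eventually_nhds.mono fun v' d _ _ => ⟨(HolF.const c).congr
            (d.mono fun _ d' => d'.symm), fun _ _ => (one_mul _).symm⟩)
      have hm : (1 : Matrix (Fin (s + 1)) (Fin (s + 1)) ℂ) =
          Matrix.of (fun i j => c i j (ψ x)) * Matrix.of fun j l => e j () (w l) := by
        ext i l
        have b : p (w l) = x := a1 l
        rw [Matrix.one_apply, ← a3, Matrix.mul_apply,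
          (hc i).self_of_nhds (w l) (show p (w l) ∈ V from b ▸ hV) (congrArg ψ b) () trivial]
        exact Finset.sum_congr rfl fun j _ => congrArg (fun y => c i j (ψ y) * _) b
      have h5 := (Matrix.rank_mul_le_left _ _).trans (Matrix.rank_le_width
        (Matrix.of fun i j => c i j (ψ x))) |>.trans_eq' (congrArg Matrix.rank hm.symm)
      simp at h5
    refine (finite_range fun c : ConnectedComponents (p ⁻¹' {x}) =>
      Subtype.val '' (ConnectedComponents.mk ⁻¹' {c})).subset ?_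
    rintro _ ⟨w, hw, rfl⟩
    exact ⟨(⟨w, hw⟩ : p ⁻¹' {x}), by
      rw [connectedComponentIn_eq_image (show w ∈ p ⁻¹' {x} from hw),
        ← connectedComponents_preimage_singleton]⟩

end Vale.Agent.P277Z.Pj
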