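import Vale.Agent.P277Z.Pj.Defs

/-!
# P277, block PROJ: universal denominators
-/

open scoped Manifold ContDiff Topology Polynomial
open Vale.Agent.P272.K Vale.Agent.P285.H281.FD Set Filter Metric
open Vale.Agent.P277 Vale.Agent.P277.H762 Vale.Agent.P277.PH

noncomputable section

namespace Vale.Agent.P277Z.Pj

namespace Dn

/-! ### symmetric functions -/

/-- the product of the differences, with one index left out -/
def rs {d : ℕ} (A : Fin d → ℂ) (k : Fin d) (T : ℂ) : ℂ := ∏ j ∈ Finset.univ.erase k, (T - A j)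

theorem rs_perm {d : ℕ} (A : Fin d → ℂ) (σ : Equiv.Perm (Fin d)) (k : Fin d) (T : ℂ) :
    rs (fun j => A (σ j)) k T = rs A (σ k) T :=
  Finset.prod_equiv σ (fun j => by simp) fun _ _ => rfl

theorem sum_rs {d : ℕ} (h A : Fin d → ℂ) (k : Fin d) :
    ∑ i, h i * rs A i (A k) = h k * rs A k (A k) := by
  refine Finset.sum_eq_single k (fun i _ hi => ?_) (by simp)
  rw [rs, Finset.prod_eq_zero (i := k) (by simpa using hi.symm) (sub_self _), mul_zero]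

theorem an_coord {ι : Type} [Fintype ι] {d : ℕ} (i : ι) (k : Fin d) (A : ι → Fin d → ℂ) :
    AnalyticAt ℂ (fun A : ι → Fin d → ℂ => A i k) A :=
  ((ContinuousLinearMap.proj (R := ℂ) (φ := fun _ : Fin d => ℂ) k).comp
    (ContinuousLinearMap.proj (R := ℂ) (φ := fun _ : ι => Fin d → ℂ) i)).analyticAt A

theorem interp {d : ℕ} (h A : Fin d → ℂ) (T : ℂ) :
    ∑ k, h k * rs A k T = ∑ m : Fin d, (∑ k, h k * rs A k ((m : ℕ) : ℂ)) *
      Polynomial.aeval T (Lagrange.basis Finset.univ (fun m : Fin d => ((m : ℕ) : ℂ)) m) := by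
  let f : ℂ[X] := ∑ k, Polynomial.C (h k) * Lagrange.nodal (Finset.univ.erase k) A
  have hf : ∀ S, f.eval S = ∑ k, h k * rs A k S := fun S => by
    simp only [f, Polynomial.eval_finsetSum, Polynomial.eval_mul, Polynomial.eval_C,
      Lagrange.eval_nodal, rs]
  have hd : f.degree < (Finset.univ : Finset (Fin d)).card := by
    refine (Polynomial.degree_sum_le _ _).trans_lt ?_
    rw [Finset.sup_lt_iff (WithBot.bot_lt_coe _)]
    intro k _
    rw [← Polynomial.smul_eq_C_mul]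
    refine (Polynomial.degree_smul_le _ _).trans_lt ?_
    rw [Lagrange.degree_nodal]
    exact_mod_cast Finset.card_erase_lt_of_mem (Finset.mem_univ k)
  have hi : Set.InjOn (fun m : Fin d => ((m : ℕ) : ℂ)) (Finset.univ : Finset (Fin d)) :=
    fun a _ b _ h => Fin.ext (Nat.cast_injective h)
  have h1 := congrArg (Polynomial.eval T) (Lagrange.eq_interpolate hi hd)
  rw [hf, Lagrange.interpolate_apply, Polynomial.eval_finsetSum] at h1
  rw [h1]
  refine Finset.sum_congr rfl fun m _ => ?_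
  rw [Polynomial.eval_mul, Polynomial.eval_C, hf, Polynomial.coe_aeval_eq_eval]

variable {W : Type} [TopologicalSpace W] {H : (W → ℂ) → W → Prop} {n : ℕ} {V : Set W}
  {G : W → Cm (n + 1)} {B E : Set (Cm (n + 1))} {d : ℕ}

/-- the interpolation function -/
theorem qfun (hC : Cov H V G B E d) {h lam : W → ℂ} (hh : ∀ x ∈ V, H h x) (hl : ∀ x ∈ V, H lam x)
    {N : ℕ} (π : Cm N →L[ℂ] Cm (n + 1)) (u : Cm N →L[ℂ] ℂ) :
    ∃ Q : Cm N → ℂ, (∀ z, π z ∈ B → AnalyticAt ℂ Q z) ∧ ∀ z, π z ∈ B → ∀ y : Fin d → W,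
      Lim V G B E (π z) y → Q z = ∑ k, h (y k) * rs (fun j => lam (y j)) k (u z) := by
  have h1 : ∀ T : ℂ, ∃ κ : Cm (n + 1) → ℂ, (∀ b ∈ B, AnalyticAt ℂ κ b) ∧
      ∀ b ∈ B, ∀ y : Fin d → W, Lim V G B E b y →
        κ b = ∑ k, h (y k) * rs (fun j => lam (y j)) k T := fun T =>
    hC.sym Bool (fun i => cond i h lam) (fun i => by cases i <;> assumption)
      (fun A => ∑ k, A true k * rs (A false) k T)
      (fun A => Finset.analyticAt_fun_sum _ fun k _ => (an_coord true k A).mul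
        (Finset.analyticAt_fun_prod _ fun j _ => analyticAt_const.sub (an_coord false j A)))
      (fun A σ => by
        simp only [rs_perm (A false) σ]
        exact Equiv.sum_comp σ fun k => A true k * rs (A false) k T)
  choose κ h2 h3 using h1
  refine ⟨fun z => ∑ m : Fin d, κ ((m : ℕ) : ℂ) (π z) * Polynomial.aeval (u z)
    (Lagrange.basis Finset.univ (fun m : Fin d => ((m : ℕ) : ℂ)) m), fun z hz => ?_,
    fun z hz y hy => ?_⟩
  · exact Finset.analyticAt_fun_sum _ fun m _ =>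
      ((h2 _ _ hz).comp (π.analyticAt z)).mul ((u.analyticAt z).aeval_polynomial _)
  · rw [interp]
    exact Finset.sum_congr rfl fun m _ => by rw [h3 _ _ hz y hy]

/-- the discriminant -/
theorem disc (hC : Cov H V G B E d) {lam : W → ℂ} (hl : ∀ x ∈ V, H lam x) :
    ∃ κ : Cm (n + 1) → ℂ, (∀ b ∈ B, AnalyticAt ℂ κ b) ∧ ∀ b ∈ B, ∀ y : Fin d → W,
      Lim V G B E b y → κ b = ∏ k, rs (fun j => lam (y j)) k (lam (y k)) :=
  hC.sym Unit (fun _ => lam) (fun _ => hl) (fun A => ∏ k, rs (A ()) k (A () k))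
    (fun A => Finset.analyticAt_fun_prod _ fun k _ =>
      Finset.analyticAt_fun_prod _ fun j _ => (an_coord () k A).sub (an_coord () j A))
    (fun A σ => by
      simp only [rs_perm (A ()) σ]
      exact Equiv.prod_comp σ fun k => rs (A ()) k (A () k))

/-- a function takes finitely many values on a fibre -/
theorem fin_val (hC : Cov H V G B E d) {f : W → ℂ} (hf : ∀ x ∈ V, H f x) {b : Cm (n + 1)}
    (hb : b ∈ B) : (f '' (V ∩ G ⁻¹' {b})).Finite := by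
  obtain ⟨y0, hy0⟩ := hC.lim b hb
  refine (finite_range fun k => f (y0 k)).subset ?_
  rintro _ ⟨w, ⟨hw, rfl⟩, rfl⟩
  obtain ⟨y, k, hy, rfl⟩ := hC.lim' w hw
  obtain ⟨κ, -, h2⟩ := hC.sym Unit (fun _ => f) (fun _ => hf)
    (fun A => ∏ j, (f (y k) - A () j))
    (fun A => Finset.analyticAt_fun_prod _ fun j _ => analyticAt_const.sub (an_coord () j A))
    (fun A σ => Equiv.prod_comp σ fun j => f (y k) - A () j)
  have h3 : ∏ j, (f (y k) - f (y0 j)) = 0 :=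
    ((h2 _ hb y0 hy0).symm.trans (h2 _ hb y hy)).trans
      (Finset.prod_eq_zero (Finset.mem_univ k) (sub_self _))
  obtain ⟨j, -, hj⟩ := Finset.prod_eq_zero_iff.1 h3
  exact ⟨j, (sub_eq_zero.1 hj).symm⟩

/-! ### topology of coverings -/

theorem tube (hC : PreC H V G B E) {b : Cm (n + 1)} (hb : b ∈ B) {M : Set W} (hM : IsOpen M)
    (h : ∀ x ∈ V, G x = b → x ∈ M) :
    ∃ ρ, 0 < ρ ∧ ball b ρ ⊆ B ∧ ∀ x ∈ V, G x ∈ ball b ρ → x ∈ M := by
  obtain ⟨r, hr, hrB⟩ := nhds_basis_closedBall.mem_iff.1 (hC.openB.mem_nhds hb)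
  have h1 : IsCompact ((V ∩ G ⁻¹' closedBall b r) \ M) :=
    (hC.proper _ hrB (isCompact_closedBall b r)).diff hM
  have h2 : IsClosed (G '' ((V ∩ G ⁻¹' closedBall b r) \ M)) :=
    (h1.image_of_continuousOn (hC.cont.mono fun x hx => hx.1.1)).isClosed
  have h3 : b ∈ (G '' ((V ∩ G ⁻¹' closedBall b r) \ M))ᶜ := by
    rintro ⟨x, hx, e⟩
    exact hx.2 (h x hx.1.1 e)
  obtain ⟨r', hr', h4⟩ := Metric.isOpen_iff.1 h2.isOpen_compl b h3
  refine ⟨min r r', lt_min hr hr', fun z hz => hrB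
    (ball_subset_closedBall (ball_subset_ball (min_le_left _ _) hz)), fun x hx hz => ?_⟩
  by_contra h5
  exact h4 (ball_subset_ball (min_le_right _ _) hz)
    ⟨x, ⟨⟨hx, ball_subset_closedBall (ball_subset_ball (min_le_left _ _) hz)⟩, h5⟩, rfl⟩

theorem sec_nhds {N : Set W} {s : Cm (n + 1) → W} (h1 : IsOpen (G '' N))
    (h2 : ∀ y ∈ N, s (G y) = y ∧ ContinuousAt s (G y)) {x : W} (hx : x ∈ N) {M : Set W}
    (hM : M ∈ 𝓝 x) : G '' (N ∩ M) ∈ 𝓝 (G x) := by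
  have h3 : ∀ᶠ b in 𝓝 (G x), s b ∈ M := (h2 x hx).2.eventually_mem (by rwa [(h2 x hx).1])
  filter_upwards [h3, h1.mem_nhds ⟨x, hx, rfl⟩] with b hb hb'
  obtain ⟨y, hy, rfl⟩ := hb'
  exact ⟨y, ⟨hy, by rwa [(h2 y hy).1] at hb⟩, rfl⟩

theorem exists_unbr (hC : PreC H V G B E) {B' : Set (Cm (n + 1))} (h1 : IsOpen B') (h2 : B' ⊆ B)
    {b : Cm (n + 1)} (hb : b ∈ B') : (B' \ E).Nonempty :=
  closure_nonempty_iff.1 ⟨b, Cv.mem_closure (hC.thin.mono (inter_subset_inter_left _ h2))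
    (by simp) h1 hb⟩

/-- a fibre inside a dense open set -/
theorem good_fibre (hC : Cov H V G B E d) {b : Cm (n + 1)} (hb : b ∈ B) {I : Set W}
    (hI : IsOpen I) (hV : V ⊆ closure I) : ∃ b ∈ B \ E, ∀ x ∈ V, G x = b → x ∈ I := by
  obtain ⟨b1, hb1⟩ := exists_unbr hC.toPreC hC.openB subset_rfl hb
  obtain ⟨y, hy⟩ := hC.enum b1 hb1
  have h1 := fun k => (hy.2 (y k)).1 ⟨k, rfl⟩
  choose N s hN hyN hNV hGN hs using fun k => hC.etale (y k) (h1 k).1 ((h1 k).2 ▸ hb1.2)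
  obtain ⟨ρ, hρ, -, h3⟩ := tube hC.toPreC hb1.1 (isOpen_iUnion hN) fun x hx e => by
    obtain ⟨k, rfl⟩ := (hy.2 x).2 ⟨hx, e⟩
    exact mem_iUnion.2 ⟨k, hyN k⟩
  have h4 : ∀ k, Dense (interior (G '' (N k \ I))ᶜ) := fun k => by
    refine dense_iff_inter_open.2 fun A hA ⟨a, ha⟩ => ?_
    by_cases h5 : ∃ x ∈ N k, G x ∈ A
    · obtain ⟨x, hx, hxA⟩ := h5
      have h6 : N k ∩ G ⁻¹' A ∈ 𝓝 x := inter_mem ((hN k).mem_nhds hx)
        ((hC.cont.continuousAt (hC.isOpen.mem_nhds (hNV k hx))).preimage_mem_nhds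
          (hA.mem_nhds hxA))
      obtain ⟨x', hx', hxI⟩ := mem_closure_iff_nhds.1 (hV (hNV k hx)) _ h6
      refine ⟨G x', hx'.2, mem_interior_iff_mem_nhds.2 (mem_of_superset (sec_nhds (hGN k)
        (fun y hy => ⟨(hs k y hy).1, (hs k y hy).2.1⟩) hx'.1 (hI.mem_nhds hxI)) ?_)⟩
      rintro _ ⟨p, hp, rfl⟩ ⟨q, hq, e⟩
      have : q = p := by rw [← (hs k q hq.1).1, e, (hs k p hp.1).1]
      exact hq.2 (this ▸ hp.2)
    · refine ⟨a, ha, mem_interior_iff_mem_nhds.2 (mem_of_superset (hA.mem_nhds ha) ?_)⟩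
      rintro _ hz ⟨q, hq, rfl⟩
      exact h5 ⟨q, hq.1, hz⟩
  obtain ⟨b0, h5, h6⟩ := (dense_iInter_of_isOpen (fun _ => isOpen_interior) h4).inter_open_nonempty
    _ (isOpen_ball.inter hC.openE) ⟨b1, mem_ball_self hρ, hb1⟩
  refine ⟨b0, h5.2, fun x hx e => ?_⟩
  obtain ⟨k, hk⟩ := mem_iUnion.1 (h3 x hx (e ▸ h5.1))
  by_contra h7
  exact interior_subset (mem_iInter.1 h6 k) ⟨x, ⟨hk, h7⟩, e⟩

/-- the set where a nonzero analytic function of the base does not vanish is dense -/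
theorem dense_ne (hC : PreC H V G B E) {κ : Cm (n + 1) → ℂ} (h1 : ∀ b ∈ B, AnalyticAt ℂ κ b)
    {b0 : Cm (n + 1)} (hb0 : b0 ∈ B) (h2 : κ b0 ≠ 0) :
    V ⊆ closure {x | x ∈ V ∧ κ (G x) ≠ 0} := by
  refine hC.dense.trans (closure_minimal (fun x hx => ?_) isClosed_closure)
  obtain ⟨N, s, -, hxN, hNV, hGN, hs⟩ := hC.etale x hx.1 hx.2
  refine mem_closure_iff_nhds.2 fun M hM => ?_
  by_contra h3
  refine h2 (AnalyticOnNhd.eqOn_zero_of_preconnected_of_eventuallyEq_zero h1 hC.connB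
    (hC.maps hx.1) ?_ hb0)
  filter_upwards [sec_nhds hGN (fun y hy => ⟨(hs y hy).1, (hs y hy).2.1⟩) hxN hM] with b hb
  obtain ⟨y, hy, rfl⟩ := hb
  by_contra h4
  exact h3 ⟨y, hy.2, hNV hy.1, h4⟩

/-- restriction to a smaller base -/
theorem restrict (hC : PreC H V G B E) {B' : Set (Cm (n + 1))} (h1 : IsOpen B') (h2 : B' ⊆ B)
    (h3 : IsPreconnected B') : PreC H (V ∩ G ⁻¹' B') G B' E := by
  have ho : IsOpen (V ∩ G ⁻¹' B') := hC.cont.isOpen_inter_preimage hC.isOpen h1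
  refine ⟨hC.hcont, ho, h1, h3, hC.cont.mono inter_subset_left, fun x hx => hx.2,
    fun K hK hK' => ?_, ?_, hC.thin.mono (inter_subset_inter_left _ h2), fun x hx hxE => ?_,
    fun x hx => ?_⟩
  · have : V ∩ G ⁻¹' B' ∩ G ⁻¹' K = V ∩ G ⁻¹' K :=
      Set.ext fun x => ⟨fun h => ⟨h.1.1, h.2⟩, fun h => ⟨⟨h.1, hK h.2⟩, h.2⟩⟩
    rw [this]
    exact hC.proper K (hK.trans h2) hK'
  · have : B' \ E = B' ∩ (B \ E) :=
      Set.ext fun x => ⟨fun h => ⟨h.1, h2 h.1, h.2⟩, fun h => ⟨h.1, h.2.2⟩⟩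
    rw [this]
    exact h1.inter hC.openE
  · obtain ⟨N, s, hN, hxN, hNV, hGN, hs⟩ := hC.etale x hx.1 hxE
    refine ⟨N ∩ (V ∩ G ⁻¹' B'), s, hN.inter ho, ⟨hxN, hx⟩, inter_subset_right, ?_,
      fun y hy => hs y hy.1⟩
    refine isOpen_iff_mem_nhds.2 ?_
    rintro _ ⟨y, hy, rfl⟩
    exact sec_nhds hGN (fun y hy => ⟨(hs y hy).1, (hs y hy).2.1⟩) hy.1 (ho.mem_nhds hy.2)
  · refine closure_mono ?_ (ho.inter_closure ⟨hx, hC.dense hx.1⟩)
    exact fun y hy => ⟨hy.1, hy.2.2⟩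

omit [TopologicalSpace W] in
theorem enum_res {B' : Set (Cm (n + 1))} {b : Cm (n + 1)} {y : Fin d → W}
    (h : Enum (V ∩ G ⁻¹' B') G b y) (hb : b ∈ B') : Enum V G b y :=
  ⟨h.1, fun x => (h.2 x).trans ⟨fun h => ⟨h.1.1, h.2⟩, fun h => ⟨⟨h.1, by
    rw [mem_preimage, h.2]; exact hb⟩, h.2⟩⟩⟩

theorem lim_res {B' : Set (Cm (n + 1))} (h2 : B' ⊆ B) {b : Cm (n + 1)} {y : Fin d → W}
    (h : Lim (V ∩ G ⁻¹' B') G B' E b y) : Lim V G B E b y :=
  ⟨closure_mono (by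
      rintro _ ⟨b', hb', h'⟩
      exact ⟨b', ⟨h2 hb'.1, hb'.2⟩, enum_res h' hb'.1⟩) h.1,
    fun k => ⟨(h.2 k).1.1, (h.2 k).2⟩⟩

omit [TopologicalSpace W] in
theorem enum_card {d' : ℕ} {b : Cm (n + 1)} {y : Fin d → W} {y' : Fin d' → W}
    (h : Enum V G b y) (h' : Enum V G b y') : d' = d := by
  have h1 : range y' = range y := Set.ext fun x => (h'.2 x).trans (h.2 x).symm
  have h2 := congrArg Set.ncard h1
  rwa [Set.ncard_range_of_injective h.1, Set.ncard_range_of_injective h'.1, Nat.card_fin,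
    Nat.card_fin] at h2

theorem cov_res [T2Space W] (hB : BR) (hC : Cov H V G B E d) {B' : Set (Cm (n + 1))}
    (h1 : IsOpen B') (h2 : B' ⊆ B) (h3 : IsPreconnected B') {x : W} (hx : x ∈ V ∩ G ⁻¹' B') :
    Cov H (V ∩ G ⁻¹' B') G B' E d := by
  obtain ⟨d', hC'⟩ := hB W H n _ G B' E (restrict hC.toPreC h1 h2 h3) ⟨x, hx⟩
  obtain ⟨b, hb⟩ := exists_unbr hC.toPreC h1 h2 hx.2
  obtain ⟨y, hy⟩ := hC.enum b ⟨h2 hb.1, hb.2⟩
  obtain ⟨y', hy'⟩ := hC'.enum b hb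
  obtain rfl := enum_card hy (enum_res hy' hb.1)
  exact hC'

/-! ### holomorphic functions -/

theorem holF_open {m : ℕ} [ChartedSpace (Cm m) W] [IsManifold 𝓘(ℂ, Cm m) ω W] (h : W → ℂ) :
    IsOpen {x | HolF m h x} := by
  refine isOpen_iff_mem_nhds.2 fun x hx => ?_
  have he := at_chartAt (n := m) x
  have h1 := ((chartAt (Cm m) x).continuousAt he.2).eventually (hx _ he).eventually_analyticAt
  filter_upwards [h1, (chartAt (Cm m) x).open_source.mem_nhds he.2] with y hy hy'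
  exact holF_of ⟨he.1, hy'⟩ hy

theorem holF_lin {m N : ℕ} [ChartedSpace (Cm m) W] {t : W → Cm N} {x : W}
    (h : ∀ i, HolF m (fun w => t w i) x) (u : Cm N →L[ℂ] ℂ) : HolF m (fun w => u (t w)) x :=
  fun e he => (u.analyticAt _).comp_of_eq
    (f := fun z => t (e.symm z)) (analyticAt_pi_iff.2 fun i => h i e he) rfl

end Dn

open Dn in
theorem den_of (_h0 : CONN) (h1 : BR) (h2 : PRJ) : DEN := by
  intro n W _ _ _ _ _ N O t Ω hB z hz
  obtain ⟨π, hπ⟩ := h2 n W N O t Ω hB.toGfin z hz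
  obtain ⟨U, r, E, hU, hzU, hUΩ, hr, hUB, hP, -⟩ := hπ univ univ_mem
  by_cases hV : (O ∩ t ⁻¹' U).Nonempty
  swap
  · exact ⟨U, fun _ => 1, hU, hzU, fun y hy => (hUΩ hy).2, fun _ _ => analyticAt_const,
      fun w hw => (hV ⟨w, hw⟩).elim,
      fun y hy h _ => ⟨0, analyticAt_const, fun w hw e => (hV ⟨w, hw, by
        rw [mem_preimage, e]; exact hy⟩).elim⟩⟩
  obtain ⟨d, hC⟩ := h1 W _ n _ _ _ E hP hV
  have htc : ∀ w ∈ O, ContinuousAt t w := fun w hw =>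
    continuousAt_pi.2 fun i => hP.hcont _ w (hB.hol w hw i)
  obtain ⟨b0, hb0, hI⟩ := good_fibre hC (mem_ball_self hr) isOpen_interior
    (inter_subset_left.trans hB.inj)
  obtain ⟨y0, hy0⟩ := hC.enum b0 hb0
  have hy0' := fun k => (hy0.2 (y0 k)).1 ⟨k, rfl⟩
  obtain ⟨u0, hu0⟩ := Module.exists_dual_forall_apply_ne_zero (K := ℂ)
    (fun p : {p : Fin d × Fin d // p.2 ≠ p.1} => t (y0 p.1.1) - t (y0 p.1.2)) fun p hp =>
      p.2 (hy0.1 ((interior_subset (hI _ (hy0' p.1.1).1 (hy0' p.1.1).2)).2 _ (hy0' p.1.2).1.1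
        (sub_eq_zero.1 hp).symm))
  let u : Cm N →L[ℂ] ℂ := LinearMap.toContinuousLinearMap u0
  have hl : ∀ w ∈ O, HolF (n + 1) (fun w => u (t w)) w := fun w hw => holF_lin (hB.hol w hw) u
  obtain ⟨δ, hδ, hδ'⟩ := qfun hC (h := fun _ => 1) (fun _ _ => HolF.const 1)
    (fun w hw => hl w hw.1) π u
  have hδ2 : ∀ (y : Fin d → W) (k : Fin d),
      Lim (O ∩ t ⁻¹' U) (fun w => π (t w)) (ball (π z) r) E (π (t (y k))) y →
      δ (t (y k)) = rs (fun j => u (t (y j))) k (u (t (y k))) := fun y k hy => by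
    rw [hδ' _ (hUB (hy.2 k).1.2) y hy, sum_rs (fun _ => 1) (fun j => u (t (y j))) k, one_mul]
  obtain ⟨κ, hκ, hκ'⟩ := disc hC fun w hw => hl w hw.1
  have hκ0 : κ b0 ≠ 0 := by
    rw [hκ' b0 hb0.1 y0 (hy0.lim hb0)]
    refine Finset.prod_ne_zero_iff.2 fun k _ => Finset.prod_ne_zero_iff.2 fun j hj => ?_
    have := hu0 ⟨(k, j), Finset.ne_of_mem_erase hj⟩
    rwa [map_sub] at this
  refine ⟨U, δ, hU, hzU, fun y hy => (hUΩ hy).2, fun y hy => hδ y (hUB hy), ?_,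
    fun y hy h hh => ?_⟩
  · refine (dense_ne hP hκ hb0.1 hκ0).trans (closure_mono fun w hw => ⟨hw.1.1, ?_⟩)
    obtain ⟨y, k, hy, rfl⟩ := hC.lim' w hw.1
    have h3 := hw.2
    rw [hκ' _ (hUB hw.1.2) y hy] at h3
    rw [hδ2 y k hy]
    exact Finset.prod_ne_zero_iff.1 h3 k (Finset.mem_univ k)
  by_cases h3 : ∃ w ∈ O, t w = y
  swap
  · exact ⟨0, analyticAt_const, fun w hw e => (h3 ⟨w, hw, e⟩).elim⟩
  obtain ⟨w0, hw0, e0⟩ := h3
  have hfin : (t '' (O ∩ t ⁻¹' U ∩ (fun w => π (t w)) ⁻¹' {π y})).Finite :=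
    (Set.Finite.pi' fun i => fin_val hC (fun w hw => hB.hol w hw.1 i) (hUB hy)).subset
      (by rintro _ ⟨w, hw, rfl⟩ i; exact ⟨w, hw, rfl⟩)
  obtain ⟨ε, hε, hεS⟩ := nhds_basis_closedBall.mem_iff.1
    ((hfin.subset (sdiff_subset (t := {y}))).isClosed.isOpen_compl.mem_nhds fun h => h.2 rfl)
  let h' : W → ℂ := (t ⁻¹' ball y ε).indicator h
  have hn : ∀ w ∈ O, t w = y → t ⁻¹' ball y ε ∈ 𝓝 w := fun w hw e =>
    (htc w hw).preimage_mem_nhds (e ▸ ball_mem_nhds _ hε)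
  obtain ⟨ρ, hρ, hρB, hρ'⟩ := tube hP (hUB hy) (holF_open (m := n + 1) h') fun w hw e => by
    by_cases h4 : t w = y
    · exact (hh w hw.1 h4).congr (mem_of_superset (hn w hw.1 h4)
        fun w' hw' => (indicator_of_mem hw' h).symm)
    · have h5 : t w ∈ (closedBall y ε)ᶜ := fun h5 => hεS h5 ⟨⟨w, ⟨hw, e⟩, rfl⟩, h4⟩
      refine (HolF.const 0).congr (mem_of_superset ((htc w hw.1).preimage_mem_nhds
        (isClosed_closedBall.isOpen_compl.mem_nhds h5)) fun w' hw' => ?_)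
      exact (indicator_of_notMem (s := t ⁻¹' ball y ε)
        (fun h6 => hw' (ball_subset_closedBall h6)) h).symm
  have hm : ∀ w ∈ O, t w = y → w ∈ O ∩ t ⁻¹' U ∩ (fun w => π (t w)) ⁻¹' ball (π y) ρ :=
    fun w hw e => ⟨⟨hw, by rw [mem_preimage, e]; exact hy⟩, by
      rw [mem_preimage, e]; exact mem_ball_self hρ⟩
  have hC' := cov_res h1 hC isOpen_ball hρB (convex_ball _ _).isPreconnected (hm w0 hw0 e0)
  obtain ⟨a, ha, ha'⟩ := qfun hC' (h := h') (fun w hw => hρ' w hw.1 hw.2)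
    (fun w hw => hl w hw.1.1) π u
  refine ⟨a, ha y (mem_ball_self hρ), fun w hw e => ?_⟩
  filter_upwards [hn w hw e, hC'.isOpen.mem_nhds (hm w hw e)] with w' h4 h5
  obtain ⟨y', k, hy', rfl⟩ := hC'.lim' w' h5
  rw [ha' _ h5.2 y' hy', sum_rs (fun j => h' (y' j)) (fun j => u (t (y' j))) k,
    hδ2 y' k (lim_res hρB hy'), mul_comm]
  congr 1
  exact (indicator_of_mem h4 h).symm

end Vale.Agent.P277Z.Pj
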