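import Vale.Agent.P277Z.Pj.Poly

/-!
# P277, block PROJ: the image of a proper generically finite map is analytic
-/

open scoped Topology
open Vale.Agent.P272.K Set Filter Metric Vale.Agent.P277.PH

noncomputable section

namespace Vale.Agent.P277Z.Pj

theorem rem_of (h1 : BR) (h2 : PRJ) : REM := by
  intro n W _ _ _ _ _ N O t Ω hG z hz
  obtain ⟨π, hπ⟩ := h2 n W N O t Ω hG z hz
  obtain ⟨U', r, E, hU, hzU, -, hr, hm, hP, -⟩ := hπ univ univ_mem
  rcases (O ∩ t ⁻¹' U').eq_empty_or_nonempty with he | he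
  · refine ⟨1, fun _ _ => 1, fun _ => analyticAt_const, ?_⟩
    filter_upwards [hU.mem_nhds hzU] with y hy
    refine ⟨?_, fun h => absurd (h 0) one_ne_zero⟩
    rintro ⟨w, hw, rfl⟩
    exact absurd (he ▸ (⟨hw, hy⟩ : w ∈ O ∩ t ⁻¹' U')) (notMem_empty w)
  obtain ⟨d, hC⟩ := h1 W _ n _ _ _ E hP he
  have h3 := fun a : Fin (d * N + 1) => hC.poly' (fun w => mom N ((a : ℕ) : ℂ) (t w)) fun x hx => by
    simp only [mom_apply]
    exact HolF.sum fun j _ => (hG.hol x hx.1 j).const_mul _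
  choose κ k1 k2 k3 using h3
  refine ⟨d * N + 1, fun a y => mom N ((a : ℕ) : ℂ) y ^ d +
    ∑ i ∈ Finset.range d, κ a i (π y) * mom N ((a : ℕ) : ℂ) y ^ i, fun a => ?_, ?_⟩
  · refine (((mom N _).analyticAt z).pow d).add (Finset.analyticAt_fun_sum _ fun i _ => ?_)
    exact (AnalyticAt.fun_comp (k1 a i _ (mem_ball_self hr)) (π.analyticAt z)).mul
      (((mom N _).analyticAt z).pow i)
  · filter_upwards [hU.mem_nhds hzU] with y hy
    refine ⟨?_, fun h => ?_⟩
    · rintro ⟨w, hw, rfl⟩ a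
      exact k3 a w ⟨hw, hy⟩
    · obtain ⟨x, hx⟩ := hC.lim _ (hm hy)
      by_contra hn
      obtain ⟨a, ha⟩ := exists_mom (fun k => y - t (x k))
        (fun k e => hn ⟨x k, (hx.2 k).1.1, (sub_eq_zero.1 e).symm⟩) (M := d * N + 1) (by simp)
      have := (k2 a _ (hm hy) x hx _).trans (h a)
      obtain ⟨k, -, hk⟩ := Finset.prod_eq_zero_iff.1 this
      exact ha k (by rw [map_sub, hk])

end Vale.Agent.P277Z.Pj
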