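import Vale.Agent.P277Z.Pj.Defs

/-!
# P277, block PROJ: vector valued holomorphic maps and immersions
-/

set_option linter.unusedSectionVars false

open scoped Manifold ContDiff Topology
open Vale.Agent.P272.K Vale.Agent.P285.H281.FD Set Filter Metric
open Vale.Agent.P277 Vale.Agent.P277.H762 Vale.Agent.P277.PH

noncomputable section

namespace Vale.Agent.P277Z.Pj

variable {W : Type} [TopologicalSpace W] {F F' : Type} [NormedAddCommGroup F] [NormedSpace ℂ F]
  [NormedAddCommGroup F'] [NormedSpace ℂ F']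

/-- the vector valued map `t` is holomorphic near `w` -/
def HolV (n : ℕ) [ChartedSpace (Cm n) W] (t : W → F) (w : W) : Prop :=
  ∀ e : Chart n W, At e w → AnalyticAt ℂ (fun z => t (e.symm z)) (e w)

variable {n : ℕ} [ChartedSpace (Cm n) W] {t t₁ : W → F} {t' : W → F'} {w : W} {e : Chart n W}

theorem holV_iff {f : W → ℂ} : HolV n f w ↔ HolF n f w := Iff.rfl

theorem holV_pi {N : ℕ} {t : W → Cm N} : HolV n t w ↔ ∀ i, HolF n (fun w => t w i) w :=
  ⟨fun h i e he => analyticAt_pi_iff.1 (h e he) i,
    fun h e he => analyticAt_pi_iff.2 fun i => h i e he⟩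

theorem holV_const (c : F) : HolV n (fun _ : W => c) w := fun _ _ => analyticAt_const

theorem HolV.prod (h : HolV n t w) (h' : HolV n t' w) : HolV n (fun w => (t w, t' w)) w :=
  fun e he => (h e he).prod (h' e he)

theorem HolV.comp (h : HolV n t w) {H : F → F'} (hH : AnalyticAt ℂ H (t w)) :
    HolV n (fun w => H (t w)) w := fun e he =>
  AnalyticAt.fun_comp (g := H) (f := fun z => t (e.symm z)) (by rwa [e.left_inv he.2]) (h e he)

theorem HolV.congr (h : HolV n t w) (he : ∀ᶠ v in 𝓝 w, t v = t₁ v) : HolV n t₁ w :=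
  fun e hex => (h e hex).congr (ev_symm hex.2 he)

theorem HolV.continuousAt (h : HolV n t w) : ContinuousAt t w := by
  have he := at_chartAt (n := n) w
  refine (((h _ he).continuousAt.comp ((chartAt (Cm n) w).continuousAt he.2)).congr ?_)
  filter_upwards [(chartAt (Cm n) w).open_source.mem_nhds he.2] with v hv
  exact congrArg t ((chartAt (Cm n) w).left_inv hv)

theorem Imm.congr (h : Imm n t w) (he : ∀ᶠ v in 𝓝 w, t v = t₁ v) : Imm n t₁ w := fun e hex => by
  rw [← Filter.EventuallyEq.fderiv_eq (f₁ := fun z => t (e.symm z)) (ev_symm hex.2 he)]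
  exact h e hex

/-- if `H ∘ t'` is an immersion then `t'` is an immersion -/
theorem Imm.of_comp (h : Imm n t w) (ht' : HolV n t' w) {H : F' → F} (hH : AnalyticAt ℂ H (t' w))
    (he : ∀ᶠ v in 𝓝 w, t v = H (t' v)) : Imm n t' w := fun e hex => by
  have h1 := h.congr he e hex
  rw [fderiv_fun_comp (g := H) (f := fun z => t' (e.symm z)) _
    (by rw [e.left_inv hex.2]; exact hH.differentiableAt) (ht' e hex).differentiableAt] at h1
  exact Function.Injective.of_comp (f := fderiv ℂ H _) h1

variable [IsManifold 𝓘(ℂ, Cm n) ω W]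

theorem holV_of (he : At e w) (h : AnalyticAt ℂ (fun z => t (e.symm z)) (e w)) : HolV n t w := by
  intro e' he'
  refine (AnalyticAt.fun_comp (g := fun z => t (e.symm z)) (f := fun z => e (e'.symm z)) ?_
    (chg_analyticAt he he')).congr (symm_factor he he' t).symm
  rwa [e'.left_inv he'.2]

theorem HolV.eventually [CompleteSpace F] (h : HolV n t w) : ∀ᶠ v in 𝓝 w, HolV n t v := by
  have he := at_chartAt (n := n) w
  filter_upwards [((chartAt (Cm n) w).continuousAt he.2).eventually (h _ he).eventually_analyticAt,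
    (chartAt (Cm n) w).open_source.mem_nhds he.2] with v h1 h2 using holV_of ⟨he.1, h2⟩ h1

theorem holV_chart (he : At e w) : HolV n e w := fun _ he' => chg_analyticAt he he'

/-- charts are immersions -/
theorem imm_chart (he : At e w) : Imm n e w := fun e' he' => by
  have h1 : HasFDerivAt (fun z => e' (e.symm (e (e'.symm z)))) (ContinuousLinearMap.id ℂ _)
      (e' w) := by
    refine (hasFDerivAt_id _).congr_of_eventuallyEq ?_
    filter_upwards [ev_symm he'.2 (e.open_source.mem_nhds he.2),
      e'.open_target.mem_nhds (e'.map_source he'.2)] with z h1 h2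
    rw [e.left_inv h1, e'.right_inv h2, id]
  have h2 := HasFDerivAt.comp (g := fun z => e' (e.symm z)) (f := fun z => e (e'.symm z)) (e' w)
    (by rw [e'.left_inv he'.2]; exact (chg_analyticAt he' he).differentiableAt.hasFDerivAt)
    (chg_analyticAt he he').differentiableAt.hasFDerivAt
  refine Function.Injective.of_comp (f := fderiv ℂ (fun z => e' (e.symm z)) (e w)) fun a b hab => ?_
  exact (DFunLike.congr_fun (h2.unique h1) a).symm.trans
    (hab.trans (DFunLike.congr_fun (h2.unique h1) b))

/-- a map from which one can recover a chart is an immersion -/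
theorem imm_of_left_inv (he : At e w) (ht : HolV n t w) {G : F → Cm n} (hG : AnalyticAt ℂ G (t w))
    (h : ∀ᶠ v in 𝓝 w, e v = G (t v)) : Imm n t w := (imm_chart he).of_comp ht hG h

/-- one chart is enough -/
theorem imm_of_chart (he : At e w) (ht : AnalyticAt ℂ (fun z => t (e.symm z)) (e w))
    (h : Function.Injective (fderiv ℂ (fun z => t (e.symm z)) (e w))) : Imm n t w := by
  intro e' he'
  rw [(symm_factor he he' t).fderiv_eq, fderiv_comp _
    (by rw [e'.left_inv he'.2]; exact ht.differentiableAt)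
    (chg_analyticAt he he').differentiableAt, e'.left_inv he'.2]
  exact h.comp (imm_chart he e' he')

variable [FiniteDimensional ℂ F]

/-- a chart is an analytic function of an immersion -/
theorem Imm.chart_eq (h : Imm n t w) (ht : HolV n t w) (he : At e w) :
    ∃ G : F → Cm n, AnalyticAt ℂ G (t w) ∧ ∀ᶠ v in 𝓝 w, e v = G (t v) := by
  obtain ⟨L₀, hL⟩ := (fderiv ℂ (fun z => t (e.symm z)) (e w) :
    Cm n →ₗ[ℂ] F).exists_leftInverse_of_injective (LinearMap.ker_eq_bot.2 (h e he))
  let L : F →L[ℂ] Cm n := LinearMap.toContinuousLinearMap L₀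
  obtain ⟨φ, h1, h2, -, h3⟩ := exists_localInvV (F := fun z => L (t (e.symm z)))
    ((L.analyticAt _).comp (ht e he)) (ContinuousLinearEquiv.refl ℂ _) (by
      rw [fderiv_fun_comp _ L.differentiableAt (ht e he).differentiableAt, L.fderiv]
      exact ContinuousLinearMap.ext fun v => (DFunLike.congr_fun hL v).symm)
  have h4 : ∀ v ∈ e.source, L (t v) = φ (e v) := fun v hv => by simp only [h1, e.left_inv hv]
  refine ⟨fun y => φ.symm (L y), AnalyticAt.fun_comp (g := φ.symm) (f := L)
    (by rw [h4 w he.2]; exact h3 _ (φ.map_source h2)) (L.analyticAt _), ?_⟩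
  filter_upwards [e.open_source.mem_nhds he.2,
    (e.continuousAt he.2).eventually (φ.open_source.mem_nhds h2)] with v h5 h6
  rw [h4 v h5, φ.left_inv h6]

/-- holomorphic maps are analytic functions of an immersion -/
theorem Imm.left_inv (h : Imm n t w) (ht : HolV n t w) (ht' : HolV n t' w) :
    ∃ G : F → F', AnalyticAt ℂ G (t w) ∧ ∀ᶠ v in 𝓝 w, t' v = G (t v) := by
  have he := at_chartAt (n := n) w
  obtain ⟨G, h1, h2⟩ := h.chart_eq ht he
  refine ⟨fun y => t' ((chartAt (Cm n) w).symm (G y)), AnalyticAt.fun_comp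
    (g := fun z => t' ((chartAt (Cm n) w).symm z)) (by rw [← h2.self_of_nhds]; exact ht' _ he) h1,
    ?_⟩
  filter_upwards [h2, (chartAt (Cm n) w).open_source.mem_nhds he.2] with v h3 h4
  rw [← h3, (chartAt (Cm n) w).left_inv h4]

theorem Imm.eventually (h : Imm n t w) (ht : HolV n t w) : ∀ᶠ v in 𝓝 w, Imm n t v := by
  have := FiniteDimensional.complete ℂ F
  have he := at_chartAt (n := n) w
  obtain ⟨G, h1, h2⟩ := h.chart_eq ht he
  filter_upwards [h2.eventually_nhds, ht.eventually, (chartAt (Cm n) w).open_source.mem_nhds he.2,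
    ht.continuousAt.eventually h1.eventually_analyticAt] with v a1 a2 a3 a4
  exact imm_of_left_inv ⟨he.1, a3⟩ a2 a4 a1

theorem Imm.inj_near (h : Imm n t w) (ht : HolV n t w) : ∃ N ∈ 𝓝 w, InjOn t N := by
  have he := at_chartAt (n := n) w
  obtain ⟨G, -, h2⟩ := h.chart_eq ht he
  exact ⟨_, inter_mem h2 ((chartAt (Cm n) w).open_source.mem_nhds he.2), fun a ha b hb hab =>
    (chartAt (Cm n) w).injOn ha.2 hb.2 (ha.1.trans ((congrArg G hab).trans hb.1.symm))⟩

end Vale.Agent.P277Z.Pj
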