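import Vale.Agent.P277Z.Pj.Sk
import Vale.Agent.P277Z.Pj.Imm
import Vale.Agent.P277Z.Glc.Loc

/-!
# P277, block PROJ: elementary facts on models, projective maps and free line bundles
-/

set_option linter.unusedSectionVars false

open scoped Manifold ContDiff Topology
open Vale.Agent.P272.K Vale.Agent.P285.H281.FD Set Filter Metric
open Vale.Agent.P277 Vale.Agent.P277.H762 Vale.Agent.P277.PH
open Vale.Agent.P277Z.Coh (ScAt LBOn prpBase holSys)

noncomputable section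

namespace Vale.Agent.P277Z.Pj

section model

variable {X : CSp} {V V' : Set X.pt} {N k : ℕ} {Ω : Set (Cm N)} {h : Fin k → Cm N → ℂ}
  {ψ : X.pt → Cm N} {x : X.pt}

theorem model_shrink (hM : IsModel X.Hol V Ω h ψ) (hV' : IsOpen V') (hs : V' ⊆ V) :
    ∃ Ω', IsModel X.Hol V' Ω' h ψ := Glc.isModel_mono hM hV' hs

theorem model_small (X : CSp) (x : X.pt) {V₁ : Set X.pt} (h1 : IsOpen V₁) (hx : x ∈ V₁) :
    ∃ (N k : ℕ) (V : Set X.pt) (Ω : Set (Cm N)) (h : Fin k → Cm N → ℂ) (ψ : X.pt → Cm N),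
      x ∈ V ∧ V ⊆ V₁ ∧ IsModel X.Hol V Ω h ψ := by
  obtain ⟨N, k, V, Ω, h, ψ, hV, hM⟩ := X.model x
  obtain ⟨Ω', h'⟩ := model_shrink hM (hM.isOpen.inter h1) inter_subset_left
  exact ⟨N, k, V ∩ V₁, Ω', h, ψ, ⟨hV, hx⟩, inter_subset_right, h'⟩

theorem model_mem (hM : IsModel X.Hol V Ω h ψ) (hx : x ∈ V) : ψ x ∈ Ω ∧ ∀ i, h i (ψ x) = 0 :=
  (hM.image ▸ mem_image_of_mem ψ hx : ψ x ∈ {z ∈ Ω | ∀ i, h i z = 0})

theorem model_crd (hM : IsModel X.Hol V Ω h ψ) (hx : x ∈ V) (i : Fin N) :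
    X.Hol (fun y => ψ y i) x := hM.isCoord.hol i x hx

/-- finitely many holomorphic functions are an analytic function of the coordinates -/
theorem model_vec (hM : IsModel X.Hol V Ω h ψ) (hx : x ∈ V) {M : ℕ} {g : X.pt → Cm M}
    (hg : ∀ a, X.Hol (fun y => g y a) x) :
    ∃ G : Cm N → Cm M, AnalyticAt ℂ G (ψ x) ∧ ∀ᶠ y in 𝓝 x, g y = G (ψ y) := by
  choose G h1 h2 using fun a => (hM.hol x hx _).1 (hg a)
  exact ⟨fun z a => G a z, analyticAt_pi_iff.2 h1,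
    (eventually_all.2 h2).mono fun y hy => funext hy⟩

/-- the model map is proper -/
theorem model_proper (hM : IsModel X.Hol V Ω h ψ) {K : Set (Cm N)} (hK : IsCompact K)
    (hs : K ⊆ Ω) : IsCompact (V ∩ ψ ⁻¹' K) := by
  have h1 : IsCompact (K ∩ ⋂ i, h i ⁻¹' {0}) := by
    refine hK.of_isClosed_subset ?_ inter_subset_left
    have : K ∩ ⋂ i, h i ⁻¹' {0} = K ∩ (fun z i => h i z) ⁻¹' {0} := by
      ext z
      simp [funext_iff]
    rw [this]
    exact ContinuousOn.preimage_isClosed_of_isClosed (fun z hz => (continuousAt_pi.2 fun i =>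
      (hM.holo i z (hs hz)).continuousAt).continuousWithinAt) hK.isClosed isClosed_singleton
  have h2 := hM.emb.isInducing.isCompact_preimage' h1 (by
    rintro z ⟨h3, h4⟩
    obtain ⟨y, hy, rfl⟩ : z ∈ ψ '' V := hM.image ▸ ⟨hs h3, fun i => mem_iInter.1 h4 i⟩
    exact ⟨⟨y, hy⟩, rfl⟩)
  convert h2.image continuous_subtype_val using 1
  ext y
  exact ⟨fun ⟨a, b⟩ => ⟨⟨y, a⟩, ⟨b, mem_iInter.2 (model_mem hM a).2⟩, rfl⟩,
    fun ⟨y', a, b⟩ => b ▸ ⟨y'.2, a.1⟩⟩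

end model

variable {W : Type} [TopologicalSpace W] {n : ℕ} [ChartedSpace (Cm n) W] {O O' : Set W}
  {r N : ℕ} {D : Fin (r + 1) → Set W} {ν : Fin (r + 1) → W → Cm (r + 1)} {t : W → Cm N}

theorem HolTo.prp [T2Space W] [CompactSpace W] {X : CSp} {p : W → X.pt} (hp : HolTo n X p)
    {V : Set X.pt} {k : ℕ} {Ω : Set (Cm N)} {h : Fin k → Cm N → ℂ} {ψ : X.pt → Cm N}
    (hM : IsModel X.Hol V Ω h ψ) : Prp n (p ⁻¹' V) (fun w => ψ (p w)) Ω where
  isOpen := hM.isOpen.preimage hp.cont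
  isOpen' := hM.isOpen'
  hol w hw i := hp.hol w (fun y => ψ y i) (model_crd hM hw i)
  maps _ hw := (model_mem hM hw).1
  proper _ hs hK := ((model_proper hM hK hs).isClosed.preimage hp.cont).isCompact

theorem HolTo.comp {X Y : CSp} {φ : W → Y.pt} {q : Y.pt → X.pt} (hφ : HolTo n Y φ)
    (hq : ∀ y, HolMap Y X q y) : HolTo n X fun w => q (φ w) :=
  ⟨(continuous_iff_continuousAt.2 fun y => (hq y).1).comp hφ.cont,
    fun w g hg => hφ.hol w (g ∘ q) ((hq _).2 g hg)⟩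

theorem PMap.isOpen' (h : PMap n O D ν) : IsOpen O := by
  have : O = ⋃ m, D m := Set.ext fun w => (h.cover w).trans mem_iUnion.symm
  exact this ▸ isOpen_iUnion h.isOpen

theorem PMap.sub (h : PMap n O D ν) (m : Fin (r + 1)) : D m ⊆ O :=
  fun w hw => (h.cover w).2 ⟨m, hw⟩

theorem PMap.holV (h : PMap n O D ν) {m : Fin (r + 1)} {w : W} (hw : w ∈ D m) :
    HolV n (ν m) w := holV_pi.2 (h.hol m w hw)

theorem PMap.mul (h : PMap n O D ν) {m l : Fin (r + 1)} {w : W} (hm : w ∈ D m) (hl : w ∈ D l) :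
    ν m w l * ν l w m = 1 := by
  have := congrFun (h.chg m l w hm hl) m
  rw [h.one m w hm] at this
  exact this.symm

theorem PMap.restrict (h : PMap n O D ν) (hO : IsOpen O') (hs : O' ⊆ O) :
    PMap n O' (fun m => D m ∩ O') ν where
  isOpen m := (h.isOpen m).inter hO
  cover w := ⟨fun hw => ((h.cover w).1 (hs hw)).imp fun _ a => ⟨a, hw⟩, fun ⟨_, a⟩ => a.2⟩
  hol m w hw := h.hol m w hw.1
  one m w hw := h.one m w hw.1
  mem m l w hw := (and_iff_left hw.2).trans (h.mem m l w hw.1)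
  chg m l w hw hl := h.chg m l w hw.1 hl.1

theorem PEmb.restrict (h : PEmb n O t D ν) (hO : IsOpen O') (hs : O' ⊆ O) :
    PEmb n O' t (fun m => D m ∩ O') ν where
  toPMap := h.toPMap.restrict hO hs
  inj m w hw w' hw' := h.inj m w hw.1 w' hw'.1
  imm m w hw := h.imm m w hw.1

theorem Prj.restrict (h : Prj n O t) (hO : IsOpen O') (hs : O' ⊆ O) : Prj n O' t :=
  let ⟨r, _, ν, h⟩ := h
  ⟨r, _, ν, h.restrict hO hs⟩

/-- if `t` is locally an analytic function of `t'`, then `t'` is projective -/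
theorem PEmb.of_comp (h : PEmb n O t D ν) {N' : ℕ} {t' : W → Cm N'}
    (ht : ∀ w ∈ O, ∀ i, HolF n (fun w => t' w i) w)
    (h1 : ∀ w ∈ O, ∀ w' ∈ O, t' w' = t' w → t w' = t w)
    (h2 : ∀ w ∈ O, ∃ G : Cm N' → Cm N, AnalyticAt ℂ G (t' w) ∧ ∀ᶠ v in 𝓝 w, t v = G (t' v)) :
    PEmb n O t' D ν where
  toPMap := h.toPMap
  inj m w hw w' hw' e := h.inj m w hw w' hw' (h1 w (h.sub m hw) w' (h.sub m hw') e)
  imm m w hw := by
    obtain ⟨G, h3, h4⟩ := h2 w (h.sub m hw)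
    exact (h.imm m w hw).of_comp ((holV_pi.2 (ht w (h.sub m hw))).prod (h.holV hw))
      (H := fun q => (G q.1, q.2)) ((AnalyticAt.fun_comp (g := G) (f := Prod.fst)
        (x := (t' w, ν m w)) h3 analyticAt_fst).prod analyticAt_snd) (h4.mono fun v hv => by rw [hv])

theorem GPrj.small {X : CSp} {p : W → X.pt} (h : GPrj n X p) (hp : Continuous p) (x : X.pt)
    {V₁ : Set X.pt} (h1 : IsOpen V₁) (hx : x ∈ V₁) :
    ∃ (N k : ℕ) (V : Set X.pt) (Ω : Set (Cm N)) (h : Fin k → Cm N → ℂ) (ψ : X.pt → Cm N),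
      x ∈ V ∧ V ⊆ V₁ ∧ IsModel X.Hol V Ω h ψ ∧ Prj n (p ⁻¹' V) fun w => ψ (p w) := by
  obtain ⟨N, k, V, Ω, h, ψ, hV, hM, hP⟩ := h x
  obtain ⟨Ω', h'⟩ := model_shrink hM (hM.isOpen.inter h1) inter_subset_left
  exact ⟨N, k, V ∩ V₁, Ω', h, ψ, ⟨hV, hx⟩, inter_subset_right, h',
    hP.restrict (h'.isOpen.preimage hp) fun _ a => a.1⟩

theorem lbOn_of_isLB {L : Bd W} (h : IsLB n L) (O : Set W) : LBOn n O L :=
  ⟨h.isOpen, fun x _ => h.cover x, fun i j x _ hi hj e he => (h.holo i j e x he hi hj).analyticAt,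
    fun i j x _ => h.ne_zero i j x, fun i j k x _ => h.cocycle i j k x⟩

theorem lbOn_pow {L : Bd W} (h : LBOn n O L) (k : ℕ) : LBOn n O (L.pow k) :=
  ⟨h.isOpen, h.cover, fun i j x hx hi hj e he => (h.holo i j x hx hi hj e he).pow k,
    fun i j x hx hi hj => pow_ne_zero k (h.ne_zero i j x hx hi hj),
    fun i j l x hx hi hj hl => (mul_pow _ _ k).symm.trans
      (congrArg (· ^ k) (h.cocycle i j l x hx hi hj hl))⟩

theorem lbOn_triv (O : Set W) : LBOn n O (Coh.triv W) :=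
  ⟨fun _ => isOpen_univ, fun _ _ => ⟨(), trivial⟩, fun _ _ _ _ _ _ => HolF.const 1,
    fun _ _ _ _ _ _ => one_ne_zero, fun _ _ _ _ _ _ _ _ => mul_one _⟩

/-- the map to the projective space given by sections without common zeros -/
theorem FreeOn.pmap {M : Bd W} {τ : Fin (r + 1) → M.ι → W → ℂ} (h : FreeOn n M O τ)
    (hM : LBOn n O M) (hO : IsOpen O) :
    ∃ (D : Fin (r + 1) → Set W) (ν : Fin (r + 1) → W → Cm (r + 1)), PMap n O D ν ∧
      ∀ w ∈ O, ∀ i, w ∈ M.U i → ∀ m, (w ∈ D m ↔ τ m i w ≠ 0) ∧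
        ∀ l, ν m w l = τ l i w / τ m i w := by
  classical
  choose c hc using hM.cover
  let D : Fin (r + 1) → Set W := fun m => {w | w ∈ O ∧ ∃ i, w ∈ M.U i ∧ τ m i w ≠ 0}
  let ν : Fin (r + 1) → W → Cm (r + 1) := fun m w l =>
    if hw : w ∈ O then τ l (c w hw) w / τ m (c w hw) w else 0
  have key : ∀ w ∈ O, ∀ i, w ∈ M.U i → ∀ m, (w ∈ D m ↔ τ m i w ≠ 0) ∧
      ∀ l, ν m w l = τ l i w / τ m i w := fun w hw i hi m => by
    refine ⟨⟨fun ⟨_, j, hj, h0⟩ => ?_, fun h0 => ⟨hw, i, hi, h0⟩⟩, fun l => ?_⟩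
    · rw [(h.sec m w hw i hi).2 j hj]
      exact mul_ne_zero (hM.ne_zero i j w hw hi hj) h0
    · simp only [ν, dif_pos hw]
      rw [(h.sec m w hw _ (hc w hw)).2 i hi, (h.sec l w hw _ (hc w hw)).2 i hi,
        mul_div_mul_left _ _ (hM.ne_zero _ i w hw (hc w hw) hi)]
  refine ⟨D, ν, ⟨fun m => isOpen_iff_mem_nhds.2 fun w ⟨hw, i, hi, h0⟩ => ?_,
    fun w => ⟨fun hw => (h.nz w hw _ (hc w hw)).imp fun m h0 => ⟨hw, _, hc w hw, h0⟩,
      fun ⟨_, a⟩ => a.1⟩, fun m w ⟨hw, i, hi, h0⟩ l => ?_, fun m w ⟨hw, i, hi, h0⟩ => ?_,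
    fun m l w ⟨hw, i, hi, h0⟩ => ?_, fun m l w ⟨hw, i, hi, h0⟩ hl => funext fun j => ?_⟩, key⟩
  · filter_upwards [hO.mem_nhds hw, (hM.isOpen i).mem_nhds hi,
      (holF_cont (h.sec m w hw i hi).1).eventually_ne h0] with v a1 a2 a3 using ⟨a1, i, a2, a3⟩
  · refine ((h.sec l w hw i hi).1.mul ((holSys n).inv (h.sec m w hw i hi).1 h0)).congr ?_
    filter_upwards [hO.mem_nhds hw, (hM.isOpen i).mem_nhds hi] with v a1 a2
    rw [(key v a1 i a2 m).2 l, div_eq_mul_inv]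
  · rw [(key w hw i hi m).2 m, div_self h0]
  · rw [(key w hw i hi m).2 l, (key w hw i hi l).1, div_ne_zero_iff, and_iff_left h0]
  · rw [Pi.smul_apply, (key w hw i hi m).2, (key w hw i hi m).2, (key w hw i hi l).2, smul_eq_mul,
      div_mul_div_comm, mul_comm (τ m i w), mul_div_mul_left _ _ ((key w hw i hi l).1.1 hl)]

/-- the part of a compact set where the affine coordinates are bounded is compact -/
theorem PMap.closed [T2Space W] (h : PMap n O D ν) {K : Set W} (hK : IsCompact K) (hs : K ⊆ O)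
    (m : Fin (r + 1)) (C : ℝ) : IsCompact {w | w ∈ K ∧ w ∈ D m ∧ ‖ν m w‖ ≤ C} := by
  refine hK.of_isClosed_subset (isClosed_of_closure_subset fun w hw => ?_) fun _ a => a.1
  have h1 : w ∈ K := closure_minimal (fun _ a => a.1) hK.isClosed hw
  obtain ⟨l, hl⟩ := (h.cover w).1 (hs h1)
  have h2 := mem_closure_iff_frequently.1 hw
  have h3 : 1 ≤ C * ‖ν l w m‖ := by
    refine (isClosed_Ici.mem_of_frequently_of_tendsto (f := fun v => C * ‖ν l v m‖)
      ((h2.and_eventually ((h.isOpen l).mem_nhds hl)).mono fun v hv => ?_)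
      (continuousAt_const.mul (holF_cont (h.hol l w hl m)).norm))
    calc (1 : ℝ) = ‖ν m v l‖ * ‖ν l v m‖ := by rw [← norm_mul, h.mul hv.1.2.1 hv.2, norm_one]
      _ ≤ _ := mul_le_mul_of_nonneg_right ((norm_le_pi_norm _ l).trans hv.1.2.2) (norm_nonneg _)
  have h4 : w ∈ D m := (h.mem l m w hl).2 fun h0 => by
    rw [h0, norm_zero, mul_zero] at h3
    exact absurd h3 (by norm_num)
  exact ⟨h1, h4, mem_Iic.1 (isClosed_Iic.mem_of_frequently_of_tendsto (f := fun v => ‖ν m v‖)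
    (h2.mono fun v hv => hv.2.2) (h.holV h4).continuousAt.norm)⟩

/-- every point lies in a chart in which the affine coordinates are bounded by `1` -/
theorem PMap.le_one (h : PMap n O D ν) {w : W} (hw : w ∈ O) : ∃ m, w ∈ D m ∧ ‖ν m w‖ ≤ 1 := by
  obtain ⟨l, hl⟩ := (h.cover w).1 hw
  obtain ⟨m, -, hm⟩ := Finset.exists_max_image Finset.univ (fun j => ‖ν l w j‖)
    Finset.univ_nonempty
  have h1 : 0 < ‖ν l w m‖ := lt_of_lt_of_le (by rw [h.one l w hl, norm_one]; exact one_pos)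
    (hm l (Finset.mem_univ _))
  have h2 := (h.mem l m w hl).2 (norm_pos_iff.1 h1)
  refine ⟨m, h2, (pi_norm_le_iff_of_nonneg zero_le_one).2 fun j => ?_⟩
  refine le_of_mul_le_mul_left ?_ h1
  rw [← norm_mul, mul_one, ← smul_eq_mul, ← Pi.smul_apply, ← h.chg l m w hl h2]
  exact hm j (Finset.mem_univ _)

end Vale.Agent.P277Z.Pj
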