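import Vale.Agent.P277Z.Pj.Sk2
import Vale.Agent.P277Z.Val.Mod

/-!
# P277, block PROJ: the model defined by free line bundles on a log resolution (statements)
-/

open scoped Manifold ContDiff Topology
open Vale.Agent.P272.K Vale.Agent.P285.H281.FD Set Filter
open Vale.Agent.P277 Vale.Agent.P277.PH
open Vale.Agent.P277.T2 (IsCmpV)
open Vale.Agent.P277Z.Coh (ScAt HomAt)
open Vale.Agent.P277Z.Val (Lg Res)

noncomputable section

namespace Vale.Agent.P277Z.Pj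

/-- the tensor product of a family -/
abbrev tns {W : Type} {R : ℕ} (M : Fin R → Bd W) : Bd W := HD.Bd.lin M fun _ => 1

/-- all sections of `N ⊗ M^k` over the base vanish at `w` -/
def Fixed {W : Type} [TopologicalSpace W] [ChartedSpace (Cm 4) W] {X : CSp} (p : W → X.pt)
    (M N : Bd W) (w : W) : Prop :=
  ∀ (k : ℕ) (O : Set X.pt) (g : (N.mul (M.pow k)).ι → W → ℂ), IsOpen O → p w ∈ O →
    (∀ v, p v ∈ O → ScAt (HolF 4) (N.mul (M.pow k)) g v) → ¬ NZ (N.mul (M.pow k)) g w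

/-- the input of the construction of the model -/
structure MIn (V : Lg) (X : CSp) (p : V.W → X.pt) (T : Finset (Fin V.r)) {R : ℕ}
    (M : Fin R → Bd V.W) : Prop where
  ne : Nonempty V.W
  hol : HolTo 4 X p
  imm : Dense {w | ImmTo 4 X p w}
  lb : ∀ i, IsLB 4 (M i)
  free : ∀ i, Free 4 p (M i)
  contr : ∀ l ∈ T, ∀ w ∈ V.G l, ∃ N, IsLB 4 N ∧ Fixed p (tns M) N w
  emb : ∃ (A : Bd V.W) (k : ℕ) (θ : A.ι → ((tns M).pow k).ι → V.W → ℂ), IsLB 4 A ∧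
    RelAmple V.X X p A ∧ (∀ w, HomAt (HolF 4) A ((tns M).pow k) θ w) ∧
    ∀ w ∉ ⋃ l ∈ T, V.G l, ∀ i j, w ∈ A.U i → w ∈ (tns M).U j → θ i j w ≠ 0

/-- the model -/
structure MOut (V : Lg) (X : CSp) (p : V.W → X.pt) (T : Finset (Fin V.r)) {R : ℕ}
    (M : Fin R → Bd V.W) (Y : CSp) (g : Y.pt → X.pt) (ψ : V.W → Y.pt) (Λ : Bd Y.pt)
    (L : Fin R → Bd Y.pt) : Prop where
  normal : IsNormal 4 Y
  hol : ∀ y, HolMap Y X g y
  comp : ∀ w, g (ψ w) = p w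
  stein : Stein 4 Y ψ
  lb : IsLBx Y Λ
  amp : RelAmple Y X g Λ
  iso : ∃ u, PIso 4 ψ Λ (tns M) u
  lbi : ∀ i, IsLBx Y (L i)
  isoi : ∀ i, ∃ u, PIso 4 ψ (L i) (M i) u
  res : Res V Y ψ T
  fib : ∀ w w', ψ w' = ψ w ↔ w' ∈ Cls 4 p (tns M) w

/-- **MODEL** -/
def StModel : Prop :=
  ∀ (V : Lg) (X : CSp) (p : V.W → X.pt) (T : Finset (Fin V.r)) (R : ℕ) (M : Fin R → Bd V.W),
    MIn V X p T M → ∃ Y g ψ Λ L, MOut V X p T M Y g ψ Λ L

/-- ROW QC: comparisons descend -/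
def StQC : Prop :=
  ∀ (V : Lg) (Y : CSp) (ψ : V.W → Y.pt) (R : ℕ) (M : Fin R → Bd V.W) (L : Fin R → Bd Y.pt)
    (z : Fin R → ℤ) (N : Bd V.W) (ν : Fin V.r → ℤ), Continuous ψ → (∀ i, IsLB 4 (M i)) →
    (∀ i, IsLBx Y (L i)) → (∀ i, ∃ u, PIso 4 ψ (L i) (M i) u) →
    (∃ t, IsCmpV (Y := V.W) (X := V.X) (fun w => w) (fun _ : Fin 1 => HD.Bd.lin M z) (fun _ => N)
      V.G (fun _ => ν) t) →
    IsLBx Y (HD.Bd.lin L z) ∧
      ∃ t, IsCmpV ψ (fun _ : Fin 1 => HD.Bd.lin L z) (fun _ => N) V.G (fun _ => ν) t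

/-- ROW ISOOFF: the model is the base where the fibres agree -/
def StIsoOff : Prop :=
  ∀ (W : Type) [TopologicalSpace W] [T2Space W] [CompactSpace W] [ChartedSpace (Cm 4) W]
    [IsManifold 𝓘(ℂ, Cm 4) ω W] (X Y : CSp) (p : W → X.pt) (ψ : W → Y.pt) (g : Y.pt → X.pt)
    (N : Set X.pt), Stein 4 X p → Stein 4 Y ψ → (∀ w, g (ψ w) = p w) → IsClosed N →
    (∀ w w', p w ∉ N → p w' = p w → ψ w' = ψ w) → Glc.IsoOff Y X g N

/-- ROW CLST: where the bundle is trivial the classes are the fibres -/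
def StClsT : Prop :=
  ∀ (W : Type) [TopologicalSpace W] [T2Space W] [CompactSpace W] [ChartedSpace (Cm 4) W]
    [IsManifold 𝓘(ℂ, Cm 4) ω W] (X : CSp) (p : W → X.pt) (M : Bd W) (w : W) (s : M.ι → W → ℂ),
    Stein 4 X p → IsLB 4 M →
    (∀ v, p v = p w → (∀ᶠ v' in 𝓝 v, ScAt (HolF 4) M s v') ∧ NZ M s v) →
    Cls 4 p M w = p ⁻¹' {p w}

end Vale.Agent.P277Z.Pj
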