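import Vale.Agent.P277Z.Pj.ModA
import Vale.Agent.P277Z.Pj.MSk
import Vale.Agent.P277Z.Val.Mon

/-!
# P277, block PROJ: the model defined by free line bundles on a log resolution
-/

open scoped Manifold ContDiff Topology
open Vale.Agent.P272.K Vale.Agent.P285.H281.FD Set Filter
open Vale.Agent.P277 Vale.Agent.P277.PH
open Vale.Agent.P277.HD (pull)
open Vale.Agent.P277Z.Coh (ScAt HomAt holSys)
open Vale.Agent.P277Z.Val (Lg Res IsDiv)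

noncomputable section

namespace Vale.Agent.P277Z.Pj

namespace Md

/-- a section whose zero set is a union of components has a divisor -/
theorem div_of_zero {V : Lg} {L : Bd V.W} (hL : IsLB 4 L) {τ : L.ι → V.W → ℂ} (hτ : IsSec 4 L τ)
    {T : Finset (Fin V.r)} (h : ∀ w i, w ∈ L.U i → (τ i w = 0 ↔ w ∈ ⋃ l ∈ T, V.G l)) :
    ∃ c : Fin V.r → ℕ, (∀ l, 0 < c l ↔ l ∈ T) ∧ IsDiv V L τ c := by
  choose a ha using hL.cover
  have hg : ∀ i j z, z ∈ L.U i → z ∈ L.U j → HolF 4 (L.g i j) z ∧ L.g i j z ≠ 0 ∧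
      ∀ᶠ x in 𝓝 z, τ i x = L.g i j x * τ j x := fun i j z hi hj =>
    ⟨fun e he => (hL.holo i j e z he hi hj).analyticAt, hL.ne_zero i j z hi hj, by
      filter_upwards [(hL.isOpen i).mem_nhds hi, (hL.isOpen j).mem_nhds hj] with x b d
        using hτ.change i j x b d⟩
  obtain ⟨c, hc⟩ := Val.exists_mon_glob (V := V) (fun y => τ (a y))
    (fun y e he => (hτ.holo _ e y he (ha y)).analyticAt) (fun y => by
      filter_upwards [(hL.isOpen _).mem_nhds (ha y)] with x b d e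
      obtain ⟨l, -, hl⟩ := mem_iUnion₂.1 ((h x _ b).1 e)
      exact d (mem_iUnion.2 ⟨l, hl⟩)) fun y => by
      filter_upwards [(hL.isOpen _).mem_nhds (ha y)] with z b using ⟨_, hg _ _ z (ha z) b⟩
  refine ⟨c, fun l => ?_, hτ, fun y i ζ hi hζ => (hc y).unit (hg i _ y hi (ha y)).1
    (hg i _ y hi (ha y)).2.1 (hg i _ y hi (ha y)).2.2 ζ hζ⟩
  obtain ⟨y, hy⟩ := (V.conn l).nonempty
  obtain ⟨x, h1, h2⟩ := (Lg.freq1 hy).exists
  obtain ⟨ζ, hζ⟩ := V.exEq x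
  obtain ⟨u, -, h3, h4⟩ := hc x ζ hζ
  have h5 := h x _ (ha x)
  rw [h4.self_of_nhds, mul_eq_zero, or_iff_right h3, Finset.prod_eq_zero_iff] at h5
  constructor
  · intro h6
    obtain ⟨k, a1, a2⟩ := mem_iUnion₂.1 (h5.1 ⟨l, Finset.mem_univ _, by
      rw [(hζ.iff.self_of_nhds l).2 h1, zero_pow h6.ne']⟩)
    by_cases e : k = l
    · exact e ▸ a1
    · exact absurd a2 (h2 k e)
  · intro h6
    obtain ⟨k, -, a1⟩ := h5.2 (mem_iUnion₂.2 ⟨l, h6, h1⟩)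
    obtain ⟨a2, a3⟩ := pow_eq_zero_iff'.1 a1
    by_cases e : k = l
    · exact e ▸ Nat.pos_of_ne_zero a3
    · exact absurd ((hζ.iff.self_of_nhds k).1 a2) (h2 k e)

/-- a homomorphism `A → M^k` as a section of the dual of `A ⊗ ψ^* Λ^{-k}` -/
theorem sec_div {n : ℕ} {W : Type} [TopologicalSpace W] [ChartedSpace (Cm n) W] {Y : CSp}
    {ψ : W → Y.pt} (hψ : Continuous ψ) {Λ : Bd Y.pt} {A M : Bd W} (hΛ : IsLBx Y Λ) (hA : IsLB n A)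
    (hM : IsLB n M) {u : Λ.ι → M.ι → W → ℂ} (hu : PIso n ψ Λ M u) {k : ℕ}
    {θ : A.ι → (M.pow k).ι → W → ℂ} (hθ : ∀ w, HomAt (HolF n) A (M.pow k) θ w) :
    ∃ τ, IsSec n (Bd.inv (A.mul (pull ψ (Bd.inv (Λ.pow k))))) τ ∧
      ∀ w i i₀ j, w ∈ A.U i → ψ w ∈ Λ.U i₀ → w ∈ M.U j → τ (i, i₀) w = θ i j w / u i₀ j w ^ k := by
  choose c hc using hM.cover
  have key : ∀ w i i₀ j, w ∈ A.U i → ψ w ∈ Λ.U i₀ → w ∈ M.U j →
      θ i (c w) w / u i₀ (c w) w ^ k = θ i j w / u i₀ j w ^ k := fun w i i₀ j a b d => by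
    have h1 := hu.chg i₀ i₀ (c w) j w b b (hc w) d
    rw [isLBx_self hΛ b, mul_one] at h1
    rw [h1, (hθ w i (c w) a (hc w)).2.2 j d, mul_pow]
    exact mul_div_mul_left _ _ (pow_ne_zero k (hM.ne_zero _ j w (hc w) d))
  refine ⟨fun I w => θ I.1 (c w) w / u I.2 (c w) w ^ k, ⟨fun I e w he hI => ?_,
    fun I J w hI hJ => ?_⟩, key⟩
  · have h1 := hu.hol I.2 (c w) w hI.2 (hc w)
    have h2 : HolF n (fun v => θ I.1 (c w) v / u I.2 (c w) v ^ k) w := fun e he =>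
      ((hθ w I.1 (c w) hI.1 (hc w)).1 e he).div ((h1.1 e he).pow k)
        (by rw [e.left_inv he.2]; exact pow_ne_zero k h1.2)
    refine (HolF.congr (g' := fun v => θ I.1 (c v) v / u I.2 (c v) v ^ k) h2 ?_ e he).contDiffAt
    filter_upwards [(hA.isOpen _).mem_nhds hI.1, ((hΛ.isOpen _).preimage hψ).mem_nhds hI.2,
      (hM.isOpen _).mem_nhds (hc w)] with v a b d using (key v _ _ _ a b d).symm
  · have h1 := hu.chg I.2 J.2 (c w) (c w) w hI.2 hJ.2 (hc w) (hc w)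
    rw [isLB_self hM (hc w), one_mul] at h1
    have h2 := (hu.hol I.2 (c w) w hI.2 (hc w)).2
    have h3 := hΛ.ne_zero _ _ _ hI.2 hJ.2
    have h4 := hA.ne_zero _ _ _ hI.1 hJ.1
    change θ I.1 (c w) w / u I.2 (c w) w ^ k = (A.g I.1 J.1 w * (Λ.g I.2 J.2 (ψ w) ^ k)⁻¹)⁻¹ *
      (θ J.1 (c w) w / u J.2 (c w) w ^ k)
    rw [← h1, ← (hθ w I.1 (c w) hI.1 (hc w)).2.1 J.1 hJ.1, mul_pow]
    field_simp

end Md

open Md

theorem model_of (h1 : PROJ) (h2 : LOCQ) (h3 : NRM) (h4 : DESCL) (h5 : GENPT) (h6 : OEMB)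
    (h7 : RAP) : StModel := by
  intro V X p T R M h
  obtain ⟨A, k, θ, hA, hAa, hθ, hθ0⟩ := h.emb
  have hP : GPrj 4 X p := @h7 3 V.W _ _ _ V.ch V.mf X p A h.hol hA hAa
  have hM : IsLB 4 (tns M) := lb_iff.2 (Glc.lb_lin (fun i => lb_iff.1 (h.lb i)) _)
  have hF : ∀ x, ∃ (O : Set X.pt) (r : Fin R → ℕ) (τ : ∀ i, Fin (r i + 1) → (M i).ι → V.W → ℂ)
      (s : ℕ) (a : Fin (s + 1) → ∀ i, Fin (r i + 1)), IsOpen O ∧ x ∈ O ∧
      (∀ i, FreeOn 4 (M i) (p ⁻¹' O) (τ i)) ∧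
      FreeOn 4 (tns M) (p ⁻¹' O) fun l I w => ∏ i, τ i (a l i) (I i) w := fun x => by
    choose O r τ a1 a2 a3 using fun i => h.free i x
    have a4 : ∀ i, FreeOn 4 (M i) (p ⁻¹' ⋂ i, O i) (τ i) := fun i =>
      ⟨fun l w hw => (a3 i).sec l w (mem_iInter.1 hw i),
        fun w hw => (a3 i).nz w (mem_iInter.1 hw i)⟩
    obtain ⟨s, a, a5⟩ := free_prod a4
    exact ⟨_, r, τ, s, a, isOpen_iInter_of_finite a1, mem_iInter.2 a2, a4, a5⟩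
  have hF' : Free 4 p (tns M) := fun x => by
    obtain ⟨O, r, τ, s, a, a1, a2, -, a3⟩ := hF x
    exact ⟨O, s, _, a1, a2, a3⟩
  obtain ⟨Y, ψ, g, Λ, u, hS : Stein 4 Y ψ, hg, hgp, hΛ, hu : PIso 4 ψ Λ (tns M) u, hamp,
    hψ : ∀ w w', ψ w' = ψ w ↔ w' ∈ Cls 4 p (tns M) w⟩ :=
    @h1 3 V.W _ _ _ V.ch V.mf X p _ h.hol hP h.imm hM hF'
  have hC : ∀ (O : Set X.pt) (r : ℕ) (τ : Fin (r + 1) → (tns M).ι → V.W → ℂ), IsOpen O →
      FreeOn 4 (tns M) (p ⁻¹' O) τ → ∀ w, p w ∈ O →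
        Cls 4 p (tns M) w = connectedComponentIn (Fib p (tns M) τ w) w :=
    (@h2 3 V.W _ _ _ V.ch V.mf X p _ h.hol hP h.imm hM hF').2
  choose L uL hL huL using fun i => @h4 3 V.W _ _ _ V.ch V.mf Y ψ (M i) hS (h.lb i) fun y => by
    obtain ⟨w₀, rfl⟩ := hS.surj y
    obtain ⟨O, r, τ, s, a, a1, a2, a3, a4⟩ := hF (p w₀)
    obtain ⟨I, hI⟩ := hM.cover w₀
    obtain ⟨l, hl⟩ := a4.nz w₀ a2 I hI
    refine ⟨τ i (a l i), fun w hw => ?_⟩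
    have k1 := (hψ w₀ w).1 hw
    rw [hC O s _ a1 a4 w₀ a2] at k1
    have k2 := connectedComponentIn_subset _ _ k1
    have k3 : w ∈ p ⁻¹' O := by rw [mem_preimage, k2.1]; exact a2
    refine ⟨?_, fun j hj => ?_⟩
    · filter_upwards [(a1.preimage h.hol.cont).mem_nhds k3] with v hv using (a3 i).sec _ v hv
    · obtain ⟨J, hJ⟩ := hM.cover w
      obtain ⟨m, hm⟩ := a4.nz w k3 J hJ
      rw [((a3 i).sec _ w k3 j hj).2 _ (hJ i)]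
      exact mul_ne_zero ((h.lb i).ne_zero _ _ w hj (hJ i))
        (Finset.prod_ne_zero_iff.1 (Fib.ne k2 hI hJ hl hm) i (Finset.mem_univ _))
  have hψh := holMap hS.toHolTo
  have hQ := lbx_inv (Glc.lb_pow hΛ k)
  have hPl : IsLB 4 (A.mul (pull ψ (Bd.inv (Λ.pow k)))) :=
    lb_iff.2 (lbx_mul (lb_iff.1 hA) (Glc.lb_pull hQ hψh))
  have hPa : RelAmple V.X Y ψ (A.mul (pull ψ (Bd.inv (Λ.pow k)))) :=
    amp_twist hψh hg hQ ((funext hgp : (fun y => g (ψ y)) = p) ▸ hAa)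
  obtain ⟨τ, hτ, hτe⟩ := sec_div hS.cont hΛ hA hM hu hθ
  obtain ⟨z1, z2⟩ := zero hS hPl hPa hτ
  have hns : ∀ w ∈ ⋃ l ∈ T, V.G l, ¬ ∀ v, ψ v = ψ w → v = w := fun w hw e => by
    obtain ⟨l, a1, a2⟩ := mem_iUnion₂.1 hw
    obtain ⟨N, hN, hX⟩ := h.contr l a1 w a2
    obtain ⟨O, s, σ, b1, b2, b3⟩ := hF' (p w)
    obtain ⟨k', O', f, c1, c2, c3, c4⟩ := @h5 3 V.W _ _ _ V.ch V.mf X p _ N h.hol hP hM hN O s σ
      b1 b3 w b2 (Or.inl (by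
        rw [← hC O s σ b1 b3 w b2]
        exact Set.ext fun v => ⟨fun a => e v ((hψ w v).2 a), fun a => (hψ w v).1 (congrArg ψ a)⟩))
    exact hX k' O' f c1 c2 c3 c4
  have hz : ∀ w I, w ∈ (A.mul (pull ψ (Bd.inv (Λ.pow k)))).U I →
      (τ I w = 0 ↔ w ∈ ⋃ l ∈ T, V.G l) := fun w I hI => by
    refine ⟨fun e => by_contra fun e' => ?_, fun e => by_contra fun e' => hns w e (z1 w I hI e')⟩
    obtain ⟨J, hJ⟩ := hM.cover w
    exact div_ne_zero (hθ0 w e' I.1 J hI.1 hJ) (pow_ne_zero k (hu.hol I.2 J w hI.2 hJ).2)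
      ((hτe w I.1 I.2 J hI.1 hI.2 hJ).symm.trans e)
  have hs : ∀ w ∉ ⋃ l ∈ T, V.G l, ∀ v, ψ v = ψ w → v = w := fun w hw => by
    obtain ⟨I, hI⟩ := hPl.cover w
    exact z1 w I hI fun e => hw ((hz w I hI).1 e)
  obtain ⟨n1, Ω, γ, n2, n3, n4⟩ := @h3 2 V.W _ _ _ V.ch V.mf h.ne Y ψ hS (V.dense.mono
    fun w (hw : w ∉ V.E) => Stb.imm (n := 4) hS (hs w fun e => hw ((mem_iUnion₂.1 e).elim
      fun l ⟨_, a⟩ => mem_iUnion.2 ⟨l, a⟩)))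
  obtain ⟨c, c1, c2⟩ := div_of_zero (L := Bd.inv _) (lb_iff.2 (lbx_inv (lb_iff.1 hPl))) hτ hz
  refine ⟨Y, g, ψ, Λ, L, n1, hg, hgp, hS, hΛ, hamp, ⟨u, hu⟩, hL, fun i => ⟨_, huL i⟩,
    ⟨hS.cont, hS.hol, hS.surj, (h6 V.W Y ψ hS).mono (T.finite_toSet.isClosed_biUnion
      fun l _ => V.closed l).isOpen_compl hs, fun y y' a => hs y a y', ?_,
      ⟨Ω, γ, n2, n3, Subset.trans ?_ n4⟩, _, c, τ, hPl, hPa, c1, c2⟩, hψ⟩
  · have e : {w | ∃ I, w ∈ (A.mul (pull ψ (Bd.inv (Λ.pow k)))).U I ∧ τ I w = 0} =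
        ⋃ l ∈ T, V.G l := Set.ext fun w => ⟨fun ⟨I, a, b⟩ => (hz w I a).1 b,
      fun b => (hPl.cover w).imp fun I a => ⟨a, (hz w I a).2 b⟩⟩
    exact e ▸ z2
  · rintro _ ⟨w, hw, rfl⟩ e
    exact hns w hw fun v hv => e hv rfl

end Vale.Agent.P277Z.Pj
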