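import Vale.Agent.P277Z.Pj.Sk

/-!
# P277, block PROJ: the ample model of a free line bundle
-/

open scoped Manifold ContDiff Topology
open Vale.Agent.P272.K Vale.Agent.P285.H281.FD Set Filter Metric
open Vale.Agent.P277 Vale.Agent.P277.H762 Vale.Agent.P277.PH
open Vale.Agent.P277.HD (pull)
open Vale.Agent.P277Z.Coh (ScAt LBOn prpBase holSys)

noncomputable section

namespace Vale.Agent.P277Z.Pj

section

variable {n : ℕ} {W : Type} [TopologicalSpace W] [ChartedSpace (Cm n) W]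

theorem isLB_self {M : Bd W} (hM : IsLB n M) {j : M.ι} {w : W} (h : w ∈ M.U j) :
    M.g j j w = 1 :=
  mul_left_cancel₀ (hM.ne_zero j j w h h) ((hM.cocycle j j j w h h h).trans (mul_one _).symm)

theorem isLBx_self {Y : CSp} {L : Bd Y.pt} (hL : IsLBx Y L) {i : L.ι} {y : Y.pt}
    (h : y ∈ L.U i) : L.g i i y = 1 :=
  mul_left_cancel₀ (hL.ne_zero i i y h h) ((hL.cocycle i i i y h h h).trans (mul_one _).symm)

omit [TopologicalSpace W] in
/-- a section which does not vanish at `w` does not vanish on the fibre through `w` -/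
theorem Fib.ne {X κ : Type} {p : W → X} {M : Bd W} {τ : κ → M.ι → W → ℂ} {w w' : W}
    (h : w' ∈ Fib p M τ w) {l m : κ} {i j : M.ι} (hi : w ∈ M.U i) (hj : w' ∈ M.U j)
    (h1 : τ l i w ≠ 0) (h2 : τ m j w' ≠ 0) : τ l j w' ≠ 0 := fun h3 =>
  mul_ne_zero h1 h2 (by rw [h.2 l m i j hi hj, h3, mul_zero])

/-- sections of `M` as sections of `φ^* L` -/
theorem PIso.sec {Y : CSp} {φ : W → Y.pt} {L : Bd Y.pt} {M : Bd W} {u : L.ι → M.ι → W → ℂ}
    (h : PIso n φ L M u) (hφ : Continuous φ) (hL : IsLBx Y L) (hM : IsLB n M) {O : Set W}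
    (hO : IsOpen O) {s : M.ι → W → ℂ} (hs : ∀ w ∈ O, ScAt (HolF n) M s w) :
    ∃ σ : L.ι → W → ℂ, (∀ w ∈ O, ScAt (HolF n) (pull φ L) σ w) ∧
      ∀ w ∈ O, ∀ i j, φ w ∈ L.U i → w ∈ M.U j → s j w = u i j w * σ i w := by
  choose c hc using hM.cover
  have key : ∀ w ∈ O, ∀ i j, φ w ∈ L.U i → w ∈ M.U j →
      s j w = u i j w * (s (c w) w / u i (c w) w) := fun w hw i j hi hj => by
    have h1 := h.chg i i j (c w) w hi hi hj (hc w)
    rw [isLBx_self hL hi, mul_one] at h1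
    rw [h1, (hs w hw j hj).2 _ (hc w), mul_assoc, mul_div_cancel₀ _ (h.hol i _ w hi (hc w)).2]
  refine ⟨fun i w => s (c w) w / u i (c w) w, fun w hw i hi => ⟨?_, fun i' hi' => ?_⟩, key⟩
  · have h1 := h.hol i (c w) w hi (hc w)
    refine (((holSys n).inv h1.1 h1.2).mul (hs w hw _ (hc w)).1).congr ?_
    filter_upwards [hO.mem_nhds hw, ((hL.isOpen i).preimage hφ).mem_nhds hi,
      (hM.isOpen _).mem_nhds (hc w)] with v h2 h3 h4
    rw [key v h2 i _ h3 h4, inv_mul_cancel_left₀ (h.hol i _ v h3 h4).2]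
  · have h1 := h.chg i i' (c w) (c w) w hi hi' (hc w) (hc w)
    rw [isLB_self hM (hc w), one_mul] at h1
    have h2 := (h.hol i _ w hi (hc w)).2
    have h3 := hL.ne_zero i i' _ hi hi'
    change s (c w) w / u i (c w) w = L.g i i' (φ w) * (s (c w) w / u i' (c w) w)
    rw [← h1]
    field_simp

end

theorem proj_of (h1 : LOCQ) (h2 : GLUEQ) (h3 : STB) (h4 : DESCL) (h5 : EMB) : PROJ := by
  intro n W _ _ _ _ _ X p M hp hP hI hM hF
  obtain ⟨hQ, hC⟩ := h1 n W X p M hp hP hI hM hF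
  obtain ⟨Y, φ, hS, hφ⟩ := h2 n W _ hQ
  obtain ⟨-, -, s3, -, -, -, s7⟩ := h3 n W Y φ hS
  obtain ⟨q, hq, hqp⟩ := s3 X p hp fun w w' h => (connectedComponentIn_subset _ _ ((hφ w w').1 h)).1
  obtain ⟨L, u, hL, hu⟩ := h4 n W Y φ M hS hM fun y => by
    obtain ⟨w₀, rfl⟩ := hS.surj y
    obtain ⟨V, r, τ, hV, hx, hτ⟩ := hF (p w₀)
    obtain ⟨i, hi⟩ := hM.cover w₀
    obtain ⟨l, hl⟩ := hτ.nz w₀ hx i hi
    refine ⟨τ l, fun w hw => ?_⟩
    have k1 := (hφ w₀ w).1 hw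
    rw [hC V r τ hV hτ w₀ hx] at k1
    have k2 := connectedComponentIn_subset _ _ k1
    have k3 : w ∈ p ⁻¹' V := by rw [mem_preimage, k2.1]; exact hx
    refine ⟨?_, fun j hj => ?_⟩
    · filter_upwards [(hV.preimage hp.cont).mem_nhds k3] with v hv using hτ.sec l v hv
    · obtain ⟨m, hm⟩ := hτ.nz w k3 j hj
      exact Fib.ne k2 hi hj hl hm
  have hpq : (fun w => q (φ w)) = p := funext hqp
  refine ⟨Y, φ, q, L, u, hS, hq, hqp, hL, hu, fun x => ?_, hφ⟩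
  obtain ⟨V, r, τ, hV, hx, hτ⟩ := hF x
  have hqc : Continuous q := continuous_iff_continuousAt.2 fun y => (hq y).1
  choose σ hσ hσ' using fun l => hu.sec hS.cont hL hM (hV.preimage hp.cont) (hτ.sec l)
  have hm : ∀ w, q (φ w) ∈ V → w ∈ p ⁻¹' V := fun w h => by rwa [hqp] at h
  choose τ' hτ' he using fun l => s7 L (q ⁻¹' V) (σ l) hL (hV.preimage hqc)
    fun w hw => hσ l w (hm w hw)
  have key : ∀ l w i j, q (φ w) ∈ V → φ w ∈ L.U i → w ∈ M.U j →
      τ l j w = u i j w * τ' l i (φ w) := fun l w i j a b c => by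
    rw [hσ' l w (hm w a) i j b c, he l i w a b]
  refine h5 n W X Y φ q L hS hq (hpq ▸ hP) hL V r τ' hV hτ' (fun y i a b => ?_)
    (fun w a w' b => ?_) x hx
  · obtain ⟨w, rfl⟩ := hS.surj y
    obtain ⟨j, hj⟩ := hM.cover w
    obtain ⟨l, hl⟩ := hτ.nz w (hm w a) j hj
    exact ⟨l, right_ne_zero_of_mul (key l w i j a b hj ▸ hl)⟩
  · rw [hφ, hC V r τ hV hτ w (hm w a)]
    refine connectedComponentIn_mono _ (fun v hv => ?_) b
    have c1 : q (φ v) = q (φ w) := hv.1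
    have c2 : q (φ v) ∈ V := c1 ▸ a
    refine ⟨by rw [← hqp, ← hqp, c1], fun l m j j' hj hj' => ?_⟩
    obtain ⟨i, hi⟩ := hL.cover (φ w)
    obtain ⟨i', hi'⟩ := hL.cover (φ v)
    rw [key l w i j a hi hj, key m w i j a hi hj, key l v i' j' c2 hi' hj',
      key m v i' j' c2 hi' hj']
    linear_combination u i j w * u i' j' v * hv.2 l m i i' hi hi'

end Vale.Agent.P277Z.Pj
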