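import Vale.Agent.P277Z.Pj.Sk

/-!
# P277, block PROJ: maps with connected fibres, descent of line bundles
-/

open scoped Manifold ContDiff Topology
open Vale.Agent.P272.K Vale.Agent.P285.H281.FD Set Filter Function
open Vale.Agent.P277 Vale.Agent.P277.PH
open Vale.Agent.P277.HD (pull)
open Vale.Agent.P277Z.Coh (ScAt holSys)

set_option linter.unusedSectionVars false

noncomputable section

namespace Vale.Agent.P277Z.Pj

namespace Stb

/-- an analytic immersion has an analytic left inverse -/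
theorem left_inv {d N : ℕ} {R : Cm d → Cm N} {a : Cm d} (hR : AnalyticAt ℂ R a)
    (hi : Injective (fderiv ℂ R a)) :
    ∃ G : Cm N → Cm d, AnalyticAt ℂ G (R a) ∧ ∀ᶠ z in 𝓝 a, G (R z) = z := by
  obtain ⟨A, hA⟩ := (fderiv ℂ R a : Cm d →ₗ[ℂ] Cm N).exists_leftInverse_of_injective
    (LinearMap.ker_eq_bot.2 hi)
  let B : Cm N →L[ℂ] Cm d := LinearMap.toContinuousLinearMap A
  have h1 : ContDiffAt ℂ ω (B ∘ R) a := ((B.analyticAt _).comp hR).contDiffAt
  have h2 : HasFDerivAt (B ∘ R) (ContinuousLinearEquiv.refl ℂ (Cm d) : Cm d →L[ℂ] Cm d) a :=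
    (B.hasFDerivAt.comp a hR.differentiableAt.hasFDerivAt).congr_fderiv
      (ContinuousLinearMap.ext fun v => LinearMap.congr_fun hA v)
  exact ⟨h1.localInverse h2 (by simp) ∘ B,
    AnalyticAt.comp (h1.to_localInverse h2 (by simp)).analyticAt (B.analyticAt _),
    (h1.hasStrictFDerivAt' h2 (by simp)).eventually_left_inverse⟩

variable {n : ℕ} {W : Type} [TopologicalSpace W] [T2Space W] [CompactSpace W]
  [ChartedSpace (Cm n) W] {Y : CSp} {φ : W → Y.pt}

theorem tube (hc : Continuous φ) {y : Y.pt} {P : W → Prop}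
    (h : ∀ w, φ w = y → ∀ᶠ v in 𝓝 w, P v) : ∀ᶠ y' in 𝓝 y, ∀ w, φ w = y' → P w :=
  hc.isClosedMap.eventually_nhds_fiber y h

/-- functions which are holomorphic along a fibre descend -/
theorem desc (h : Stein n Y φ) {y : Y.pt} {g : W → ℂ} (hg : ∀ w, φ w = y → HolF n g w) :
    Y.Hol (fun y' => g (surjInv h.surj y')) y ∧
      ∀ᶠ y' in 𝓝 y, ∀ w, φ w = y' → g w = g (surjInv h.surj y') := by
  obtain ⟨f, f1, f2⟩ := h.desc y g hg
  have h1 := tube h.cont f2
  refine ⟨hol_congr f1 (h1.mono fun y' e => ?_), h1.mono fun y' e w hw => ?_⟩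
  · exact (e _ (surjInv_eq _ y')).trans (congrArg f (surjInv_eq _ y'))
  · rw [e w hw, e _ (surjInv_eq _ y'), surjInv_eq h.surj, hw]

theorem hol (h : Stein n Y φ) (y : Y.pt) (f : Y.pt → ℂ)
    (hf : ∀ w, φ w = y → HolF n (fun w => f (φ w)) w) : Y.Hol f y := by
  simpa only [surjInv_eq h.surj] using (desc h hf).1

theorem conn (h : Stein n Y φ) (y : Y.pt) : IsConnected (φ ⁻¹' {y}) := by
  refine ⟨h.surj y, (isPreconnected_iff_subset_of_fully_disjoint_closed
    (isClosed_singleton.preimage h.cont)).2 fun u v hu hv hs hd => ?_⟩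
  obtain ⟨U, V, u1, v1, u2, v2, hUV⟩ := normal_separation hu hv hd
  have h1 := (desc h (y := y) (g := U.indicator 1) fun w hw => by
    rcases hs hw with e | e
    · exact (HolF.const 1).congr ((u1.eventually_mem (u2 e)).mono fun x hx => by simp [hx])
    · exact (HolF.const 0).congr ((v1.eventually_mem (v2 e)).mono fun x hx => by
        simp [disjoint_right.1 hUV hx])).2.self_of_nhds
  refine or_iff_not_imp_left.2 fun h2 w hw => (hs hw).resolve_left fun e => h2 fun w' hw' => ?_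
  refine (hs hw').resolve_right fun e' => ?_
  have h3 := (h1 w hw).trans (h1 w' hw').symm
  simp [u2 e, disjoint_right.1 hUV (v2 e')] at h3

theorem fact (h : Stein n Y φ) (Z : CSp) (ψ : W → Z.pt) (hψ : HolTo n Z ψ)
    (he : ∀ w w', φ w' = φ w → ψ w' = ψ w) :
    ∃ q : Y.pt → Z.pt, (∀ y, HolMap Y Z q y) ∧ ∀ w, q (φ w) = ψ w := by
  have h1 : ∀ w, ψ (surjInv h.surj (φ w)) = ψ w := fun w => he _ _ (surjInv_eq _ _)
  have h2 : Continuous fun y => ψ (surjInv h.surj y) :=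
    (h.cont.isClosedMap.isQuotientMap h.cont h.surj).continuous_iff.2
      (hψ.cont.congr fun w => (h1 w).symm)
  refine ⟨_, fun y => ⟨h2.continuousAt, fun g hg => hol h y _ fun w hw => ?_⟩, h1⟩
  subst hw
  simp only [comp_apply, h1] at hg ⊢
  exact hψ.hol w g hg

theorem map_nhds (h : Stein n Y φ) {w : W} (hw : ∀ w', φ w' = φ w → w' = w) :
    map φ (𝓝 w) = 𝓝 (φ w) := by
  refine le_antisymm h.cont.continuousAt fun S hS => ?_
  filter_upwards [tube h.cont (y := φ w) (P := fun v => φ v ∈ S) fun v hv => hw v hv ▸ hS] with y hy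
  obtain ⟨v, rfl⟩ := h.surj y
  exact hy v rfl

theorem single (h : Stein n Y φ) {w : W} (hw : ImmTo n Y φ w) (w' : W) (e' : φ w' = φ w) :
    w' = w := by
  obtain ⟨k, g, g1, g2⟩ := hw
  have he := at_chartAt (n := n) w
  set e := chartAt (Cm n) w
  obtain ⟨G, -, hG⟩ := left_inv (R := fun z => g (φ (e.symm z)))
    (analyticAt_pi_iff.2 fun a => h.hol w _ (g1 a) e he) (g2 e he)
  have h1 : ∀ᶠ v in 𝓝 w, φ v = φ w → v = w := by
    filter_upwards [(e.continuousAt he.2).eventually hG, e.open_source.mem_nhds he.2]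
      with v h1 h2 h3
    have h4 := hG.self_of_nhds
    rw [e.left_inv he.2] at h4
    rw [e.left_inv h2, h3, h4] at h1
    exact e.injOn h2 he.2 h1.symm
  obtain ⟨N, h2, h3, h4⟩ := eventually_nhds_iff.1 h1
  by_contra h5
  obtain ⟨v, h6, h7, h8⟩ := (conn h (φ w)).2 N {w}ᶜ h3 isOpen_compl_singleton
    (fun v _ => (eq_or_ne v w).imp (fun e : v = w => (e ▸ h4 : v ∈ N)) id) ⟨w, rfl, h4⟩ ⟨w', e', h5⟩
  exact h8 (h2 v h7 h6)

theorem sec (h : Stein n Y φ) (L : Bd Y.pt) (V : Set Y.pt) (s : L.ι → W → ℂ)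
    (hs : ∀ w, φ w ∈ V → ScAt (HolF n) (pull φ L) s w) :
    ∃ s', IsSecx Y V L s' ∧ ∀ i w, φ w ∈ V → φ w ∈ L.U i → s i w = s' i (φ w) := by
  have h1 := fun i y (hy : y ∈ V) (hi : y ∈ L.U i) => desc h (y := y) (g := s i) fun w hw =>
    (hs w (hw ▸ hy) i (show φ w ∈ L.U i from hw ▸ hi)).1
  refine ⟨fun i y => s i (surjInv h.surj y), ⟨fun i y hy hi => (h1 i y hy hi).1,
    fun i j y hy hi hj => ?_⟩, fun i w hw hi => (h1 i _ hw hi).2.self_of_nhds w rfl⟩
  have e := surjInv_eq h.surj y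
  have h2 := (hs (surjInv h.surj y) (e.symm ▸ hy) i (show φ _ ∈ L.U i from e.symm ▸ hi)).2 j
    (show φ _ ∈ L.U j from e.symm ▸ hj)
  rwa [show (pull φ L).g i j (surjInv h.surj y) = L.g i j y from congrArg _ e] at h2

variable [IsManifold 𝓘(ℂ, Cm n) ω W]

/-- the coordinates descend -/
theorem coord (h : Stein n Y φ) {w : W} (hw : ∀ w', φ w' = φ w → w' = w) :
    ∃ f : Y.pt → Cm n, ∀ᶠ y in 𝓝 (φ w), (∀ i, Y.Hol (fun x => f x i) y) ∧
      ∀ v, φ v = y → v ∈ (chartAt (Cm n) w).source ∧ chartAt (Cm n) w v = f y := by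
  have he := at_chartAt (n := n) w
  have h1 := fun i => desc h (y := φ w) (g := fun v => chartAt (Cm n) w v i) fun v hv e' he' =>
    analyticAt_pi_iff.1 (chg_analyticAt (hw v hv ▸ he) he') i
  refine ⟨fun y => chartAt (Cm n) w (surjInv h.surj y), ?_⟩
  filter_upwards [eventually_all.2 fun i => hol_eventually (h1 i).1,
    eventually_all.2 fun i => (h1 i).2, tube h.cont (y := φ w)
      (P := fun v => v ∈ (chartAt (Cm n) w).source) fun v hv =>
        hw v hv ▸ (chartAt (Cm n) w).open_source.mem_nhds he.2] with y h2 h3 h4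
  exact ⟨h2, fun v hv => ⟨h4 v hv, funext fun i => h3 i v hv⟩⟩

theorem isOpen_single (h : Stein n Y φ) : IsOpen {w | ∀ w', φ w' = φ w → w' = w} := by
  refine isOpen_iff_mem_nhds.2 fun w hw => ?_
  obtain ⟨f, hf⟩ := coord h hw
  filter_upwards [h.cont.continuousAt.eventually hf] with v hv v' e
  exact (chartAt (Cm n) w).injOn (hv.2 v' e).1 (hv.2 v rfl).1
    ((hv.2 v' e).2.trans (hv.2 v rfl).2.symm)

theorem imm (h : Stein n Y φ) {w : W} (hw : ∀ w', φ w' = φ w → w' = w) : ImmTo n Y φ w := by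
  obtain ⟨f, hf⟩ := coord h hw
  have he := at_chartAt (n := n) w
  set e := chartAt (Cm n) w
  refine ⟨n, f, hf.self_of_nhds.1, fun e' he' => ?_⟩
  have h1 : (fun z => f (φ (e'.symm z))) =ᶠ[𝓝 (e' w)] fun z => e (e'.symm z) :=
    ev_symm he'.2 ((h.cont.continuousAt.eventually hf).mono fun v hv => (hv.2 v rfl).2.symm)
  have h2 := (chg_analyticAt he he').differentiableAt
  have h3 := (chg_analyticAt he' he).differentiableAt
  rw [← e'.left_inv he'.2] at h3
  have h4 : (fun z => e' (e.symm z)) ∘ (fun z => e (e'.symm z)) =ᶠ[𝓝 (e' w)] id := by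
    filter_upwards [ev_symm he'.2 (e.open_source.mem_nhds he.2),
      e'.open_target.mem_nhds (e'.map_source he'.2)] with z h5 h6
    rw [comp_apply, e.left_inv h5, e'.right_inv h6, id]
  have h5 := h4.fderiv_eq (𝕜 := ℂ)
  rw [fderiv_comp (f := fun z => e (e'.symm z)) (e' w) h3 h2, fderiv_id] at h5
  rw [h1.fderiv_eq]
  exact LeftInverse.injective fun v => congrArg (fun A : Cm n →L[ℂ] Cm n => A v) h5

theorem isReg (h : Stein n Y φ) {w : W} (hw : ∀ w', φ w' = φ w → w' = w) : IsReg n Y (φ w) := by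
  obtain ⟨f, hf⟩ := coord h hw
  have ha := chart_mem_atlas (Cm n) w
  set e := chartAt (Cm n) w
  obtain ⟨V, h1, h2, h3⟩ := eventually_nhds_iff.1 hf
  have h4 : ∀ v, φ v ∈ V → v ∈ e.source ∧ e v = f (φ v) := fun v hv => (h1 _ hv).2 v rfl
  refine ⟨V, e '' (φ ⁻¹' V), Fin.elim0, f, h3, h2, e.isOpen_image_of_subset_source
    (h2.preimage h.cont) fun v hv => (h4 v hv).1, fun i => i.elim0, ?_, ?_, fun x hx g => ?_⟩
  · ext z
    constructor
    · rintro ⟨y, hy, rfl⟩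
      obtain ⟨v, rfl⟩ := h.surj y
      exact ⟨⟨v, hy, (h4 v hy).2⟩, fun i => i.elim0⟩
    · rintro ⟨⟨v, hv, rfl⟩, -⟩
      exact ⟨φ v, hv, (h4 v hv).2.symm⟩
  · refine (Topology.IsOpenEmbedding.of_continuous_injective_isOpenMap
      (continuousOn_iff_continuous_domRestrict.1 fun y hy => (continuousAt_pi.2 fun i =>
        hol_continuousAt ((h1 y hy).1 i)).continuousWithinAt) ?_
      (isOpenMap_iff_nhds_le.2 ?_)).isEmbedding
    · rintro ⟨y, hy⟩ ⟨y', hy'⟩ e'
      obtain ⟨v, rfl⟩ := h.surj y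
      obtain ⟨v', rfl⟩ := h.surj y'
      exact Subtype.ext (congrArg φ (e.injOn (h4 v hy).1 (h4 v' hy').1
        ((h4 v hy).2.trans (Eq.trans e' (h4 v' hy').2.symm))))
    · rintro ⟨y, hy⟩
      obtain ⟨v, rfl⟩ := h.surj y
      rw [domRestrict_eq, ← map_map, h2.isOpenEmbedding_subtypeVal.map_nhds_eq, comp_apply,
        ← (h4 v hy).2, ← e.map_nhds_eq (h4 v hy).1, map_congr
          (((h2.preimage h.cont).eventually_mem hy).mono fun v' hv' => (h4 v' hv').2)]
      exact map_mono (m := f) h.cont.continuousAt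
  · obtain ⟨v, rfl⟩ := h.surj x
    refine ⟨fun hg => ⟨fun z => g (φ (e.symm z)), (h4 v hx).2 ▸ h.hol v g hg e ⟨ha, (h4 v hx).1⟩,
      (h2.eventually_mem hx).mono fun y hy => ?_⟩,
      fun ⟨G, g1, g2⟩ => hol_congr (hol_comp (h1 _ hx).1 g1) g2⟩
    obtain ⟨v', rfl⟩ := h.surj y
    rw [comp_apply, ← (h4 v' hy).2, e.left_inv (h4 v' hy).1]

/-- `s` is a frame of `M` near `w` -/
def Fr (n : ℕ) [ChartedSpace (Cm n) W] (M : Bd W) (s : M.ι → W → ℂ) (w : W) : Prop :=
  (∀ᶠ v in 𝓝 w, ScAt (HolF n) M s v) ∧ NZ M s w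

variable {M : Bd W} {s s' : M.ι → W → ℂ} {w : W}

theorem Fr.ev (hM : IsLB n M) (h : Fr n M s w) : ∀ᶠ v in 𝓝 w, Fr n M s v := by
  obtain ⟨j, hj⟩ := hM.cover w
  filter_upwards [h.1.eventually_nhds, (hM.isOpen j).mem_nhds hj,
    (holF_cont (h.1.self_of_nhds j hj).1).eventually_ne (h.2 j hj)] with v h1 h2 h3
  refine ⟨h1, fun i hi => ?_⟩
  rw [(h1.self_of_nhds i hi).2 j h2]
  exact mul_ne_zero (hM.ne_zero i j v hi h2) h3

/-- the ratio of two frames -/
def rat (hM : IsLB n M) (s s' : M.ι → W → ℂ) (w : W) : ℂ :=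
  s' (hM.cover w).choose w / s (hM.cover w).choose w

theorem rat_eq (hM : IsLB n M) (h : Fr n M s w) (h' : Fr n M s' w) {j : M.ι} (hj : w ∈ M.U j) :
    rat hM s s' w = s' j w / s j w := by
  have hi := (hM.cover w).choose_spec
  rw [rat, (h.1.self_of_nhds _ hi).2 j hj, (h'.1.self_of_nhds _ hi).2 j hj,
    mul_div_mul_left _ _ (hM.ne_zero _ j w hi hj)]

theorem rat_hol (hM : IsLB n M) (h : Fr n M s w) (h' : Fr n M s' w) :
    HolF n (rat hM s s') w := by
  obtain ⟨j, hj⟩ := hM.cover w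
  refine ((h'.1.self_of_nhds j hj).1.mul
    ((holSys n).inv (h.1.self_of_nhds j hj).1 (h.2 j hj))).congr ?_
  filter_upwards [h.ev hM, h'.ev hM, (hM.isOpen j).mem_nhds hj] with v h1 h2 h3
  rw [rat_eq hM h1 h2 h3, div_eq_mul_inv]

end Stb

open Stb

theorem stb : STB := fun _ _ _ _ _ _ _ _ _ h =>
  ⟨Stb.hol h, Stb.conn h, fact h, isOpen_single h, fun _ => ⟨imm h, single h⟩,
    fun _ hw => ⟨isReg h hw, map_nhds h hw⟩, fun L V s _ _ => sec h L V s⟩

theorem descl : DESCL := by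
  intro n W _ _ _ _ _ Y φ M h hM hs
  choose s hs using hs
  have e := surjInv_eq h.surj
  have h1 := fun y y' x (hy : ∀ w, φ w = x → Fr (n + 1) M (s y) w)
    (hy' : ∀ w, φ w = x → Fr (n + 1) M (s y') w) => desc h (y := x) (g := rat hM (s y) (s y'))
      fun w hw => rat_hol hM (hy w hw) (hy' w hw)
  refine ⟨⟨Y.pt, fun y => {x | ∀ w, φ w = x → Fr (n + 1) M (s y) w},
    fun y y' x => rat hM (s y) (s y') (surjInv h.surj x)⟩, s,
    ⟨fun y => isOpen_iff_mem_nhds.2 fun x hx => tube h.cont fun w hw => (hx w hw).ev hM,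
      fun x => ⟨x, hs x⟩, fun y y' x hy hy' => (h1 y y' x hy hy').1, fun y y' x hy hy' => ?_,
      fun y y' y'' x hy hy' _ => ?_⟩,
    fun y j w hy hj => ⟨((hy w rfl).1.self_of_nhds j hj).1, (hy w rfl).2 j hj⟩,
    fun y y' j j' w hy hy' hj hj' => ?_⟩
  · have hi := (hM.cover (surjInv h.surj x)).choose_spec
    exact div_ne_zero ((hy' _ (e x)).2 _ hi) ((hy _ (e x)).2 _ hi)
  · have hi := (hM.cover (surjInv h.surj x)).choose_spec
    exact (mul_comm _ _).trans (div_mul_div_cancel₀ ((hy' _ (e x)).2 _ hi))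
  · change s y j w * rat hM (s y) (s y') (surjInv h.surj (φ w)) = _
    rw [← (h1 y y' _ hy hy').2.self_of_nhds w rfl, rat_eq hM (hy w rfl) (hy' w rfl) hj,
      mul_div_cancel₀ _ ((hy w rfl).2 j hj), ((hy' w rfl).1.self_of_nhds j hj).2 j' hj']

end Vale.Agent.P277Z.Pj
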