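import Vale.Agent.P277Z.Pj.MSk
import Vale.Agent.P277Z.Pj.Stb
import Vale.Agent.P277Z.Pj.Proj

/-!
# P277, block PROJ: descent of comparisons, isomorphisms, classes of trivial bundles
-/

open scoped Manifold ContDiff Topology
open Vale.Agent.P272.K Vale.Agent.P285.H281.FD Set Filter
open Vale.Agent.P277 Vale.Agent.P277.PH
open Vale.Agent.P277.T2 (IsCmpV)
open Vale.Agent.P277Z.Coh (ScAt HomAt holSys)
open Vale.Agent.P277Z.Val (Lg Res)

noncomputable section

namespace Vale.Agent.P277Z.Pj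

theorem lin_lbx {Y : CSp} {R : ℕ} {L : Fin R → Bd Y.pt} (h : ∀ e, IsLBx Y (L e))
    (z : Fin R → ℤ) : IsLBx Y (HD.Bd.lin L z) where
  isOpen i := by
    have : (HD.Bd.lin L z).U i = ⋂ e, (L e).U (i e) := by
      ext x; simp [HD.Bd.lin]
    rw [this]
    exact isOpen_iInter_of_finite fun e => (h e).isOpen _
  cover x := by
    choose i hi using fun e => (h e).cover x
    exact ⟨i, hi⟩
  holo i j x hi hj := hol_prod Finset.univ fun e _ => hol_comp₁ (G := fun c => c ^ z e)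
    ((h e).holo _ _ x (hi e) (hj e))
    (analyticAt_id.zpow ((h e).ne_zero _ _ x (hi e) (hj e)))
  ne_zero i j x hi hj := by
    change (∏ e, (L e).g (i e) (j e) x ^ z e) ≠ 0
    exact Finset.prod_ne_zero_iff.2 fun e _ => zpow_ne_zero _ ((h e).ne_zero _ _ x (hi e) (hj e))
  cocycle i j l x hi hj hl := by
    change (∏ e, _ ^ z e) * ∏ e, _ ^ z e = ∏ e, _ ^ z e
    rw [← Finset.prod_mul_distrib]
    exact Finset.prod_congr rfl fun e _ => by
      rw [← mul_zpow, (h e).cocycle _ _ _ x (hi e) (hj e) (hl e)]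

/-- `StQC` for a line bundle `N`. -/
theorem qc (V : Lg) (Y : CSp) (ψ : V.W → Y.pt) (R : ℕ) (M : Fin R → Bd V.W) (L : Fin R → Bd Y.pt)
    (z : Fin R → ℤ) (N : Bd V.W) (ν : Fin V.r → ℤ) (hψ : Continuous ψ) (hM : ∀ i, IsLB 4 (M i))
    (hL : ∀ i, IsLBx Y (L i)) (hu : ∀ i, ∃ u, PIso 4 ψ (L i) (M i) u) (hN : IsLB 4 N)
    (ht : ∃ t, IsCmpV (Y := V.W) (X := V.X) (fun w => w) (fun _ : Fin 1 => HD.Bd.lin M z)
      (fun _ => N) V.G (fun _ => ν) t) :
    IsLBx Y (HD.Bd.lin L z) ∧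
      ∃ t, IsCmpV ψ (fun _ : Fin 1 => HD.Bd.lin L z) (fun _ => N) V.G (fun _ => ν) t := by
  obtain ⟨t, ht⟩ := ht
  choose u hu using hu
  choose c hc using fun e => (hM e).cover
  have key : ∀ w (a : ∀ e, (L e).ι) j (i : ∀ e, (M e).ι), w ∉ ⋃ l, V.G l →
      (∀ e, ψ w ∈ (L e).U (a e)) → w ∈ N.U j → (∀ e, w ∈ (M e).U (i e)) →
      t 0 (fun e => c e w) j w * ∏ e, u e (a e) (c e w) w ^ z e =
        t 0 i j w * ∏ e, u e (a e) (i e) w ^ z e := fun w a j i h1 h2 h3 h4 => by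
    have h5 := ht.change w 0 (fun e => c e w) i j j h1 (fun e => hc e w) h4 h3 h3
    have h6 : ∏ e, u e (a e) (c e w) w ^ z e =
        (HD.Bd.lin M z).g (fun e => c e w) i w * ∏ e, u e (a e) (i e) w ^ z e := by
      change _ = (∏ e, _ ^ z e) * _
      rw [← Finset.prod_mul_distrib]
      refine Finset.prod_congr rfl fun e _ => ?_
      have := (hu e).chg (a e) (a e) (c e w) (i e) w (h2 e) (h2 e) (hc e w) (h4 e)
      rw [isLBx_self (hL e) (h2 e), mul_one] at this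
      rw [this, mul_zpow]
    rw [h5, h6]
    change _ = (HD.Bd.lin M z).g _ _ w * _ * N.g j j w * _
    rw [isLB_self hN h3]
    ring
  refine ⟨lin_lbx hL z, fun _ a j y => t 0 (fun e => c e y) j y * ∏ e, u e (a e) (c e y) y ^ z e,
    ?_, ?_⟩
  · intro y
    obtain ⟨ζ, h1, h2⟩ := ht.div y
    refine ⟨ζ, h1, fun _ a j ha hj => ?_⟩
    obtain ⟨v, v1, v2, v3⟩ := h2 0 (fun e => c e y) j (fun e => hc e y) hj
    have h3 := fun e => (hu e).hol (a e) (c e y) y (ha e) (hc e y)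
    refine ⟨fun w => v w * ∏ e, u e (a e) (c e y) w ^ z e,
      mul_ne_zero v1 (Finset.prod_ne_zero_iff.2 fun e _ => zpow_ne_zero _ (h3 e).2),
      fun ch hch => (v2 ch hch).mul (Finset.analyticAt_fun_prod _ fun e _ =>
        ((h3 e).1 ch hch).fun_zpow (by rw [ch.left_inv hch.2]; exact (h3 e).2)), ?_⟩
    filter_upwards [v3, eventually_all.2 fun e => ((hM e).isOpen _).mem_nhds (hc e y),
      eventually_all.2 fun e => (((hL e).isOpen _).preimage hψ).mem_nhds (ha e),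
      (hN.isOpen j).mem_nhds hj]
      with w h4 h5 h6 h7 h8
    rw [key w a j _ h8 h6 h7 h5, h4 h8]
    ring
  · intro y _ a a₁ j j₁ h1 h2 h3 h4 h5
    have h6 := ht.change y 0 (fun e => c e y) (fun e => c e y) j j₁ h1 (fun e => hc e y)
      (fun e => hc e y) h4 h5
    have h7 : (HD.Bd.lin M z).g (fun e => c e y) (fun e => c e y) y = 1 := by
      change ∏ e, (M e).g (c e y) (c e y) y ^ z e = 1
      exact Finset.prod_eq_one fun e _ => by rw [isLB_self (hM e) (hc e y), one_zpow]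
    have h8 : ∏ e, u e (a₁ e) (c e y) y ^ z e =
        (HD.Bd.lin L z).g a a₁ (ψ y) * ∏ e, u e (a e) (c e y) y ^ z e := by
      change _ = (∏ e, _ ^ z e) * _
      rw [← Finset.prod_mul_distrib]
      refine Finset.prod_congr rfl fun e _ => ?_
      have := (hu e).chg (a e) (a₁ e) (c e y) (c e y) y (h2 e) (h3 e) (hc e y) (hc e y)
      rw [isLB_self (hM e) (hc e y), one_mul] at this
      rw [← this, mul_zpow, mul_comm]
    change t 0 _ j₁ y * _ = _ * (t 0 _ j y * _) * N.g j₁ j y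
    rw [h6, h8]
    change (HD.Bd.lin M z).g _ _ y * _ * N.g j₁ j y * _ = _
    rw [h7]
    ring

theorem stIsoOff : StIsoOff := by
  intro W _ _ _ _ _ X Y p ψ g N hp hψ hg hN hf
  have hc : Continuous g := (hψ.cont.isClosedMap.isQuotientMap hψ.cont hψ.surj).continuous_iff.2
    (hp.cont.congr fun w => (hg w).symm)
  have hh : ∀ y, HolMap Y X g y := fun y => by
    refine ⟨hc.continuousAt, fun f hf => Stb.hol hψ y _ fun w hw => ?_⟩
    subst hw
    simp only [Function.comp_apply, hg] at hf ⊢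
    exact hp.hol w f hf
  have hi : ∀ y y', g y ∉ N → g y' = g y → y' = y := fun y y' h1 h2 => by
    obtain ⟨w, rfl⟩ := hψ.surj y
    obtain ⟨w', rfl⟩ := hψ.surj y'
    rw [hg] at h1 h2
    rw [hg] at h2
    exact hf w w' h1 h2
  have hs : Function.Surjective g := fun x => (hp.surj x).elim fun w hw => ⟨ψ w, (hg w).trans hw⟩
  refine ⟨hh, hs, hN, hN.isOpen_compl.preimage hc, hc.continuousOn,
    fun y hy y' _ e => (hi y y' hy e.symm).symm, fun U hU h1 => ?_,
    fun y hy f => ⟨(hh y).2 f, fun h1 => Stb.hol hp _ f fun w hw => ?_⟩⟩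
  · have : g '' U = (g '' Uᶜ)ᶜ := by
      ext x
      obtain ⟨y, rfl⟩ := hs x
      refine ⟨fun ⟨a, a1, a2⟩ ⟨b, b1, b2⟩ => b1 (hi a b (hU a1) (b2.trans a2.symm) ▸ a1),
        fun h2 => ⟨y, by_contra fun h3 => h2 ⟨y, h3, rfl⟩, rfl⟩⟩
    rw [this]
    exact (hc.isClosedMap _ h1.isClosed_compl).isOpen_compl
  · obtain rfl : ψ w = y := hi y _ hy ((hg w).trans hw)
    simpa only [Function.comp_apply, hg] using hψ.hol w _ h1

theorem stClsT : StClsT := by
  intro W _ _ _ _ _ X p M w s hp hM hs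
  have key : Fib p M (fun s : Germ 4 p M (p w) => s.1) w = p ⁻¹' {p w} := by
    refine Subset.antisymm (fun v hv => hv.1) fun v hv => ⟨hv, fun l m i j hi hj => ?_⟩
    have h1 : ∀ (a : Germ 4 p M (p w)) u k, Stb.Fr 4 M s u → ScAt (HolF 4) M a.1 u → u ∈ M.U k →
        a.1 k u = Stb.rat hM s a.1 u * s k u := fun a u k h1 h2 h3 => by
      have hi := (hM.cover u).choose_spec
      rw [Stb.rat, (h1.1.self_of_nhds _ hi).2 k h3, (h2 _ hi).2 k h3,
        mul_div_mul_left _ _ (hM.ne_zero _ k u hi h3), div_mul_cancel₀ _ (h1.2 k h3)]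
    have h2 : ∀ a : Germ 4 p M (p w), Stb.rat hM s a.1 v = Stb.rat hM s a.1 w := fun a => by
      have h3 := (Stb.desc hp (y := p w) (g := Stb.rat hM s a.1) fun u hu => by
        obtain ⟨k, hk⟩ := hM.cover u
        refine (((a.2 u hu).self_of_nhds k hk).1.mul
          ((holSys 4).inv ((hs u hu).1.self_of_nhds k hk).1 ((hs u hu).2 k hk))).congr ?_
        filter_upwards [Stb.Fr.ev hM (hs u hu), a.2 u hu, (hM.isOpen k).mem_nhds hk]
          with x x1 x2 x3
        rw [h1 a x k x1 x2 x3, mul_inv_cancel_right₀ (x1.2 k x3)]).2.self_of_nhds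
      rw [h3 v hv, h3 w rfl]
    change l.1 i w * m.1 j v = m.1 i w * l.1 j v
    rw [h1 l w i (hs w rfl) (l.2 w rfl).self_of_nhds hi,
      h1 m w i (hs w rfl) (m.2 w rfl).self_of_nhds hi,
      h1 l v j (hs v hv) (l.2 v hv).self_of_nhds hj, h1 m v j (hs v hv) (m.2 v hv).self_of_nhds hj,
      h2, h2]
    ring
  rw [Cls, key]
  exact (Stb.conn hp (p w)).isPreconnected.connectedComponentIn rfl

end Vale.Agent.P277Z.Pj
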