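import Vale.Agent.P277Z.Pj.Sk

/-!
# P277, block PROJ: coherence of direct images by projective maps; images are analytic
-/

open scoped Manifold ContDiff Topology
open Vale.Agent.P272.K Vale.Agent.P285.H281.FD Set Filter Metric
open Vale.Agent.P277 Vale.Agent.P277.H762 Vale.Agent.P277.PH
open Vale.Agent.P277.HD (pull)
open Vale.Agent.P277Z.Coh (ScAt LBOn prpBase holSys Base Sh)

noncomputable section

namespace Vale.Agent.P277Z.Pj

namespace CT

section abs

variable {E E' : Type} [NormedAddCommGroup E] [NormedSpace ℂ E] [NormedAddCommGroup E']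
  [NormedSpace ℂ E'] {W T : Type} [TopologicalSpace W] [TopologicalSpace T]

/-- `B` is a retract of `B'` -/
structure Ret (B : Base E W) (B' : Base E' T) (j : E → E') (q : E' → E) (s : W → T) (pr : T → W) :
    Prop where
  an_j : ∀ y, AnalyticAt ℂ j y
  an_q : ∀ y, AnalyticAt ℂ q y
  qj : ∀ y, q (j y) = y
  up : ∀ u ∈ B'.Om, pr u ∈ B.Om ∧ B.t (pr u) = q (B'.t u) ∧
    ∀ f, B.Hol f (pr u) → B'.Hol (fun u => f (pr u)) u
  down : ∀ w ∈ B.Om, s w ∈ B'.Om ∧ pr (s w) = w ∧ B'.t (s w) = j (B.t w) ∧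
    ∀ f, B'.Hol f (s w) → B.Hol (fun w => f (s w)) w

variable {B : Base E W} {B' : Base E' T} {j : E → E'} {q : E' → E} {s : W → T} {pr : T → W}
  {y z : E} {L : Bd W}

theorem Ret.near_up (h : Ret B B' j q s pr) {P : W → Prop} (hP : B.Near y P) :
    B'.Near (j y) fun u => P (pr u) := by
  have h1 : Tendsto q (𝓝 (j y)) (𝓝 y) := by
    have := (h.an_q (j y)).continuousAt
    rwa [ContinuousAt, h.qj] at this
  filter_upwards [h1.eventually hP] with y' h2 u hu e
  exact h2 _ (h.up u hu).1 (by rw [(h.up u hu).2.1, e])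

theorem Ret.near_down (h : Ret B B' j q s pr) {P : T → Prop} (hP : B'.Near (j y) P) :
    B.Near y fun w => P (s w) := by
  filter_upwards [(h.an_j y).continuousAt.eventually hP] with y' h2 w hw e
  exact h2 _ (h.down w hw).1 (by rw [(h.down w hw).2.2.1, e])

theorem Ret.sec_up (h : Ret B B' j q s pr) {f : L.ι → W → ℂ} (hf : B.Near y (ScAt B.Hol L f)) :
    B'.Near (j y) (ScAt B'.Hol (pull pr L) fun i u => f i (pr u)) :=
  (h.near_up hf).mono fun u hu h1 i hi => ⟨(h.up u hu).2.2 _ (h1 i hi).1, (h1 i hi).2⟩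

theorem Ret.sec_down (h : Ret B B' j q s pr) {f : L.ι → T → ℂ}
    (hf : B'.Near (j y) (ScAt B'.Hol (pull pr L) f)) :
    B.Near y (ScAt B.Hol L fun i w => f i (s w)) :=
  (h.near_down hf).mono fun w hw h1 i hi => by
    obtain ⟨-, h2, -, h3⟩ := h.down w hw
    have h4 := h1 i (show pr (s w) ∈ L.U i by rwa [h2])
    refine ⟨h3 _ h4.1, fun k hk => ?_⟩
    have h5 : f i (s w) = L.g i k (pr (s w)) * f k (s w) :=
      h4.2 k (show pr (s w) ∈ L.U k by rwa [h2])
    rwa [h2] at h5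

theorem Ret.ft (h : Ret B B' j q s pr) (hF : (B'.img (pull pr L)).FT (j z)) : (B.img L).FT z := by
  obtain ⟨r, e, he⟩ := hF
  refine ⟨r, fun k i w => e k i (s w), ?_⟩
  filter_upwards [(h.an_j z).continuousAt.eventually he] with y hy
  obtain ⟨h1, h2⟩ := (Base.gen_img_iff (B := B') (L := pull pr L) e).1 hy
  refine (Base.gen_img_iff _).2 ⟨fun k => h.sec_down (h1 k), fun f hf => ?_⟩
  obtain ⟨c, hc, h3⟩ := h2 _ (h.sec_up hf)
  refine ⟨fun k y => c k (j y), fun k => (hc k).comp (h.an_j y),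
    (h.near_down h3).mono fun w hw h4 i hi => ?_⟩
  obtain ⟨-, h5, h6, -⟩ := h.down w hw
  have h7 := h4 i (show pr (s w) ∈ L.U i by rwa [h5])
  rwa [h5, h6] at h7

theorem zer_iff {κ : Type} [Fintype κ] (c : κ → E → ℂ) (e : κ → (B.img L).α) :
    (B.img L).Zer y (∑ k, c k • e k) ↔
      B.Near y fun x => ∀ i, x ∈ L.U i → ∑ k, c k (B.t x) * e k i x = 0 :=
  ⟨fun h => Base.Near.mono h fun x _ h1 i hi => (Base.img_comb c e i x).symm.trans (h1 i hi),
    fun h => h.mono fun x _ h1 i hi => (Base.img_comb c e i x).trans (h1 i hi)⟩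

theorem Ret.relFT (h : Ret B B' j q s pr) (hF : (B'.img (pull pr L)).RelFT (j z)) :
    (B.img L).RelFT z := by
  intro r f hf
  obtain ⟨m, ρ, h1⟩ := hF r (fun k i u => f k i (pr u)) fun k => h.sec_up (hf k)
  refine ⟨m, fun a k y => ρ a k (j y), ?_⟩
  filter_upwards [(h.an_j z).continuousAt.eventually h1] with y hy
  refine ⟨fun a => ⟨fun k => ((hy.1 a).1 k).comp (h.an_j y),
    (zer_iff _ _).2 ((h.near_down ((zer_iff _ _).1 (hy.1 a).2)).mono fun w hw h2 i hi => ?_)⟩,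
    fun c hc h2 => ?_⟩
  · obtain ⟨-, h5, h6, -⟩ := h.down w hw
    have h7 := h2 i (show pr (s w) ∈ L.U i by rwa [h5])
    rwa [h5, h6] at h7
  · obtain ⟨b, hb, h3⟩ := hy.2 (fun k y => c k (q y))
      (fun k => (hc k).comp_of_eq (h.an_q _) (h.qj y))
      ((zer_iff _ _).2 ((h.near_up ((zer_iff _ _).1 h2)).mono fun u hu h4 i hi => by
        have h5 := h4 i hi
        rwa [(h.up u hu).2.1] at h5))
    refine ⟨fun a y => b a (j y), fun a => (hb a).comp (h.an_j y), fun k => ?_⟩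
    filter_upwards [(h.an_j y).continuousAt.eventually (h3 k)] with y' h4
    rw [h.qj, Finset.sum_apply] at h4
    rw [h4, Finset.sum_apply]
    rfl

theorem zero_ft {F : Sh E} (h : ∀ y s, F.Sec y s ∧ F.Zer y s) : F.FT z ∧ F.RelFT z := by
  classical
  refine ⟨⟨0, Fin.elim0, .of_forall fun y => ⟨fun _ => (h _ _).1, fun s _ =>
    ⟨Fin.elim0, fun k => k.elim0, (h _ _).2⟩⟩⟩, fun r f _ => ⟨r, fun a k _ => if a = k then 1 else 0,
      .of_forall fun y => ⟨fun a => ⟨fun _ => analyticAt_const, (h _ _).2⟩,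
        fun c hc _ => ⟨c, hc, fun k => .of_forall fun y' => ?_⟩⟩⟩⟩
  simp [Finset.sum_apply]

end abs

theorem imm_congr {n : ℕ} {W : Type} [TopologicalSpace W] [ChartedSpace (Cm n) W] {F : Type}
    [NormedAddCommGroup F] [NormedSpace ℂ F] {t t' : W → F} {w : W} (h : Imm n t w)
    (h' : ∀ᶠ v in 𝓝 w, t' v = t v) : Imm n t' w := fun e he => by
  have h1 : (fun z => t' (e.symm z)) =ᶠ[𝓝 (e w)] fun z => t (e.symm z) := ev_symm he.2 h'
  rw [h1.fderiv_eq]
  exact h e he

theorem lbOn_of {n : ℕ} {W : Type} [TopologicalSpace W] [ChartedSpace (Cm n) W] {L : Bd W}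
    (h : IsLB n L) (O : Set W) : LBOn n O L :=
  ⟨h.isOpen, fun x _ => h.cover x, fun i j x _ hi hj e he => (h.holo i j e x he hi hj).analyticAt,
    fun i j x _ => h.ne_zero i j x, fun i j k x _ => h.cocycle i j k x⟩

end CT

open CT in
theorem coht_of (h1 : TOT) (h2 : TOTH) (h3 : TOTP) (h4 : Coh.VAP) (h5 : Coh.FTS) : COHT := by
  intro n W _ _ _ _ _ N O t Ω h ⟨r, D, ν, hE⟩ L hL z hz
  rcases O.eq_empty_or_nonempty with rfl | hO
  · exact zero_ft fun y s => ⟨Base.Near.of_forall fun _ h => h.elim,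
      Base.Near.of_forall fun _ h => h.elim⟩
  obtain ⟨T, _, _, _, _, _, pr, ζ, pt, hT⟩ := h1 n W O r D ν hE.toPMap hO
  obtain ⟨a1, a2, a3, a4, a5⟩ := h2 n W T r O D ν pr ζ pt hE.toPMap hT
  obtain ⟨-, b2, b3⟩ := h3 n W T r O D ν pr ζ pt hE.toPMap hT N t Ω h
  have hE' := b2 r D ν hE
  have hB := b3 hE
  have hchg : ∀ i k w, w ∈ D i → w ∈ D k → ∀ a, ν i w a = ν i w k * ν k w a :=
    fun i k w hi hk a => congrFun (hE.chg i k w hi hk) a
  let A : Bd T := ⟨Fin (r + 1), fun m => pr ⁻¹' D m, fun l m u => ν l (pr u) m⟩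
  have hA : LBOn (n + 1 + 1) univ A := ⟨hE'.isOpen, fun u _ => hT.mem u,
    fun i k u _ hi _ => hE'.hol i u hi k, fun i k u _ hi hk => (hE.mem i k _ hi).1 hk,
    fun i k l u _ hi hk _ => (hchg i k _ hi hk l).symm⟩
  obtain ⟨ψ, hψ⟩ := h4 (n + 1 + 1) T _ univ (cone t pr ζ) A (r + 1) (fun a l u => ν l (pr u) a)
    isOpen_univ hB.hol hA ⟨fun a u _ i hi => ⟨hE'.hol i u hi a, fun k hk => hchg i k _ hi hk a⟩,
      fun u _ => by
        obtain ⟨m, hm⟩ := hT.mem u
        refine ⟨m, m, hm, by rw [hE.one m _ hm]; exact one_ne_zero,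
          imm_congr (hE'.imm m u hm) ?_⟩
        filter_upwards [(hE'.isOpen m).mem_nhds hm] with v hv
        simp only [hE.one m _ hv, div_one]⟩
  have hε : Coh.InvS (n + 1 + 1) univ A fun l u => ζ u l := by
    refine ⟨fun i u _ _ => a2 u i, fun i k u _ hi _ => ?_, fun i u _ hi => ?_⟩
    · have := congrFun (hT.ζ_pt i _ hi (ζ u i)) k
      rw [hT.pt_eq i u hi] at this
      exact this.symm
    · have k1 : Tendsto (fun c => pt i (pr u) c) (𝓝 (ζ u i)) (𝓝 u) := by
        have := (a3 i _ hi (ζ u i)).comp (f := fun c : ℂ => (pr u, c))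
          (continuousAt_const.prodMk continuousAt_id)
        rwa [ContinuousAt, Function.comp_apply, hT.pt_eq i u hi] at this
      refine k1.frequently ((mem_closure_iff_frequently.1
        (dense_compl_singleton (0 : ℂ) (ζ u i))).mono fun c hc => ?_)
      rwa [hT.ζ_pt i _ hi, Pi.smul_apply, hE.one i _ hi, smul_eq_mul, mul_one]
  classical
  let s0 : W → T := fun w => if h : ∃ m, w ∈ D m then pt h.choose w 0 else pt 0 w 0
  have hs : ∀ m, ∀ w ∈ D m, s0 w = pt m w 0 := fun m w hw => by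
    have k1 : ∃ m, w ∈ D m := ⟨m, hw⟩
    have k2 := hT.pt_eq m (pt k1.choose w 0) (by rwa [hT.pr_pt _ _ k1.choose_spec])
    rw [hT.pr_pt _ _ k1.choose_spec, hT.ζ_pt _ _ k1.choose_spec, zero_smul] at k2
    simp only [s0, dif_pos k1]
    exact k2.symm
  have hR : Ret (prpBase h) (prpBase hB.toPrp) (fun y => Fin.append y (0 : Cm (r + 1)))
      (fun z i => z (Fin.castAdd (r + 1) i)) s0 pr := by
    refine ⟨fun y => analyticAt_pi_iff.2 fun i => ?_, fun y => analyticAt_pi_iff.2 fun i =>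
      (ContinuousLinearMap.proj (R := ℂ) (φ := fun _ => ℂ) (Fin.castAdd (r + 1) i)).analyticAt y,
      fun y => funext fun i => Fin.append_left _ _ i, fun u _ => ⟨(hE.cover _).2 (hT.mem u),
        funext fun i => (Fin.append_left _ _ i).symm, a1 u⟩, fun w hw => ?_⟩
    · refine Fin.addCases (fun i => ?_) (fun i => ?_) i
      · simp only [Fin.append_left]
        exact (ContinuousLinearMap.proj (R := ℂ) (φ := fun _ => ℂ) i).analyticAt y
      · simp only [Fin.append_right]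
        exact analyticAt_const
    · obtain ⟨m, hm⟩ := (hE.cover w).1 hw
      rw [hs m w hm]
      refine ⟨trivial, hT.pr_pt m w hm 0, ?_, fun f hf => ?_⟩
      · change Fin.append (t (pr _)) (ζ _) = Fin.append (t w) 0
        rw [hT.pr_pt m w hm, hT.ζ_pt m w hm, zero_smul]
      · have k1 : HolF (n + 1) (fun w => f (pt m w 0)) w := fun e he =>
          ((a4 m w hm 0 f).1 hf e he).comp_of_eq (f := fun z : Cm (n + 1) => (z, (0 : ℂ)))
            (analyticAt_id.prod analyticAt_const) rfl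
        refine HolF.congr (g' := fun w => f (s0 w)) k1 ?_
        filter_upwards [(hE.isOpen m).mem_nhds hm] with v hv
        rw [hs m v hv]
  obtain ⟨c1, c2⟩ := h5 (n + 1) T _ univ (cone t pr ζ) _ hB A ψ _ hA hψ hε (pull pr L)
    (lbOn_of (a5 L hL) _) (Fin.append z 0) (by
      change (fun i => Fin.append z (0 : Cm (r + 1)) (Fin.castAdd (r + 1) i)) ∈ Ω
      simpa only [Fin.append_left] using hz)
  exact ⟨hR.ft c1, hR.relFT c2⟩

theorem remp_of (h1 : COHT) : REMP := by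
  intro n W _ _ _ _ _ N O t Ω h hP z hz
  obtain ⟨m, ρ, h2⟩ := (h1 n W N O t Ω h hP (Coh.triv W) ⟨fun _ => isOpen_univ,
    fun _ _ => ⟨(), trivial⟩, fun _ _ _ _ _ _ => HolF.const 1, fun _ _ _ _ _ _ => one_ne_zero,
    fun _ _ _ _ _ _ _ _ => one_mul 1⟩ z hz).2 1 (fun _ _ _ => 1)
    fun _ => Base.Near.of_forall fun _ _ _ _ => ⟨HolF.const 1, fun _ _ => (one_mul 1).symm⟩
  refine ⟨m, fun a => ρ a 0, fun a => (h2.self_of_nhds.1 a).1 0, ?_⟩
  filter_upwards [h2, h.isOpen'.mem_nhds hz] with y h3 hy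
  refine ⟨?_, fun h4 => ?_⟩
  · rintro ⟨w, hw, rfl⟩ a
    have h5 := ((CT.zer_iff _ _).1 (h3.1 a).2).self_of_nhds w hw rfl () trivial
    rwa [Fin.sum_univ_one, mul_one] at h5
  by_contra h5
  obtain ⟨ε, hε, hK⟩ := nhds_basis_closedBall.mem_iff.1 (h.isOpen'.mem_nhds hy)
  have h6 : IsClosed (t '' (O ∩ t ⁻¹' closedBall y ε)) :=
    ((h.proper _ hK (isCompact_closedBall y ε)).image_of_continuousOn fun w hw =>
      ((prpBase h).cont w hw.1).continuousWithinAt).isClosed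
  obtain ⟨b, -, h7⟩ := h3.2 (fun _ _ => 1) (fun _ => analyticAt_const) (by
    filter_upwards [h6.isOpen_compl.mem_nhds fun ⟨w, hw, e⟩ => h5 ⟨w, hw.1, e⟩,
      closedBall_mem_nhds y hε] with y' h8 h9 w hw e
    exact (h8 ⟨w, ⟨hw, by rw [mem_preimage, show t w = y' from e]; exact h9⟩, e⟩).elim)
  have h8 := (h7 0).self_of_nhds
  simp [Finset.sum_apply, h4] at h8

end Vale.Agent.P277Z.Pj
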