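import Vale.Agent.P277Z.Pj.Sk2
import Vale.Agent.P277Z.Pj.Imm

/-!
# P277, block PROJ: criteria for embedding; submanifolds
-/

open Vale.Agent.P272.K Vale.Agent.P285.H281.FD Set Filter Topology
open Vale.Agent.P277 Vale.Agent.P277.PH
open Vale.Agent.P277Z.Coh (ScAt)

noncomputable section

namespace Vale.Agent.P277Z.Pj

theorem immc_of (h : STB) : IMMC := by
  intro n W _ _ _ _ _ Y φ M hS hM w τ a b s F i h1 h2 h3 hi h0 hI
  choose c hc using hM.cover
  have h4 : ∀ l v, φ v = φ w → ∀ j, v ∈ M.U j →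
      ∀ᶠ u in 𝓝 v, s l (c u) u / τ (c u) u = s l j u / τ j u := fun l v e j hj => by
    filter_upwards [(h1 v e).1, h2 l v e, (hM.isOpen j).mem_nhds hj] with u a1 a2 a3
    rw [(a1 _ (hc u)).2 j a3, (a2 _ (hc u)).2 j a3,
      mul_div_mul_left _ _ (hM.ne_zero _ _ _ (hc u) a3)]
  choose f hf hf' using fun l => hS.desc (φ w) (fun u => s l (c u) u / τ (c u) u) fun v e =>
    HolF.congr (g := fun u => s l (c v) u / τ (c v) u) (fun e' he' =>
      (((h2 l v e).self_of_nhds _ (hc v)).1 e' he').fun_div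
        (((h1 v e).1.self_of_nhds _ (hc v)).1 e' he')
        (by rw [e'.left_inv he'.2]; exact (h1 v e).2 _ (hc v)))
      ((h4 l v e _ (hc v)).mono fun _ => Eq.symm)
  choose F' hF hF' using fun j => hS.desc (φ w) _ (h3 j)
  let g : Y.pt → Cm (a + (b + 1)) := fun y => Fin.append (fun j => F' j y) fun l => f l y
  have hg : ∀ k, Y.Hol (fun y => g y k) (φ w) := fun k => by
    refine Fin.addCases (fun j => ?_) (fun l => ?_) k
    · simpa only [g, Fin.append_left] using hF j
    · simpa only [g, Fin.append_right] using hf l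
  have h5 : ∀ᶠ u in 𝓝 w, ∀ l, f l (φ u) = s l i u / τ i u := eventually_all.2 fun l => by
    filter_upwards [hf' l w rfl, h4 l w rfl i hi] with u a1 a2 using a1.symm.trans a2
  have h6 : ∀ (k : Fin (a + (b + 1))) (z : Cm (a + (b + 1))), AnalyticAt ℂ (fun z => z k) z :=
    fun k z => analyticAt_pi_iff.1 analyticAt_id k
  refine ((h n W Y φ hS).2.2.2.2.1 w).2 ⟨_, g, hg, hI.of_comp
    (holV_pi.2 fun k => hS.hol w _ (hg k)) (H := fun z => (fun j => z (Fin.castAdd _ j),
      fun l => z (Fin.natAdd a l) / z (Fin.natAdd a 0)))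
    ((AnalyticAt.pi fun j => h6 _ _).prod (AnalyticAt.pi fun l => (h6 _ _).fun_div (h6 _ _) ?_))
    ?_⟩
  · simpa only [g, Fin.append_right, h5.self_of_nhds 0] using div_ne_zero h0 ((h1 w rfl).2 i hi)
  · filter_upwards [h5, eventually_all.2 fun j => hF' j w rfl,
      (holF_cont ((h1 w rfl).1.self_of_nhds i hi).1).eventually_ne ((h1 w rfl).2 i hi)]
      with u a1 a2 a3
    simp only [g, Fin.append_left, Fin.append_right, a1, ← a2, div_div_div_cancel_right₀ a3]

theorem oemb_of (h : STB) : OEMB := by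
  intro W _ _ _ _ _ Y φ hS
  obtain ⟨h1, -, -, h2, -, h3, -⟩ := h 3 W Y φ hS
  refine ⟨h2, hS.cont.continuousOn, fun v _ w hw e => hw v e, fun U hU ho => ?_,
    fun y hy e he g => ⟨fun k => hS.hol y g k e he, fun k => h1 _ g fun w e' => ?_⟩⟩
  · refine isOpen_iff_mem_nhds.2 ?_
    rintro _ ⟨w, hw, rfl⟩
    exact (h3 w (hU hw)).2 ▸ image_mem_map (ho.mem_nhds hw)
  · obtain rfl := hy w e'
    exact holF_of he k

theorem prjs : PRJS := by
  intro d n H W _ _ _ _ _ _ X p ι hc hi hι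
  have h1 : ∀ {β : Type} (t : W → β) (y : H) (e : Chart d H), At e y →
      (fun z => t (ι (e.symm z))) =ᶠ[𝓝 (e y)] (fun z => t ((chartAt (Cm n) (ι y)).symm z)) ∘
        fun z => chartAt (Cm n) (ι y) (ι (e.symm z)) := fun t y e he =>
    (ev_symm he.2 (hc.continuousAt.eventually_mem ((chartAt (Cm n) (ι y)).open_source.mem_nhds
      (mem_chart_source _ _)))).mono fun z hz => congrArg t ((chartAt _ _).left_inv hz).symm
  have h2 : ∀ f y, HolF n f (ι y) → HolF d (fun y => f (ι y)) y := fun f y k e he =>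
    ((k _ (at_chartAt _)).comp_of_eq (hι y e _ he (at_chartAt _)).1
      (by rw [e.left_inv he.2])).congr (h1 f y e he).symm
  refine ⟨fun k => ⟨k.cont.comp hc, fun y g a => h2 _ y (k.hol _ g a)⟩, fun k x => ?_⟩
  obtain ⟨N, m, V, Ω, h, ψ, hx, hM, r, D, ν, hP⟩ := k x
  refine ⟨N, m, V, Ω, h, ψ, hx, hM, r, fun m => ι ⁻¹' D m, fun m y => ν m (ι y),
    ⟨fun m => (hP.isOpen m).preimage hc, fun y => hP.cover _, fun m y a l => h2 _ y (hP.hol m _ a l),
      fun m y => hP.one m _, fun m l y => hP.mem m l _, fun m l y => hP.chg m l _⟩,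
    fun m y a y' b e e' => hi (hP.inj m _ a _ b e e'), fun m y a e he => ?_⟩
  obtain ⟨a1, a2⟩ := hι y e _ he (at_chartAt _)
  have a3 := hP.imm m _ a _ (at_chartAt (ι y))
  by_cases k : DifferentiableAt ℂ (fun z => (ψ (p ((chartAt (Cm n) (ι y)).symm z)),
      ν m ((chartAt (Cm n) (ι y)).symm z))) (chartAt (Cm n) (ι y) (ι y))
  · rw [(h1 (fun w => (ψ (p w), ν m w)) y e he).fderiv_eq, fderiv_comp _
      (by rwa [e.left_inv he.2]) a1.differentiableAt, e.left_inv he.2]
    exact a3.comp a2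
  · rw [fderiv_zero_of_not_differentiableAt k] at a3
    exact fun u v _ => a2 (a3 rfl)

end Vale.Agent.P277Z.Pj
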