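import Vale.Agent.P277Z.Pj.Sk

/-!
# P277, block PROJ: a free line bundle which defines a finite map is ample
-/

open scoped Manifold ContDiff Topology
open Vale.Agent.P272.K Vale.Agent.P285.H281.FD Set Filter Metric
open Vale.Agent.P277 Vale.Agent.P277.H762 Vale.Agent.P277.PH
open Vale.Agent.P277.HD (pull)
open Vale.Agent.P277Z.Coh (ScAt LBOn holSys triv)

noncomputable section

namespace Vale.Agent.P277Z.Pj

namespace Emb

/-- a component of a compact set is cut out by a partition, inside a given neighbourhood -/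
theorem exists_part {W : Type} [TopologicalSpace W] [T2Space W] {Φ N : Set W} {w : W}
    (hΦ : IsCompact Φ) (hw : w ∈ Φ) (hN : IsOpen N) (h : connectedComponentIn Φ w ⊆ N) :
    ∃ A B : Set W, IsOpen A ∧ IsOpen B ∧ Disjoint A B ∧ Φ ⊆ A ∪ B ∧ A ⊆ N ∧
      connectedComponentIn Φ w ⊆ A := by
  have : CompactSpace Φ := isCompact_iff_compactSpace.1 hΦ
  rw [connectedComponentIn_eq_image hw] at h ⊢
  have h1 : IsCompact ((↑) ⁻¹' N : Set Φ)ᶜ :=
    (hN.preimage continuous_subtype_val).isClosed_compl.isCompact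
  have : Nonempty {s : Set Φ // IsClopen s ∧ (⟨w, hw⟩ : Φ) ∈ s} :=
    ⟨⟨univ, isClopen_univ, trivial⟩⟩
  obtain ⟨Z, hZ⟩ := h1.elim_directed_family_closed
    (fun s : {s : Set Φ // IsClopen s ∧ (⟨w, hw⟩ : Φ) ∈ s} => (s : Set Φ)) (fun s => s.2.1.isClosed)
    (by
      rw [← connectedComponent_eq_iInter_isClopen]
      exact eq_empty_of_forall_notMem fun v hv => hv.1 (h (mem_image_of_mem _ hv.2)))
    (fun s t => ⟨⟨s ∩ t, s.2.1.inter t.2.1, s.2.2, t.2.2⟩, inter_subset_left, inter_subset_right⟩)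
  obtain ⟨A, B, hA, hB, h2, h3, h4⟩ := SeparatedNhds.of_isCompact_isCompact
    (Z.2.1.isClosed.isCompact.image continuous_subtype_val)
    (Z.2.1.compl.isClosed.isCompact.image continuous_subtype_val)
    (disjoint_image_of_injective Subtype.val_injective disjoint_compl_right)
  have h5 : (↑) '' (Z : Set Φ) ⊆ A ∩ N := by
    rintro _ ⟨v, hv, rfl⟩
    exact ⟨h2 ⟨v, hv, rfl⟩, not_not.1 fun hn => (eq_empty_iff_forall_notMem.1 hZ) v ⟨hn, hv⟩⟩
  refine ⟨A ∩ N, B, hA.inter hN, hB, h4.mono_left inter_subset_left, fun v hv => ?_,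
    inter_subset_right, (image_mono (Z.2.1.connectedComponent_subset Z.2.2)).trans h5⟩
  by_cases hz : (⟨v, hv⟩ : Φ) ∈ (Z : Set Φ)
  · exact Or.inl (h5 ⟨_, hz, rfl⟩)
  · exact Or.inr (h3 ⟨_, hz, rfl⟩)

section man

variable {n : ℕ} {W : Type} [TopologicalSpace W] [ChartedSpace (Cm n) W] {O : Set W} {r : ℕ}
  {D : Fin (r + 1) → Set W} {ν : Fin (r + 1) → W → Cm (r + 1)}

theorem holF_pow {f : W → ℂ} {x : W} (h : HolF n f x) (k : ℕ) : HolF n (fun y => f y ^ k) x :=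
  fun e he => (h e he).fun_pow k

/-- the fibres of a map to the projective space are closed -/
theorem isClosed_fib (h : PMap n O D ν) {K : Set W} (hK : IsClosed K) (hO : K ⊆ O)
    (m : Fin (r + 1)) {η : Cm (r + 1)} (hη : η m = 1) :
    IsClosed {v | v ∈ K ∧ v ∈ D m ∧ ν m v = η} := by
  refine isClosed_of_closure_subset fun v hv => ?_
  have hvK : v ∈ K := closure_minimal (fun _ h => h.1) hK hv
  obtain ⟨l, hl⟩ := (h.cover v).1 (hO hvK)
  have h1 : ContinuousAt (fun v => η l • ν l v) v :=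
    (continuousAt_pi.2 fun j => holF_cont (h.hol l v hl j)).fun_const_smul _
  have h2 : η l • ν l v = η := by
    by_contra h0
    obtain ⟨v', h3, h4⟩ := mem_closure_iff_nhds.1 hv _
      ((h1.eventually_ne h0).and ((h.isOpen l).mem_nhds hl))
    have h5 := h.chg m l v' h4.2.1 h3.2
    rw [h4.2.2] at h5
    exact h3.1 h5.symm
  have h3 : η l * ν l v m = 1 := by rw [← hη, ← congrFun h2 m]; rfl
  have h4 : v ∈ D m := (h.mem l m v hl).2 (right_ne_zero_of_mul_eq_one h3)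
  refine ⟨hvK, h4, ?_⟩
  rw [← h2, h.chg l m v hl h4, smul_smul, h3, one_smul]

/-- the extension by zero of a function near a component of the fibre -/
theorem key [T2Space W] {N q : ℕ} {t : W → Cm N} {g : Fin q → W → ℂ} {m : Fin (r + 1)} {y : Cm N}
    {η : Cm (r + 1)} (hm : ∀ (f : W → ℂ) x, HolF n f x → ∀ᶠ x' in 𝓝 x, HolF n f x')
    (hg : ∀ s : Unit → W → ℂ,
      (∀ w ∈ D m, t w = y → ν m w = η → ∀ᶠ w' in 𝓝 w, ScAt (HolF n) (triv W) s w') →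
      ∃ c : Fin q → Cm N × Cm (r + 1) → ℂ, (∀ a, AnalyticAt ℂ (c a) (y, η)) ∧
        ∀ w ∈ D m, t w = y → ν m w = η → ∀ᶠ w' in 𝓝 w, ∀ i, w' ∈ (triv W).U i →
          s i w' = ∑ a, c a (t w', ν m w') * g a w')
    {Φ : Set W} (hΦ : IsCompact Φ) (hΦ' : ∀ w, w ∈ Φ ↔ w ∈ D m ∧ t w = y ∧ ν m w = η) {w : W}
    (hw : w ∈ Φ) {T : Set W} (hT : IsOpen T) (hC : connectedComponentIn Φ w ⊆ T) {f : W → ℂ}
    (hf : ∀ v ∈ T, HolF n f v) :
    ∃ c : Fin q → Cm N × Cm (r + 1) → ℂ, (∀ a, AnalyticAt ℂ (c a) (y, η)) ∧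
      (∀ v ∈ connectedComponentIn Φ w, ∀ᶠ v' in 𝓝 v, f v' = ∑ a, c a (t v', ν m v') * g a v') ∧
      ∀ v ∈ Φ, v ∉ T → ∑ a, c a (y, η) * g a v = 0 := by
  obtain ⟨A, B, hA, hB, hAB, h1, h2, h3⟩ := exists_part hΦ hw hT hC
  have h4 : ∀ v ∈ A, ∀ᶠ v' in 𝓝 v, f v' = A.indicator f v' := fun v hv => by
    filter_upwards [hA.mem_nhds hv] with v' hv' using (indicator_of_mem hv' f).symm
  obtain ⟨c, hc, h5⟩ := hg (fun _ => A.indicator f) fun v hv h6 h7 => by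
    have h8 : HolF n (A.indicator f) v := by
      rcases h1 ((hΦ' v).2 ⟨hv, h6, h7⟩) with h | h
      · exact (hf v (h2 h)).congr (h4 v h)
      · refine (HolF.const 0).congr ?_
        filter_upwards [hB.mem_nhds h] with v' hv'
        exact (indicator_of_notMem (disjoint_right.1 hAB hv') f).symm
    filter_upwards [hm _ _ h8] with v' hv' _ _
    exact ⟨hv', fun _ _ => (one_mul _).symm⟩
  refine ⟨c, hc, fun v hv => ?_, fun v hv hv' => ?_⟩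
  · obtain ⟨h6, h7, h8⟩ := (hΦ' v).1 (connectedComponentIn_subset _ _ hv)
    filter_upwards [h5 v h6 h7 h8, h4 v (h3 hv)] with v' h9 h10
    rw [h10, h9 () trivial]
  · obtain ⟨h6, h7, h8⟩ := (hΦ' v).1 hv
    have h9 := (h5 v h6 h7 h8).self_of_nhds () trivial
    rw [indicator_of_notMem (fun h => hv' (h2 h)), h7, h8] at h9
    exact h9.symm

theorem holF_ev [IsManifold 𝓘(ℂ, Cm n) ω W] (f : W → ℂ) (x : W) (h : HolF n f x) :
    ∀ᶠ x' in 𝓝 x, HolF n f x' := by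
  have he := at_chartAt (n := n) x
  filter_upwards [((chartAt (Cm n) x).continuousAt he.2).eventually (h _ he).eventually_analyticAt,
    (chartAt (Cm n) x).open_source.mem_nhds he.2] with y h1 h2
  exact holF_of ⟨he.1, h2⟩ h1

/-- a small model of the base -/
theorem small [CompactSpace W] {X : CSp} {p : W → X.pt} (hp : HolTo n X p) (hG : GPrj n X p)
    {V : Set X.pt} (hV : IsOpen V) {x : X.pt} (hx : x ∈ V) :
    ∃ (N : ℕ) (V₀ : Set X.pt) (Ω : Set (Cm N)) (ψ : X.pt → Cm N), IsOpen V₀ ∧ x ∈ V₀ ∧ V₀ ⊆ V ∧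
      InjOn ψ V₀ ∧ MapsTo ψ V₀ Ω ∧ (∀ x ∈ V₀, ∀ a, X.Hol (fun x => ψ x a) x) ∧
      Prp n (p ⁻¹' V₀) (fun w => ψ (p w)) Ω ∧ Prj n (p ⁻¹' V₀) fun w => ψ (p w) := by
  obtain ⟨N, k, V₁, Ω, h, ψ, hx₁, hM, r, D, ν, hE⟩ := hG x
  obtain ⟨Ω₁, h1, h2⟩ := hM.emb.isInducing.isOpen_iff.1 (hV.preimage continuous_subtype_val)
  have h3 : ∀ x ∈ V₁, ψ x ∈ Ω₁ ↔ x ∈ V := fun x hx => Set.ext_iff.1 h2 ⟨x, hx⟩
  have h4 : ∀ x ∈ V₁, ψ x ∈ Ω := fun x hx => (hM.image.subset ⟨x, hx, rfl⟩).1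
  have h5 : ∀ x ∈ V₁, ∀ a, X.Hol (fun x => ψ x a) x := fun x hx a =>
    (hM.hol x hx _).2 ⟨fun z => z a, analyticAt_pi_iff.1 analyticAt_id a, EventuallyEq.rfl⟩
  have hO : IsOpen (p ⁻¹' (V₁ ∩ V)) := (hM.isOpen.inter hV).preimage hp.cont
  refine ⟨N, V₁ ∩ V, Ω ∩ Ω₁, ψ, hM.isOpen.inter hV, ⟨hx₁, hx⟩, inter_subset_right,
    hM.injOn.mono inter_subset_left, fun x hx => ⟨h4 x hx.1, (h3 x hx.1).2 hx.2⟩,
    fun x hx => h5 x hx.1, ⟨hO, hM.isOpen'.inter h1, fun w hw a => hp.hol w _ (h5 _ hw.1 a),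
      fun w hw => ⟨h4 _ hw.1, (h3 _ hw.1).2 hw.2⟩, fun K hK hK' => ?_⟩,
    r, fun m => D m ∩ p ⁻¹' (V₁ ∩ V), ν, ⟨⟨fun m => (hE.isOpen m).inter hO, fun w => ⟨fun hw => ?_,
      fun ⟨m, hm⟩ => hm.2⟩, fun m w hw => hE.hol m w hw.1, fun m w hw => hE.one m w hw.1,
      fun m l w hw => ⟨fun h => (hE.mem m l w hw.1).1 h.1, fun h => ⟨(hE.mem m l w hw.1).2 h, hw.2⟩⟩,
      fun m l w hw hw' => hE.chg m l w hw.1 hw'.1⟩, fun m w hw w' hw' => hE.inj m w hw.1 w' hw'.1,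
      fun m w hw => hE.imm m w hw.1⟩⟩
  · have h6 : IsCompact (K ∩ (fun z i => h i z) ⁻¹' {0}) :=
      hK'.of_isClosed_subset (ContinuousOn.preimage_isClosed_of_isClosed
        (fun z hz => (continuousAt_pi.2 fun i =>
          (hM.holo i z (hK hz).1).continuousAt).continuousWithinAt) hK'.isClosed isClosed_singleton)
        inter_subset_left
    have h7 := ((hM.emb.isInducing.isCompact_preimage_iff (fun z hz => by
      obtain ⟨x, hx, rfl⟩ := hM.image.superset ⟨(hK hz.1).1, congrFun hz.2⟩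
      exact ⟨⟨x, hx⟩, rfl⟩)).2 h6).image continuous_subtype_val
    have h8 : p ⁻¹' (V₁ ∩ V) ∩ (fun w => ψ (p w)) ⁻¹' K = p ⁻¹' ((↑) ''
        (V₁.domRestrict ψ ⁻¹' (K ∩ (fun z i => h i z) ⁻¹' {0}))) := by
      ext w
      refine ⟨fun hw => ⟨⟨_, hw.1.1⟩, ⟨hw.2, funext (hM.image.subset ⟨_, hw.1.1, rfl⟩).2⟩, rfl⟩, ?_⟩
      rintro ⟨⟨x, hx⟩, h9, h10⟩
      obtain rfl : x = p w := h10
      exact ⟨⟨hx, (h3 _ hx).1 (hK h9.1).2⟩, h9.1⟩
    rw [h8]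
    exact (h7.isClosed.preimage hp.cont).isCompact
  · obtain ⟨m, hm⟩ := (hE.cover w).1 hw.1
    exact ⟨m, hm, hw⟩

/-- the map to the projective space which is defined by sections without common zeros -/
theorem pmap {Y : CSp} {φ : W → Y.pt} (hφ : HolTo n Y φ) {L : Bd Y.pt} (hL : IsLBx Y L)
    {V : Set Y.pt} (hV : IsOpen V) {τ : Fin (r + 1) → L.ι → Y.pt → ℂ}
    (hτ : ∀ l, IsSecx Y V L (τ l)) (h0 : ∀ y i, y ∈ V → y ∈ L.U i → ∃ l, τ l i y ≠ 0) :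
    ∃ (D : Fin (r + 1) → Set W) (ν : Fin (r + 1) → W → Cm (r + 1)), PMap n (φ ⁻¹' V) D ν ∧
      ∀ w i, φ w ∈ V → φ w ∈ L.U i → ∀ m, (w ∈ D m ↔ τ m i (φ w) ≠ 0) ∧
        ∀ l, ν m w l = τ l i (φ w) / τ m i (φ w) := by
  choose ι hι using hL.cover
  let D : Fin (r + 1) → Set W := fun m => {w | φ w ∈ V ∧ τ m (ι (φ w)) (φ w) ≠ 0}
  let ν : Fin (r + 1) → W → Cm (r + 1) := fun m w l => τ l (ι (φ w)) (φ w) / τ m (ι (φ w)) (φ w)
  have h1 : ∀ w i, φ w ∈ V → φ w ∈ L.U i → ∀ m, (w ∈ D m ↔ τ m i (φ w) ≠ 0) ∧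
      ∀ l, ν m w l = τ l i (φ w) / τ m i (φ w) := fun w i hw hi m => by
    have h2 := hL.ne_zero i _ _ hi (hι (φ w))
    refine ⟨?_, fun l => ?_⟩
    · rw [(hτ m).change i _ _ hw hi (hι _), mul_ne_zero_iff]
      exact ⟨fun h => ⟨h2, h.2⟩, fun h => ⟨hw, h.2⟩⟩
    · rw [(hτ m).change i _ _ hw hi (hι _), (hτ l).change i _ _ hw hi (hι _),
        mul_div_mul_left _ _ h2]
  have h2 : ∀ w, φ w ∈ V → ∀ᶠ w' in 𝓝 w, φ w' ∈ V ∧ φ w' ∈ L.U (ι (φ w)) := fun w hw =>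
    hφ.cont.continuousAt.eventually ((hV.inter (hL.isOpen _)).mem_nhds ⟨hw, hι _⟩)
  have h3 : ∀ w, φ w ∈ V → ∀ l, HolF n (fun w' => τ l (ι (φ w)) (φ w')) w := fun w hw l =>
    hφ.hol w _ ((hτ l).holo _ _ hw (hι _))
  refine ⟨D, ν, ⟨fun m => isOpen_iff_mem_nhds.2 fun w hw => ?_, fun w => ⟨fun hw => ?_,
    fun ⟨m, hm⟩ => hm.1⟩, fun m w hw l => ?_, fun m w hw => div_self hw.2, fun m l w hw => ?_,
    fun m l w hw hw' => ?_⟩, h1⟩
  · filter_upwards [h2 w hw.1, (holF_cont (h3 w hw.1 m)).eventually_ne hw.2] with w' h4 h5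
    exact (h1 w' _ h4.1 h4.2 m).1.2 h5
  · obtain ⟨l, hl⟩ := h0 _ _ hw (hι _)
    exact ⟨l, hw, hl⟩
  · refine ((h3 w hw.1 l).mul ((holSys n).inv (h3 w hw.1 m) hw.2)).congr ?_
    filter_upwards [h2 w hw.1] with w' h4
    rw [(h1 w' _ h4.1 h4.2 m).2 l, div_eq_mul_inv]
  · exact ⟨fun h => div_ne_zero h.2 hw.2, fun h => ⟨hw.1, (div_ne_zero_iff.1 h).1⟩⟩
  · funext j
    have := hw'.2
    simp only [ν, Pi.smul_apply, smul_eq_mul]
    field_simp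

theorem lb_pow {Y : CSp} {L : Bd Y.pt} (hL : IsLBx Y L) (d : ℕ) : IsLBx Y (L.pow d) where
  isOpen := hL.isOpen
  cover := hL.cover
  holo i j x hi hj := hol_pow (hL.holo i j x hi hj) d
  ne_zero i j x hi hj := pow_ne_zero d (hL.ne_zero i j x hi hj)
  cocycle i j k x hi hj hk := by
    show L.g i j x ^ d * L.g j k x ^ d = L.g i k x ^ d
    rw [← hL.cocycle i j k x hi hj hk, mul_pow]

/-- the section of `L ^ d` which is defined by a section of `O(d)` -/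
theorem desc {Y : CSp} {φ : W → Y.pt} (hφ : HolTo n Y φ) {L : Bd Y.pt} (hL : IsLBx Y L)
    {V V' : Set Y.pt} (hV' : IsOpen V') (hVV : V' ⊆ V) {τ : Fin (r + 1) → L.ι → Y.pt → ℂ}
    (hτ : ∀ l, IsSecx Y V L (τ l)) (hP : PMap n (φ ⁻¹' V) D ν)
    (hD : ∀ w i, φ w ∈ V → φ w ∈ L.U i → ∀ m, (w ∈ D m ↔ τ m i (φ w) ≠ 0) ∧
      ∀ l, ν m w l = τ l i (φ w) / τ m i (φ w))
    (h7 : ∀ (L : Bd Y.pt) (V : Set Y.pt) (s : L.ι → W → ℂ), IsLBx Y L → IsOpen V →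
      (∀ w, φ w ∈ V → ScAt (HolF n) (pull φ L) s w) →
      ∃ s', IsSecx Y V L s' ∧ ∀ i w, φ w ∈ V → φ w ∈ L.U i → s i w = s' i (φ w))
    {d : ℕ} {g : Fin (r + 1) → Unit → W → ℂ}
    (hg : ∀ w, φ w ∈ V' → SecD n (triv W) D ν d g w) :
    ∃ G : L.ι → Y.pt → ℂ, IsSecx Y V' (L.pow d) G ∧ ∀ w i m, φ w ∈ V' → φ w ∈ L.U i → w ∈ D m →
      G i (φ w) = g m () w * τ m i (φ w) ^ d := by
  have h0 : ∀ w, ∃ m, φ w ∈ V → w ∈ D m := fun w => by
    by_cases hw : φ w ∈ V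
    · obtain ⟨m, hm⟩ := (hP.cover w).1 hw
      exact ⟨m, fun _ => hm⟩
    · exact ⟨0, fun h => (hw h).elim⟩
  choose μ hμ using h0
  have h1 : ∀ w i m, φ w ∈ V' → φ w ∈ L.U i → w ∈ D m →
      g (μ w) () w * τ (μ w) i (φ w) ^ d = g m () w * τ m i (φ w) ^ d := fun w i m hw hi hm => by
    have h2 := hD w i (hVV hw) hi (μ w)
    have h3 := h2.1.1 (hμ w (hVV hw))
    rw [(hg w hw m hm).2 _ (hμ w (hVV hw)) () trivial, h2.2 m, div_pow]
    field_simp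
  obtain ⟨G, hG, h2⟩ := h7 (L.pow d) V' (fun i w => g (μ w) () w * τ (μ w) i (φ w) ^ d)
    (lb_pow hL d) hV' fun w hw i hi => ⟨by
      have hm := hμ w (hVV hw)
      refine ((((hg w hw _ hm).1 () trivial).1).mul
        (holF_pow (hφ.hol w _ ((hτ (μ w)).holo i _ (hVV hw) hi)) d)).congr ?_
      filter_upwards [hφ.cont.continuousAt.eventually ((hV'.inter (hL.isOpen i)).mem_nhds ⟨hw, hi⟩),
        (hP.isOpen _).mem_nhds hm] with w' h3 h4
      exact (h1 w' i _ h3.1 h3.2 h4).symm, fun j hj => by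
      show _ = L.g i j (φ w) ^ d * _
      simp only
      rw [(hτ (μ w)).change i j _ (hVV hw) hi hj]
      ring⟩
  exact ⟨G, hG, fun w i m hw hi hm => (h2 i w hw hi).symm.trans (h1 w i m hw hi hm)⟩

end man

/-- `AmpAt` with an arbitrary finite index type -/
theorem ampAt_of {X Z : CSp} {f : X.pt → Z.pt} {L : Bd X.pt} {z : Z.pt} {κ : Type} [Fintype κ]
    [Nonempty κ] {V : Set Z.pt} {k : ℕ} {s : κ → L.ι → X.pt → ℂ} (hV : IsOpen V) (hz : z ∈ V)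
    (hk : 1 ≤ k) (h1 : ∀ l, IsSecx X (f ⁻¹' V) (L.pow k) (s l))
    (h2 : ∀ x i, f x ∈ V → x ∈ L.U i → ∃ l, s l i x ≠ 0)
    (h3 : ∀ x x' i j, f x ∈ V → f x' = f x → x' ≠ x → x ∈ L.U i → x' ∈ L.U j →
      ∃ l m, s l i x * s m j x' ≠ s m i x * s l j x')
    (h4 : ∀ x i l, f x ∈ V → x ∈ L.U i → s l i x ≠ 0 → ∀ h, X.Hol h x →
      ∃ (M : ℕ) (g : Fin M → Z.pt → ℂ) (G : Cm M × (κ → ℂ) → ℂ), (∀ a, Z.Hol (g a) (f x)) ∧
        AnalyticAt ℂ G (fun a => g a (f x), fun m => s m i x / s l i x) ∧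
        h =ᶠ[𝓝 x] fun y => G (fun a => g a (f y), fun m => s m i y / s l i y)) :
    AmpAt X Z f L z := by
  obtain ⟨N, hN⟩ : ∃ N, Fintype.card κ = N + 1 := Nat.exists_eq_succ_of_ne_zero Fintype.card_ne_zero
  let e : κ ≃ Fin (N + 1) := Fintype.equivFinOfCardEq hN
  refine ⟨V, k, N, fun l => s (e.symm l), hV, hz, hk, fun l => h1 _, fun x i hx hi => ?_,
    fun x x' i j hx hx' hne hi hj => ?_, fun x i l hx hi hl h hh => ?_⟩
  · obtain ⟨l, hl⟩ := h2 x i hx hi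
    exact ⟨e l, by simpa using hl⟩
  · obtain ⟨l, m, hl⟩ := h3 x x' i j hx hx' hne hi hj
    exact ⟨e l, e m, by simpa using hl⟩
  · obtain ⟨M, g, G, h5, h6, h7⟩ := h4 x i _ hx hi hl h hh
    refine ⟨M, g, fun u => G (u.1, fun m => u.2 (e m)), h5, ?_, by simpa using h7⟩
    refine AnalyticAt.fun_comp (g := G) (f := fun u : Cm M × Cm (N + 1) => (u.1, fun m => u.2 (e m)))
      (by simpa using h6) (analyticAt_fst.prod (analyticAt_pi_iff.2 fun m => ?_))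
    exact analyticAt_pi_iff.1 analyticAt_snd (e m)

end Emb

open Emb in
/-- ROW EMB -/
theorem emb_of (hG : GEN) (hS : STB) : EMB := by
  intro n W _ _ _ _ _ X Y φ q L hφ hq hP hL V r τ hV hτ h0 hF x hx
  have := ChartedSpace.secondCountable_of_sigmaCompact (Cm (n + 1)) W
  obtain ⟨-, hS2, -, -, -, -, hS7⟩ := hS n W Y φ hφ
  have hqc : Continuous q := continuous_iff_continuousAt.2 fun y => (hq y).1
  have hp : HolTo (n + 1) X fun w => q (φ w) :=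
    ⟨hqc.comp hφ.cont, fun w g hg => hφ.hol w _ ((hq _).2 g hg)⟩
  obtain ⟨N, V₀, Ω, ψ, hV₀, hx₀, hVV, hinj, hmaps, hψ, hprp, hprj⟩ := small hp hP hV hx
  have hτ₀ : ∀ l, IsSecx Y (q ⁻¹' V₀) L (τ l) := fun l =>
    ⟨fun i y hy => (hτ l).holo i y (hVV hy), fun i j y hy => (hτ l).change i j y (hVV hy)⟩
  obtain ⟨D, ν, hPM, hD⟩ := pmap hφ.toHolTo hL (hV₀.preimage hqc) hτ₀
    fun y i hy => h0 y i (hVV hy)
  obtain ⟨U, Q, d, g, hU, hxU, -, hg, hgen⟩ := hG n W N _ _ Ω hprp hprj r D ν hPM (triv W)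
    ⟨fun _ => isOpen_univ, fun _ _ => ⟨(), trivial⟩, fun _ _ _ _ _ _ => HolF.const 1,
      fun _ _ _ _ _ _ => one_ne_zero, fun _ _ _ _ _ _ _ _ => one_mul _⟩ (ψ x) (hmaps hx₀)
  have hV' : IsOpen (V₀ ∩ ψ ⁻¹' U) := ContinuousOn.isOpen_inter_preimage (fun x hx =>
    (continuousAt_pi.2 fun a => hol_continuousAt (hψ x hx a)).continuousWithinAt) hV₀ hU
  choose G hG1 hG2 using fun a => desc hφ.toHolTo hL (hV'.preimage hqc) (fun _ h => h.1) hτ₀ hPM hD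
    hS7 fun w hw => hg a w hw.1 hw.2
  obtain ⟨k, hk⟩ : ∃ k, ∀ a, d a ≤ k := ⟨∑ a, d a, fun a =>
    Finset.single_le_sum (f := d) (fun _ _ => Nat.zero_le _) (Finset.mem_univ a)⟩
  have hG3 : ∀ a w i m, q (φ w) ∈ V₀ ∩ ψ ⁻¹' U → φ w ∈ L.U i → w ∈ D m →
      G a i (φ w) * τ m i (φ w) ^ (k + 1 - d a) = g a m () w * (τ m i (φ w) * τ m i (φ w) ^ k) := by
    intro a w i m hw hi hm
    rw [hG2 a w i m hw hi hm, mul_assoc, ← pow_add, Nat.add_sub_cancel' (Nat.le_succ_of_le (hk a)),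
      pow_succ']
  -- the fibres
  have hfib : ∀ w m, q (φ w) ∈ V₀ ∩ ψ ⁻¹' U → w ∈ D m → ∀ T : Set Y.pt, IsOpen T → φ w ∈ T →
      ∀ f : Y.pt → ℂ, (∀ y ∈ T, Y.Hol f y) →
      ∃ c : Fin Q → Cm N × Cm (r + 1) → ℂ, (∀ a, AnalyticAt ℂ (c a) (ψ (q (φ w)), ν m w)) ∧
        (∀ v, φ v = φ w → ∀ᶠ v' in 𝓝 v,
          f (φ v') = ∑ a, c a (ψ (q (φ v')), ν m v') * g a m () v') ∧
        ∀ v ∈ D m, q (φ v) = q (φ w) → ν m v = ν m w → φ v ∉ T →
          ∑ a, c a (ψ (q (φ w)), ν m w) * g a m () v = 0 := by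
    intro w m hw hm T hT hwT f hf
    have h1 := isClosed_fib hPM (K := {v | q (φ v) = q (φ w)})
      (isClosed_eq hp.cont continuous_const) (fun v hv => by
        show q (φ v) ∈ V₀
        rw [show q (φ v) = q (φ w) from hv]
        exact hw.1) m (hPM.one m w hm)
    have h2 : {v | v ∈ {v | q (φ v) = q (φ w)} ∧ v ∈ D m ∧ ν m v = ν m w} ⊆
        φ ⁻¹' Fib q L τ (φ w) := fun v hv => ⟨hv.1, fun l l' i j hi hj => by
      have h3 := hD w i hw.1 hi m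
      have h4 := hD v j ((hPM.cover v).2 ⟨m, hv.2.1⟩) hj m
      have h5 := h3.1.1 hm
      have h6 := h4.1.1 hv.2.1
      have h7 : ∀ l, τ l j (φ v) = τ l i (φ w) / τ m i (φ w) * τ m j (φ v) := fun l => by
        rw [← h3.2 l, ← hv.2.2, h4.2 l, div_mul_cancel₀ _ h6]
      rw [h7 l, h7 l']
      ring⟩
    obtain ⟨c, hc, h3, h4⟩ := key (g := fun a => g a m ()) holF_ev (hgen m _ hw.2 (ν m w))
      h1.isCompact
      (fun v => ⟨fun h => ⟨h.2.1, congrArg ψ h.1, h.2.2⟩, fun h =>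
        ⟨hinj ((hPM.cover v).2 ⟨m, h.1⟩) hw.1 h.2.1, h.1, h.2.2⟩⟩) (w := w) ⟨rfl, hm, rfl⟩
      (hT.preimage hφ.cont) (fun v hv => by
        show φ v ∈ T
        rw [hF w (hVV hw.1) v (connectedComponentIn_mono _ h2 hv)]
        exact hwT) (f := fun v => f (φ v)) fun v hv => hφ.hol v _ (hf _ hv)
    refine ⟨c, hc, fun v hv => h3 v ?_, fun v hv h5 h6 h7 => h4 v ⟨h5, hv, h6⟩ h7⟩
    refine (hS2 (φ w)).isPreconnected.subset_connectedComponentIn rfl (fun v' hv' => ?_) hv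
    have h5 : φ v' = φ w := hv'
    obtain ⟨i, hi⟩ := hL.cover (φ w)
    have h6 := hD w i hw.1 hi m
    have h7 := hD v' i (by rw [h5]; exact hw.1) (by rw [h5]; exact hi) m
    rw [h5] at h7
    exact ⟨congrArg q h5, h7.1.2 (h6.1.1 hm), funext fun l => (h7.2 l).trans (h6.2 l).symm⟩
  refine ampAt_of (κ := Fin (r + 1) × (Fin (r + 1) ⊕ Fin Q)) (k := k + 1)
    (s := fun u i y => u.2.elim (fun l => τ l i y * τ u.1 i y ^ k)
      fun a => G a i y * τ u.1 i y ^ (k + 1 - d a)) hV' ⟨hx₀, hxU⟩ (Nat.le_add_left _ _) ?_ ?_ ?_ ?_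
  · rintro ⟨m, l | a⟩
    · refine ⟨fun i y hy hi => hol_mul ((hτ₀ l).holo i y hy.1 hi)
        (hol_pow ((hτ₀ m).holo i y hy.1 hi) k), fun i j y hy hi hj => ?_⟩
      show τ l i y * τ m i y ^ k = L.g i j y ^ (k + 1) * (τ l j y * τ m j y ^ k)
      rw [(hτ₀ l).change i j y hy.1 hi hj, (hτ₀ m).change i j y hy.1 hi hj]
      ring
    · refine ⟨fun i y hy hi => hol_mul ((hG1 a).holo i y hy hi)
        (hol_pow ((hτ₀ m).holo i y hy.1 hi) _), fun i j y hy hi hj => ?_⟩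
      show G a i y * τ m i y ^ (k + 1 - d a) =
        L.g i j y ^ (k + 1) * (G a j y * τ m j y ^ (k + 1 - d a))
      have h1 : L.g i j y ^ (k + 1) = L.g i j y ^ d a * L.g i j y ^ (k + 1 - d a) := by
        rw [← pow_add, Nat.add_sub_cancel' (Nat.le_succ_of_le (hk a))]
      rw [(hG1 a).change i j y hy hi hj, (hτ₀ m).change i j y hy.1 hi hj, h1]
      show L.g i j y ^ d a * _ * _ = _
      ring
  · intro y i hy hi
    obtain ⟨l, hl⟩ := h0 y i (hVV hy.1) hi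
    exact ⟨(l, .inl l), mul_ne_zero hl (pow_ne_zero _ hl)⟩
  · intro y y' i j hy hy' hne hi hj
    obtain ⟨w, rfl⟩ := hφ.surj y
    obtain ⟨w', rfl⟩ := hφ.surj y'
    by_contra hcon
    push Not at hcon
    have hw' : q (φ w') ∈ V₀ ∩ ψ ⁻¹' U := by rw [hy']; exact hy
    obtain ⟨m, hm⟩ := h0 _ i (hVV hy.1) hi
    obtain ⟨l', hl'⟩ := h0 _ j (hVV hw'.1) hj
    have hm' : τ m j (φ w') ≠ 0 := fun h => by
      have h1 := hcon (m, .inl m) (l', .inl l')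
      simp only [Sum.elim_inl, h, zero_mul, mul_zero] at h1
      exact mul_ne_zero (mul_ne_zero hm (pow_ne_zero _ hm)) (mul_ne_zero hl' (pow_ne_zero _ hl')) h1
    have h1 := hD w i hy.1 hi m
    have h2 := hD w' j hw'.1 hj m
    have h3 : ν m w' = ν m w := funext fun l => by
      have h4 := hcon (m, .inl m) (m, .inl l)
      simp only [Sum.elim_inl] at h4
      rw [h1.2, h2.2, div_eq_div_iff hm' hm]
      refine mul_left_cancel₀ (mul_ne_zero (pow_ne_zero k hm) (pow_ne_zero k hm')) ?_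
      linear_combination h4
    have h4 : ∀ a, g a m () w' = g a m () w := fun a => by
      have h4 := hcon (m, .inl m) (m, .inr a)
      simp only [Sum.elim_inl, Sum.elim_inr] at h4
      rw [hG3 a w i m hy hi (h1.1.2 hm), hG3 a w' j m hw' hj (h2.1.2 hm')] at h4
      refine mul_left_cancel₀ (mul_ne_zero (mul_ne_zero hm (pow_ne_zero k hm))
        (mul_ne_zero hm' (pow_ne_zero k hm'))) ?_
      linear_combination h4
    obtain ⟨c, -, h5, h6⟩ := hfib w m hy (h1.1.2 hm) {φ w'}ᶜ isOpen_compl_singleton hne.symm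
      (fun _ => 1) fun y _ => hol_const 1 y
    have h7 := h6 w' (h2.1.2 hm') hy' h3 fun h => h rfl
    simp only [h4] at h7
    exact one_ne_zero ((h5 w rfl).self_of_nhds.trans h7)
  · intro y i u hy hi hu h hh
    obtain ⟨w, rfl⟩ := hφ.surj y
    obtain ⟨m, hm⟩ := h0 _ i (hVV hy.1) hi
    have h1 := hD w i hy.1 hi m
    obtain ⟨c, hc, h5, -⟩ := hfib w m hy (h1.1.2 hm) _ (isOpen_hol h) hh h fun y hy => hy
    let s : Fin (r + 1) × (Fin (r + 1) ⊕ Fin Q) → Y.pt → ℂ := fun u y =>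
      u.2.elim (fun l => τ l i y * τ u.1 i y ^ k) fun a => G a i y * τ u.1 i y ^ (k + 1 - d a)
    have hs : Y.Hol (s u) (φ w) := by
      rcases u with ⟨m', l | a⟩
      · exact hol_mul ((hτ₀ l).holo i _ hy.1 hi) (hol_pow ((hτ₀ m').holo i _ hy.1 hi) k)
      · exact hol_mul ((hG1 a).holo i _ hy hi) (hol_pow ((hτ₀ m').holo i _ hy.1 hi) _)
    have h2 : ∀ v, q (φ v) ∈ V₀ ∩ ψ ⁻¹' U → φ v ∈ L.U i → τ m i (φ v) ≠ 0 → s u (φ v) ≠ 0 →
        (fun l => s (m, .inl l) (φ v) / s u (φ v) / (s (m, .inl m) (φ v) / s u (φ v))) = ν m v ∧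
        ∀ a, s (m, .inr a) (φ v) / s u (φ v) / (s (m, .inl m) (φ v) / s u (φ v)) = g a m () v := by
      intro v h6 h7 h8 h9
      have h10 := hD v i h6.1 h7 m
      refine ⟨funext fun l => ?_, fun a => ?_⟩
      · rw [div_div_div_cancel_right₀ h9, h10.2]
        exact mul_div_mul_right _ _ (pow_ne_zero k h8)
      · rw [div_div_div_cancel_right₀ h9]
        exact (div_eq_iff (mul_ne_zero h8 (pow_ne_zero k h8))).2 (hG3 a v i m h6 h7 (h10.1.2 h8))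
    have h3 : s (m, .inl m) (φ w) / s u (φ w) ≠ 0 :=
      div_ne_zero (mul_ne_zero hm (pow_ne_zero k hm)) hu
    have h4 : ∀ u', AnalyticAt ℂ (fun z : Cm N × (Fin (r + 1) × (Fin (r + 1) ⊕ Fin Q) → ℂ) =>
        z.2 u' / z.2 (m, .inl m)) (ψ (q (φ w)), fun u' => s u' (φ w) / s u (φ w)) := fun u' =>
      (analyticAt_pi_iff.1 analyticAt_snd u').fun_div (analyticAt_pi_iff.1 analyticAt_snd _) h3
    refine ⟨N, fun a x => ψ x a, fun z => ∑ a, c a (z.1, fun l => z.2 (m, .inl l) / z.2 (m, .inl m)) *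
      (z.2 (m, .inr a) / z.2 (m, .inl m)), hψ _ hy.1, Finset.analyticAt_fun_sum _ fun a _ =>
        AnalyticAt.fun_mul (AnalyticAt.fun_comp (g := c a) ?_
          (analyticAt_fst.prod (analyticAt_pi_iff.2 fun l => h4 _))) (h4 _), ?_⟩
    · have h6 := hc a
      rw [← (h2 w hy hi hm hu).1] at h6
      exact h6
    · filter_upwards [hφ.cont.isClosedMap.eventually_nhds_fiber (φ w) h5,
        hqc.continuousAt.eventually (hV'.mem_nhds hy), (hL.isOpen i).mem_nhds hi,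
        (hol_continuousAt ((hτ₀ m).holo i _ hy.1 hi)).eventually_ne hm,
        (hol_continuousAt hs).eventually_ne hu] with y' h6 h7 h8 h9 h10
      obtain ⟨v, rfl⟩ := hφ.surj y'
      obtain ⟨h11, h12⟩ := h2 v h7 h8 h9 h10
      rw [h6 v rfl, ← h11]
      exact Finset.sum_congr rfl fun a _ => by rw [← h12 a]

end Vale.Agent.P277Z.Pj
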