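import Vale.Agent.P277Z.Pj.GenA

/-!
# P277, block PROJ: generators along the fibres of `(t, ν)` (row GEN)
-/

open scoped Manifold ContDiff Topology
open Vale.Agent.P272.K Vale.Agent.P285.H281.FD Set Filter Metric
open Vale.Agent.P277.PH
open Vale.Agent.P277.HD (pull)
open Vale.Agent.P277Z.Coh

noncomputable section

namespace Vale.Agent.P277Z.Pj

namespace Gn

theorem an_append {X : Type} [NormedAddCommGroup X] [NormedSpace ℂ X] {N r : ℕ} {f : X → Cm N}
    {g : X → Cm r} {x : X} (hf : AnalyticAt ℂ f x) (hg : AnalyticAt ℂ g x) :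
    AnalyticAt ℂ (fun x => (Fin.append (f x) (g x) : Cm (N + r))) x :=
  analyticAt_pi_iff.2 fun i => by
    induction i using Fin.addCases with
    | left i => simpa only [Fin.append_left] using analyticAt_pi_iff.1 hf i
    | right i => simpa only [Fin.append_right] using analyticAt_pi_iff.1 hg i

theorem an_left {N r : ℕ} (z : Cm (N + r)) :
    AnalyticAt ℂ (fun z : Cm (N + r) => (fun i => z (Fin.castAdd r i) : Cm N)) z :=
  analyticAt_pi_iff.2 fun _ => analyticAt_pi_iff.1 analyticAt_id _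

theorem an_right {N r : ℕ} (z : Cm (N + r)) :
    AnalyticAt ℂ (fun z : Cm (N + r) => (fun i => z (Fin.natAdd N i) : Cm r)) z :=
  analyticAt_pi_iff.2 fun _ => analyticAt_pi_iff.1 analyticAt_id _

variable {n r N : ℕ} {W T : Type} [TopologicalSpace W] [ChartedSpace (Cm n) W]

theorem near_fib {O : Set W} {t : W → Cm N} {Ω : Set (Cm N)} (h : Prp n O t Ω) {y : Cm N}
    (hy : y ∈ Ω) {P : W → Prop} (hP : ∀ x ∈ O, t x = y → ∀ᶠ x' in 𝓝 x, P x') :
    (prpBase h).Near y P := by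
  obtain ⟨ρ, hρ, h1⟩ := nhds_basis_closedBall.mem_iff.1 (h.isOpen'.mem_nhds hy)
  exact Base.near_of_fibre (h.proper _ h1 (isCompact_closedBall y ρ)) inter_subset_left
    (mem_of_superset (closedBall_mem_nhds y hρ) fun y' hy' x hx e => ⟨hx, by
      rw [mem_preimage, show t x = y' from e]
      exact hy'⟩) hP

variable [TopologicalSpace T] [ChartedSpace (Cm (n + 1)) T] {D : Fin (r + 1) → Set W}
  {ν : Fin (r + 1) → W → Cm (r + 1)} {pr : T → W} {ζ : T → Cm (r + 1)}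
  {pt : Fin (r + 1) → W → ℂ → T} {u : T} {m : Fin (r + 1)} {w : W} {L : Bd W}

/-- a chart which contains `w` -/
def mm (D : Fin (r + 1) → Set W) (w : W) : Fin (r + 1) := Classical.epsilon fun m => w ∈ D m

theorem mm_mem (hT : Tot n D ν pr ζ pt) (u : T) : pr u ∈ D (mm D (pr u)) :=
  Classical.epsilon_spec (hT.mem u)

theorem zeta_eq (hT : Tot n D ν pr ζ pt) (hu : pr u ∈ D m) : ζ u = ζ u m • ν m (pr u) :=
  (congrArg ζ (hT.pt_eq m u hu)).symm.trans (hT.ζ_pt m _ hu _)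

/-- the contraction of the cone -/
def sc (D : Fin (r + 1) → Set W) (pr : T → W) (ζ : T → Cm (r + 1))
    (pt : Fin (r + 1) → W → ℂ → T) (u : T) : T :=
  pt (mm D (pr u)) (pr u) (ζ u (mm D (pr u)) / 2)

theorem pr_sc (hT : Tot n D ν pr ζ pt) (u : T) : pr (sc D pr ζ pt u) = pr u :=
  hT.pr_pt _ _ (mm_mem hT u) _

theorem zeta_sc (hT : Tot n D ν pr ζ pt) (u : T) : ζ (sc D pr ζ pt u) = (2⁻¹ : ℂ) • ζ u := by
  rw [sc, hT.ζ_pt _ _ (mm_mem hT u), div_eq_inv_mul, mul_smul, ← zeta_eq hT (mm_mem hT u)]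

theorem sc_pt (hT : Tot n D ν pr ζ pt) (hw : w ∈ D m) (c : ℂ) :
    sc D pr ζ pt (pt m w c) = pt m w (c / 2) :=
  hT.emb.injective (Prod.ext ((pr_sc hT _).trans ((hT.pr_pt m w hw _).trans
    (hT.pr_pt m w hw _).symm)) (by
      show ζ _ = ζ _
      rw [zeta_sc hT, hT.ζ_pt m w hw, hT.ζ_pt m w hw, div_eq_inv_mul, mul_smul]))

/-- the homogeneous section of degree `d` on the cone -/
def hs (D : Fin (r + 1) → Set W) (pr : T → W) (ζ : T → Cm (r + 1)) (d : ℕ)
    (g : Fin (r + 1) → L.ι → W → ℂ) (i : L.ι) (u : T) : ℂ :=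
  ζ u (mm D (pr u)) ^ d * g (mm D (pr u)) i (pr u)

theorem hs_eq (hT : Tot n D ν pr ζ pt) {d : ℕ} {g : Fin (r + 1) → L.ι → W → ℂ}
    (hg : SecD n L D ν d g (pr u)) (hu : pr u ∈ D m) {i : L.ι} (hi : pr u ∈ L.U i) :
    hs D pr ζ d g i u = ζ u m ^ d * g m i (pr u) := by
  rw [hs, (hg m hu).2 _ (mm_mem hT u) i hi, congrFun (zeta_eq hT (mm_mem hT u)) m, Pi.smul_apply,
    smul_eq_mul, mul_pow, mul_assoc]

end Gn

open Gn

/-- ROW GEN -/
theorem gen_of (h1 : TOT) (h2 : TOTH) (h3 : TOTP) (h4 : COHT) (h5 : SOLVE) : GEN := by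
  intro n W _ _ _ _ _ N O t Ω hP ⟨r', D', ν', hE⟩ r D ν hm L hL z hz
  rcases O.eq_empty_or_nonempty with rfl | hO
  · exact ⟨Ω, 0, Fin.elim0, Fin.elim0, hP.isOpen', hz, subset_rfl, fun a => a.elim0,
      fun m y _ η s _ => ⟨Fin.elim0, fun a => a.elim0, fun w hw =>
        ((hm.cover w).2 ⟨m, hw⟩).elim⟩⟩
  obtain ⟨T, _, _, _, _, _, pr, ζ, pt, hT⟩ := h1 n W O r D ν hm hO
  obtain ⟨a1, a2, -, a4, a5⟩ := h2 n W T r O D ν pr ζ pt hm hT
  obtain ⟨hC, b2, -⟩ := h3 n W T r O D ν pr ζ pt hm hT N t Ω hP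
  have hL' := a5 L hL
  have hprc : Continuous pr := continuous_fst.comp hT.emb.continuous
  have hprO : ∀ u, pr u ∈ O := fun u => (hm.cover _).2 (hT.mem u)
  have htc := (prpBase hP).cont
  set z₀ : Cm (N + (r + 1)) := Fin.append z 0 with hz₀
  have hcyl : ∀ y ∈ Ω, ∀ η, (Fin.append y η : Cm (N + (r + 1))) ∈ cyl Ω (r + 1) :=
    fun y hy η => by simpa [cyl] using hy
  have hFT := (h4 (n + 1) T _ univ _ _ hC ⟨r', _, _, b2 r' D' ν' hE⟩ (pull pr L)
    ⟨hL'.isOpen, fun x _ => hL'.cover x, fun i j x _ hi hj e he =>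
      (hL'.holo i j e x he hi hj).analyticAt, fun i j x _ => hL'.ne_zero i j x,
      fun i j k x _ => hL'.cocycle i j k x⟩ z₀ (hcyl z hz 0)).1
  have n1 : ∀ {P : W → Prop}, (prpBase hP).Near z P → (prpBase hC).Near z₀ fun u => P (pr u) :=
    fun h => by
      have c1 : Tendsto (fun y : Cm (N + (r + 1)) => (fun i => y (Fin.castAdd (r + 1) i) : Cm N))
          (𝓝 z₀) (𝓝 z) := by simpa [ContinuousAt, hz₀] using (an_left z₀).continuousAt
      refine (c1.eventually h).mono fun y hy u _ e => hy _ (hprO u) (funext fun i => ?_)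
      rw [← e]
      exact (Fin.append_left _ _ i).symm
  have n2 : ∀ {R : ℝ}, 0 < R → (prpBase hC).Near z₀ fun u => ‖ζ u‖ < R := fun {R} hR => by
    have c1 : Tendsto (fun y : Cm (N + (r + 1)) => (fun i => y (Fin.natAdd N i) : Cm (r + 1)))
        (𝓝 z₀) (𝓝 fun _ => 0) := by simpa [ContinuousAt, hz₀] using (an_right z₀).continuousAt
    refine (Base.near_base (c1.eventually (ball_mem_nhds 0 hR))).mono fun u _ h => ?_
    simpa [prpBase, cone] using h
  have n3 : ∀ {P : Cm (N + (r + 1)) → Prop}, (∀ᶠ y in 𝓝 z₀, P y) → ∃ U ∈ 𝓝 z, ∃ R : ℝ, 0 < R ∧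
      ∀ y ∈ U, ∀ η : Cm (r + 1), ‖η‖ < R → P (Fin.append y η) := fun h => by
    have c1 := (an_append (x := (z, (0 : Cm (r + 1)))) analyticAt_fst
      analyticAt_snd).continuousAt.eventually h
    rw [nhds_prod_eq] at c1
    obtain ⟨p, hp, q, hq, c2⟩ := eventually_prod_iff.1 c1
    obtain ⟨R, hR, c3⟩ := Metric.eventually_nhds_iff_ball.1 hq
    exact ⟨_, hp, R, hR, fun y hy η hη => c2 hy (c3 η (mem_ball_zero_iff.2 hη))⟩
  obtain ⟨s, e, he⟩ := hFT.fg
  obtain ⟨q, a, hG⟩ := nak he (fun a : {x : ℕ × (Fin (r + 1) → L.ι → W → ℂ) //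
      (prpBase hP).Near z (SecD (n + 1) L D ν x.1 x.2)} => hs (L := L) D pr ζ a.1.1 a.1.2)
    (fun a => (n1 a.2).nhds.mono fun u _ h i hi => by
      obtain ⟨m, hu⟩ := hT.mem u
      have h0 := h.self_of_nhds
      have h6 : HolF (n + 1 + 1) (fun u => ζ u m ^ a.1.1) u := fun e he => (a2 u m e he).pow _
      refine ⟨(h6.mul (a1 u _ ((h0 m hu).1 i hi).1)).congr ?_, fun j hj => ?_⟩
      · filter_upwards [h, hprc.continuousAt.eventually ((hm.isOpen m).mem_nhds hu),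
          (hL'.isOpen i).mem_nhds hi] with u' c1 c2 c3 using (hs_eq hT c1 c2 c3).symm
      · rw [hs_eq hT h0 hu hi, hs_eq hT h0 hu hj, ((h0 m hu).1 i hi).2 j hj]
        exact mul_left_comm _ _ _)
    (sc := sc D pr ζ pt) ((an_append (an_left z₀) ((an_right z₀).const_smul (c := (2⁻¹ : ℂ)))))
    (congrArg₂ Fin.append (funext fun i => by simp [hz₀]) (funext fun i => by simp [hz₀]))
    (fun u _ => ⟨trivial, by
      show cone t pr ζ _ = _
      simp [prpBase, cone, pr_sc hT, zeta_sc hT]⟩)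
    (fun i u hi => by
      show pr _ ∈ L.U i
      rwa [pr_sc hT])
    (fun v u hv i hi => by
      have c1 : ∀ i, u ∈ (pull pr L).U i → sc D pr ζ pt u ∈ (pull pr L).U i := fun i hi => by
        show pr _ ∈ L.U i
        rwa [pr_sc hT]
      obtain ⟨m, hu⟩ := hT.mem u
      refine ⟨?_, fun j hj => ((hv i (c1 i hi)).2 j (c1 j hj)).trans (by
        show L.g i j (pr _) * _ = L.g i j (pr u) * _
        rw [pr_sc hT])⟩
      have c2 := (hv i (c1 i hi)).1
      rw [← hT.pt_eq m u hu, sc_pt hT hu] at c2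
      rw [← hT.pt_eq m u hu]
      refine (a4 m _ hu _ fun u => v i (sc D pr ζ pt u)).2 fun e he => AnalyticAt.congr
        (AnalyticAt.fun_comp (f := fun p : Cm (n + 1) × ℂ => (p.1, p.2 / 2)) (x := (e (pr u), ζ u m))
        ((a4 m _ hu _ _).1 c2 e he)
        (analyticAt_fst.prod (analyticAt_snd.div analyticAt_const two_ne_zero))) ?_
      filter_upwards [(continuousAt_fst (p := (e (pr u), ζ u m))).eventually
        (ev_symm he.2 ((hm.isOpen m).mem_nhds hu))] with p hp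
      rw [sc_pt hT hp])
    (fun a => ⟨2⁻¹ ^ a.1.1, funext fun i => funext fun u => by
      show hs D pr ζ _ _ i _ = _ * hs D pr ζ _ _ i u
      simp [hs, pr_sc hT, zeta_sc hT, mul_pow, mul_assoc]⟩)
    fun f hf a => by
      obtain ⟨U, hU, R, hR, c1⟩ := n3 hf
      obtain ⟨U', hU', hUo, hzU⟩ := _root_.mem_nhds_iff.1 hU
      obtain ⟨V', R', v, q, g, d1, d2, -, d4, d5, d6, d7⟩ := h5 n W T r O D ν pr ζ pt hm hT L
        (O ∩ t ⁻¹' {z}) (O ∩ t ⁻¹' U') R hL (hP.proper _ (singleton_subset_iff.2 hz)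
          isCompact_singleton)
        (ContinuousOn.isOpen_inter_preimage (fun x hx => (htc x hx).continuousWithinAt)
          hP.isOpen hUo)
        (fun x hx => ⟨hx.1, by rw [mem_preimage, show t x = z from hx.2]; exact hzU⟩)
        inter_subset_left hR f a fun u hu hu' => c1 _ (hU' hu.2) _ hu' u trivial rfl
      have c2 : (prpBase hP).Near z fun w => w ∈ V' :=
        near_fib hP hz fun x hx e => d1.mem_nhds (d2 ⟨hx, e⟩)
      refine ⟨v, ((n1 c2).and (n2 d4)).mono fun u _ h => d5 u h.1 h.2,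
        ∑ d ∈ Finset.range q, hs (L := L) D pr ζ d (g d), Submodule.sum_mem _ fun d _ =>
          Submodule.subset_span ⟨⟨(d, g d), c2.mono fun w _ h => d6 d w h⟩, rfl⟩,
        ((n1 c2).and (n2 d4)).mono fun u _ h i hi => ?_⟩
      obtain ⟨m, hu⟩ := hT.mem u
      have c3 := d7 m i _ h.1 hu hi (ζ u m) (by rw [← zeta_eq hT hu]; exact h.2)
      rw [← sc_pt hT hu, hT.pt_eq m u hu] at c3
      exact c3.trans (congrArg _ ((Finset.sum_congr rfl fun d _ =>
        (hs_eq hT (d6 d _ h.1) hu hi).symm).trans ((congrFun (Finset.sum_apply (i : L.ι) _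
          fun d => hs (L := L) D pr ζ d (g d)) u).trans (Finset.sum_apply u _ _)).symm))
  obtain ⟨U, hU, R, hR, c1⟩ := n3 (hFT.gen_nhds hG)
  obtain ⟨U', hU', hUo, hzU⟩ := _root_.mem_nhds_iff.1 (inter_mem hU
    (inter_mem (hP.isOpen'.mem_nhds hz) (Base.near_all fun k => (a k).2)))
  have hsec : ∀ k, ∀ w ∈ O, t w ∈ U' → SecD (n + 1) L D ν (a k).1.1 (a k).1.2 w :=
    fun k w hw h => (hU' h).2.2 w hw rfl k
  refine ⟨U', q, fun k => (a k).1.1, fun k => (a k).1.2, hUo, hzU, fun y hy => (hU' hy).2.1, hsec,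
    fun m y hy η s hs => ?_⟩
  by_cases hη : η m = 1
  swap
  · exact ⟨fun _ _ => 0, fun _ => analyticAt_const, fun w hw _ h =>
      (hη (h ▸ hm.one m w hw)).elim⟩
  obtain ⟨l, hl0, hl⟩ : ∃ l : ℂ, l ≠ 0 ∧ ‖l • η‖ < R := by
    refine ⟨(R / (‖η‖ + 1) : ℝ), Complex.ofReal_ne_zero.2 (by positivity), ?_⟩
    rw [norm_smul, Complex.norm_real, Real.norm_of_nonneg (by positivity), div_mul_eq_mul_div,
      div_lt_iff₀ (by positivity)]
    linarith
  obtain ⟨c, hc, c2⟩ := ((Base.gen_img_iff _).1 (c1 y (hU' hy).1 _ hl)).2 (fun i u => s i (pr u))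
    (near_fib hC (hcyl y (hU' hy).2.1 _) fun u _ e => by
      have e1 : t (pr u) = y := funext fun i => by simpa [cone] using congrFun e (Fin.castAdd _ i)
      have e2 : ζ u = l • η := funext fun i => by simpa [cone] using congrFun e (Fin.natAdd _ i)
      have e3 : ζ u m = l := by simp [e2, hη]
      obtain ⟨m', hu⟩ := hT.mem u
      have e4 : pr u ∈ D m := (hm.mem m' m _ hu).2 fun h => hl0 (by
        rw [← e3, zeta_eq hT hu, Pi.smul_apply, h, smul_zero])
      have e5 := zeta_eq hT e4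
      rw [e3, e2] at e5
      filter_upwards [hprc.continuousAt.eventually
        (hs _ e4 e1 (smul_right_injective _ hl0 e5).symm)] with u' h i hi
        using ⟨a1 u' _ (h i hi).1, (h i hi).2⟩)
  have hA : AnalyticAt ℂ (fun p : Cm N × Cm (r + 1) =>
      (Fin.append p.1 (l • p.2) : Cm (N + (r + 1)))) (y, η) :=
    an_append analyticAt_fst (analyticAt_snd.const_smul (c := l))
  refine ⟨fun k p => c k (Fin.append p.1 (l • p.2)) * l ^ (a k).1.1, fun k =>
    (AnalyticAt.fun_comp (x := (y, η)) (f := fun p : Cm N × Cm (r + 1) =>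
      (Fin.append p.1 (l • p.2) : Cm (N + (r + 1)))) (hc k) hA).mul analyticAt_const,
    fun w hw e1 e2 => ?_⟩
  have hwO := (hm.cover w).2 ⟨m, hw⟩
  have c3 : Tendsto (fun w' => (t w', ν m w')) (𝓝 w) (𝓝 (y, η)) := by
    rw [← e1, ← e2]
    exact (htc w hwO).prodMk (continuousAt_pi.2 fun i => holF_cont (hm.hol m w hw i))
  filter_upwards [c3.eventually (hA.continuousAt.eventually c2), (hm.isOpen m).mem_nhds hw,
    (htc w hwO).eventually (hUo.mem_nhds (show t w ∈ U' from e1 ▸ hy))] with w' c4 c5 c6 i hi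
  have c7 := hT.pr_pt m w' c5 l
  have c8 := c4 (pt m w' l) trivial (by
    show cone t pr ζ _ = _
    rw [cone, c7, hT.ζ_pt m w' c5]) i (by
      show pr _ ∈ L.U i
      rwa [c7])
  rw [c7] at c8
  refine c8.trans (Finset.sum_congr rfl fun k _ => ?_)
  rw [hs_eq hT (m := m) (by rw [c7]; exact hsec k w' ((hm.cover w').2 ⟨m, c5⟩) c6)
    (by rwa [c7]) (by rwa [c7]), c7, hT.ζ_pt m w' c5, Pi.smul_apply, hm.one m w' c5, smul_eq_mul,
    mul_one, ← mul_assoc]
  show c k (cone t pr ζ _) * _ * _ = _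
  rw [cone, c7, hT.ζ_pt m w' c5]

end Vale.Agent.P277Z.Pj
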