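import Vale.Agent.P277Z.Pj.Sk

/-!
# P277, block PROJ: the components of a fibre are separated by finitely many functions
-/

open scoped Manifold ContDiff Topology
open Vale.Agent.P272.K Vale.Agent.P285.H281.FD Set Filter Metric
open Vale.Agent.P277 Vale.Agent.P277.PH
open Vale.Agent.P277Z.Coh (ScAt LBOn HolSys holSys)

noncomputable section

namespace Vale.Agent.P277Z.Pj.LocQ

section top

variable {W : Type} [TopologicalSpace W] [T2Space W]

theorem ext_zero {K L : Set W} (hK : IsCompact K) (hL : IsCompact L) (hd : Disjoint K L)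
    (h : W → ℂ) : ∃ h' : W → ℂ, (∀ x ∈ K, h' =ᶠ[𝓝 x] h) ∧ ∀ x ∈ L, h' =ᶠ[𝓝 x] fun _ => 0 := by
  obtain ⟨U, V, hU, hV, h1, h2, h3⟩ := SeparatedNhds.of_isCompact_isCompact hK hL hd
  refine ⟨U.indicator h, fun x hx => ?_, fun x hx => ?_⟩
  · filter_upwards [hU.mem_nhds (h1 hx)] with y hy using indicator_of_mem hy h
  · filter_upwards [hV.mem_nhds (h2 hx)] with y hy
      using indicator_of_notMem (disjoint_right.1 h3 hy) h

theorem exists_sep {Φ : Set W} (hΦ : IsCompact Φ) {w w' : W} (hw : w ∈ Φ) (hw' : w' ∈ Φ)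
    (h : w' ∉ connectedComponentIn Φ w) : ∃ K L : Set W, IsCompact K ∧ IsCompact L ∧
      Disjoint K L ∧ Φ ⊆ K ∪ L ∧ w ∈ K ∧ w' ∈ L := by
  have : CompactSpace Φ := isCompact_iff_compactSpace.1 hΦ
  rw [connectedComponentIn_eq_image hw, connectedComponent_eq_iInter_isClopen] at h
  have h1 : ¬ ∀ s : {s : Set Φ // IsClopen s ∧ (⟨w, hw⟩ : Φ) ∈ s}, (⟨w', hw'⟩ : Φ) ∈ s.1 :=
    fun k => h ⟨⟨w', hw'⟩, mem_iInter.2 k, rfl⟩
  obtain ⟨⟨s, hs, hs'⟩, h2⟩ := not_forall.1 h1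
  refine ⟨(↑) '' s, (↑) '' sᶜ, hs.isClosed.isCompact.image continuous_subtype_val,
    hs.compl.isClosed.isCompact.image continuous_subtype_val,
    (disjoint_image_iff Subtype.val_injective).2 disjoint_compl_right, fun x hx => ?_,
    ⟨_, hs', rfl⟩, ⟨_, h2, rfl⟩⟩
  by_cases k : (⟨x, hx⟩ : Φ) ∈ s
  · exact .inl ⟨_, k, rfl⟩
  · exact .inr ⟨_, k, rfl⟩

omit [TopologicalSpace W] [T2Space W] in
theorem finite_vals {Φ : Set W} {q : ℕ} {G : W → Cm q} {g : W → ℂ}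
    (h : ∀ k : ℕ, ∃ c : Fin q → ℂ, ∀ v ∈ Φ, g v ^ k = ∑ a, c a * G v a) : (g '' Φ).Finite := by
  choose c hc using h
  have h1 : ¬ LinearIndependent ℂ fun k : Fin (q + 1) => c k := fun k => by
    simpa using k.fintype_card_le_finrank
  obtain ⟨l, h2, i, hi⟩ := Fintype.not_linearIndependent_iff.1 h1
  set P : Polynomial ℂ := ∑ k : Fin (q + 1), Polynomial.monomial k (l k) with hP
  have h3 : P ≠ 0 := fun e => by
    have := congrArg (fun p => p.coeff i) e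
    simp only [hP, Polynomial.finsetSum_coeff, Polynomial.coeff_monomial, Fin.val_inj,
      Finset.sum_ite_eq', Finset.mem_univ, if_true, Polynomial.coeff_zero] at this
    exact hi this
  refine (Polynomial.finite_setOfPred_isRoot h3).subset ?_
  rintro _ ⟨v, hv, rfl⟩
  show P.eval (g v) = 0
  simp only [hP, Polynomial.eval_finsetSum, Polynomial.eval_monomial, hc _ v hv, Finset.mul_sum]
  rw [Finset.sum_comm]
  refine Finset.sum_eq_zero fun a _ => ?_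
  have := congrFun h2 a
  simp only [Finset.sum_apply, Pi.smul_apply, smul_eq_mul, Pi.zero_apply] at this
  simp only [← mul_assoc]
  rw [← Finset.sum_mul, this, zero_mul]

omit [T2Space W] in
theorem hol_pow {Hol : (W → ℂ) → W → Prop} (S : HolSys Hol) {f : W → ℂ} {x : W} (h : Hol f x)
    (k : ℕ) : Hol (fun y => f y ^ k) x := by
  induction k with
  | zero => simpa using S.const 1 x
  | succ k ih => simpa only [pow_succ] using S.mul ih h

/-- the component of a point in a compact fibre -/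
theorem comp_eq {Hol : (W → ℂ) → W → Prop} (S : HolSys Hol) {F : Type} [NormedAddCommGroup F]
    [NormedSpace ℂ F] {Φ : Set W} (hΦ : IsCompact Φ) {T : W → F} {y : F} (hT : ∀ v ∈ Φ, T v = y)
    {q : ℕ} {G : W → Cm q} (hG : ∀ v ∈ Φ, ∀ a, Hol (fun v => G v a) v)
    (H : ∀ h : W → ℂ, (∀ v ∈ Φ, Hol h v) → ∃ c : Fin q → F → ℂ, (∀ a, AnalyticAt ℂ (c a) y) ∧
      ∀ v ∈ Φ, ∀ᶠ v' in 𝓝 v, h v' = ∑ a, c a (T v') * G v' a) {w : W} (hw : w ∈ Φ) :
    connectedComponentIn Φ w = {v | v ∈ Φ ∧ G v = G w} ∧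
    ∀ h : W → ℂ, (∀ v ∈ Φ, G v = G w → Hol h v) → ∃ C : F × Cm q → ℂ, AnalyticAt ℂ C (y, G w) ∧
      ∀ v ∈ Φ, G v = G w → ∀ᶠ v' in 𝓝 v, h v' = C (T v', G v') := by
  have hc : ContinuousOn G Φ := fun v hv =>
    (continuousAt_pi.2 fun a => S.cont (hG v hv a)).continuousWithinAt
  have hfin : (G '' Φ).Finite := by
    refine (Finite.pi' fun a => finite_vals (Φ := Φ) (G := G) (g := fun v => G v a)
      fun k => ?_).subset ?_
    · obtain ⟨c, -, h2⟩ := H _ fun v hv => hol_pow S (hG v hv a) k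
      exact ⟨fun b => c b y, fun v hv => by rw [(h2 v hv).self_of_nhds, hT v hv]⟩
    · rintro _ ⟨v, hv, rfl⟩ a
      exact ⟨v, hv, rfl⟩
  refine ⟨subset_antisymm (fun v hv => ?_) fun v hv => ?_, fun h hh => ?_⟩
  · refine ⟨connectedComponentIn_subset _ _ hv, ?_⟩
    exact isPreconnected_connectedComponentIn.constant_of_mapsTo hfin.isDiscrete
      (hc.mono (connectedComponentIn_subset _ _))
      (fun x hx => mem_image_of_mem _ (connectedComponentIn_subset _ _ hx)) hv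
      (mem_connectedComponentIn hw)
  · by_contra k
    obtain ⟨K, L, h1, h2, h3, h4, h5, h6⟩ := exists_sep hΦ hw hv.1 k
    obtain ⟨h, h7, h8⟩ := ext_zero h1 h2 h3 fun _ => 1
    obtain ⟨c, -, h9⟩ := H h fun x hx => (h4 hx).elim
      (fun k => S.congr (h7 x k).symm (S.const 1 x)) fun k => S.congr (h8 x k).symm (S.const 0 x)
    have e1 := (h9 w hw).self_of_nhds
    have e2 := (h9 v hv.1).self_of_nhds
    rw [(h7 w h5).self_of_nhds, hT w hw] at e1
    rw [(h8 v h6).self_of_nhds, hT v hv.1, hv.2] at e2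
    exact one_ne_zero (e1.trans e2.symm)
  · have h1 : IsCompact (Φ ∩ G ⁻¹' {G w}) := hΦ.of_isClosed_subset
      (hc.preimage_isClosed_of_isClosed hΦ.isClosed isClosed_singleton) inter_subset_left
    have h2 : IsCompact (Φ ∩ G ⁻¹' (G '' Φ \ {G w})) := hΦ.of_isClosed_subset
      (hc.preimage_isClosed_of_isClosed hΦ.isClosed (hfin.subset sdiff_subset).isClosed)
      inter_subset_left
    obtain ⟨h', h3, h4⟩ := ext_zero h1 h2 (disjoint_left.2 fun x k1 k2 => k2.2.2 k1.2) h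
    obtain ⟨c, h5, h6⟩ := H h' fun x hx => by
      by_cases k : G x = G w
      · exact S.congr (h3 x ⟨hx, k⟩).symm (hh x hx k)
      · exact S.congr (h4 x ⟨hx, mem_image_of_mem _ hx, k⟩).symm (S.const 0 x)
    refine ⟨fun z => ∑ a, c a z.1 * z.2 a, Finset.analyticAt_fun_sum _ fun a _ =>
      ((h5 a).fun_comp (f := Prod.fst) analyticAt_fst).mul
        (((ContinuousLinearMap.proj (R := ℂ) (φ := fun _ : Fin q => ℂ) a).analyticAt _).fun_comp
          (f := Prod.snd) analyticAt_snd), fun v hv k => ?_⟩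
    filter_upwards [h6 v hv, h3 v ⟨hv, k⟩] with x k1 k2 using k2 ▸ k1

end top

variable {n : ℕ} {W : Type} [TopologicalSpace W] [ChartedSpace (Cm n) W]

theorem hol_near [IsManifold 𝓘(ℂ, Cm n) ω W] {h : W → ℂ} {x : W} (hh : HolF n h x) :
    ∀ᶠ y in 𝓝 x, HolF n h y := by
  have he : At (chartAt (Cm n) x) x := ⟨chart_mem_atlas _ x, mem_chart_source _ x⟩
  filter_upwards [((chartAt (Cm n) x).continuousAt he.2).eventually
    (hh _ he).eventually_analyticAt, (chartAt (Cm n) x).open_source.mem_nhds he.2] with y hy hy'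
  exact holF_of ⟨he.1, hy'⟩ hy

theorem hol_div {f g : W → ℂ} {x : W} (hf : HolF n f x) (hg : HolF n g x) (h : g x ≠ 0) :
    HolF n (fun y => f y / g y) x := fun e he =>
  (hf e he).fun_div (hg e he) (by rwa [e.left_inv he.2])

variable {O : Set W} {r : ℕ} {D : Fin (r + 1) → Set W} {ν : Fin (r + 1) → W → Cm (r + 1)}

theorem pmap_cont (h : PMap n O D ν) {m : Fin (r + 1)} {w : W} (hw : w ∈ D m) :
    ContinuousAt (ν m) w := continuousAt_pi.2 fun l => holF_cont (h.hol m w hw l)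

theorem pmap_cpt [T2Space W] (h : PMap n O D ν) {C : Set W} (hC : IsCompact C) (hCO : C ⊆ O)
    {K : Set (Cm (r + 1))} (hK : IsCompact K) (m : Fin (r + 1)) :
    IsCompact {x | x ∈ C ∧ x ∈ D m ∧ ν m x ∈ K} := by
  refine hC.of_isClosed_subset (isClosed_of_closure_subset fun x hx => ?_) fun x hx => hx.1
  have h1 : x ∈ C := hC.isClosed.closure_subset (closure_mono (fun x hx => hx.1) hx)
  obtain ⟨l, hl⟩ := (h.cover x).1 (hCO h1)
  obtain ⟨R, hR⟩ := hK.isBounded.exists_norm_le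
  have h2 := mem_closure_iff_frequently.1 hx
  have h3 : 1 ≤ ‖ν l x m‖ * R := by
    refine (isClosed_Ici (a := (1 : ℝ))).mem_of_frequently_of_tendsto (f := fun x => ‖ν l x m‖ * R)
      ((h2.and_eventually ((h.isOpen l).mem_nhds hl)).mono fun y hy => ?_)
      ((holF_cont (h.hol l x hl m)).norm.mul continuousAt_const)
    have e := congrFun (h.chg l m y hy.2 hy.1.2.1) l
    rw [h.one l y hy.2, Pi.smul_apply, smul_eq_mul] at e
    show 1 ≤ ‖ν l y m‖ * R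
    calc (1 : ℝ) = ‖ν l y m‖ * ‖ν m y l‖ := by rw [← norm_mul, ← e, norm_one]
      _ ≤ _ := mul_le_mul_of_nonneg_left ((norm_le_pi_norm _ l).trans (hR _ hy.1.2.2))
        (norm_nonneg _)
  have h4 : x ∈ D m := (h.mem l m x hl).2 fun e => by
    rw [e, norm_zero, zero_mul] at h3
    exact not_le.2 one_pos h3
  exact ⟨h1, h4, hK.isClosed.mem_of_frequently_of_tendsto (h2.mono fun y hy => hy.2.2)
    (pmap_cont h h4)⟩

theorem prj_mono {N : ℕ} {t : W → Cm N} (h : Prj n O t) {O' : Set W} (hO' : IsOpen O')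
    (hs : O' ⊆ O) : Prj n O' t := by
  obtain ⟨r, D, ν, h⟩ := h
  refine ⟨r, fun m => D m ∩ O', ν, ⟨fun m => (h.isOpen m).inter hO', fun w => ⟨fun k => ?_,
    fun ⟨_, k⟩ => k.2⟩, fun m w k => h.hol m w k.1, fun m w k => h.one m w k.1, fun m l w k => ?_,
    fun m l w k k' => h.chg m l w k.1 k'.1⟩, fun m w k w' k' => h.inj m w k.1 w' k'.1,
    fun m w k => h.imm m w k.1⟩
  · obtain ⟨m, hm⟩ := (h.cover w).1 (hs k)
    exact ⟨m, hm, k⟩
  · rw [← h.mem m l w k.1]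
    exact and_iff_left k.2

theorem exists_pmap {M : Bd W} (hM : IsLB n M) (hO : IsOpen O) {τ : Fin (r + 1) → M.ι → W → ℂ}
    (hτ : FreeOn n M O τ) : ∃ (D : Fin (r + 1) → Set W) (ν : Fin (r + 1) → W → Cm (r + 1)),
      PMap n O D ν ∧ ∀ m i, ∀ w ∈ O, w ∈ M.U i →
        (w ∈ D m ↔ τ m i w ≠ 0) ∧ ∀ l, ν m w l = τ l i w / τ m i w := by
  choose c hc using hM.cover
  set D : Fin (r + 1) → Set W := fun m => {w | w ∈ O ∧ τ m (c w) w ≠ 0} with hD
  set ν : Fin (r + 1) → W → Cm (r + 1) := fun m w l => τ l (c w) w / τ m (c w) w with hν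
  have key : ∀ m i, ∀ w ∈ O, w ∈ M.U i →
      (w ∈ D m ↔ τ m i w ≠ 0) ∧ ∀ l, ν m w l = τ l i w / τ m i w := fun m i w hw hi => by
    have h0 := hM.ne_zero i _ w hi (hc w)
    have h1 := fun l => (hτ.sec l w hw i hi).2 _ (hc w)
    refine ⟨?_, fun l => ?_⟩
    · rw [h1 m, mul_ne_zero_iff, and_iff_right h0]
      exact and_iff_right hw
    · rw [h1 l, h1 m, mul_div_mul_left _ _ h0]
  refine ⟨D, ν, ⟨fun m => isOpen_iff_mem_nhds.2 fun w hw => ?_, fun w => ⟨fun hw => ?_,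
    fun ⟨_, k⟩ => k.1⟩, fun m w hw l => ?_, fun m w hw => div_self hw.2, fun m l w hw => ?_,
    fun m l w hw hw' => funext fun k => ?_⟩, key⟩
  · filter_upwards [hO.mem_nhds hw.1, (hM.isOpen _).mem_nhds (hc w),
      (holF_cont (hτ.sec m w hw.1 _ (hc w)).1).eventually_ne hw.2] with y k1 k2 k3
      using (key m _ y k1 k2).1.2 k3
  · obtain ⟨l, hl⟩ := hτ.nz w hw _ (hc w)
    exact ⟨l, hw, hl⟩
  · refine (hol_div (hτ.sec l w hw.1 _ (hc w)).1 (hτ.sec m w hw.1 _ (hc w)).1 hw.2).congr ?_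
    filter_upwards [hO.mem_nhds hw.1, (hM.isOpen _).mem_nhds (hc w)] with y k1 k2
      using ((key m _ y k1 k2).2 l).symm
  · show w ∈ O ∧ _ ↔ _ / _ ≠ 0
    rw [div_ne_zero_iff, and_iff_left hw.2, and_iff_right hw.1]
  · have k1 : τ l (c w) w ≠ 0 := hw'.2
    have k2 : τ m (c w) w ≠ 0 := hw.2
    simp only [hν, Pi.smul_apply, smul_eq_mul]
    field_simp

theorem imm_of_comp {E F : Type} [NormedAddCommGroup E] [NormedSpace ℂ E] [NormedAddCommGroup F]
    [NormedSpace ℂ F] {g : W → E} {t : W → F} {Γ : F → E} {w : W} (hg : Imm n g w)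
    (ht : ∀ e : Chart n W, At e w → DifferentiableAt ℂ (fun z => t (e.symm z)) (e w))
    (hΓ : DifferentiableAt ℂ Γ (t w)) (h : ∀ᶠ v in 𝓝 w, g v = Γ (t v)) : Imm n t w := by
  intro e he v v' hv
  have h1 : (fun z => g (e.symm z)) =ᶠ[𝓝 (e w)] Γ ∘ fun z => t (e.symm z) :=
    (e.tendsto_symm he.2).eventually h
  refine hg e he ?_
  rw [h1.fderiv_eq, fderiv_comp _ (by rwa [e.left_inv he.2]) (ht e he),
    ContinuousLinearMap.comp_apply, ContinuousLinearMap.comp_apply, hv]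

theorem exists_model [T2Space W] [CompactSpace W] {X : CSp} {p : W → X.pt} (hp : HolTo n X p)
    (hP : GPrj n X p) {V : Set X.pt} (hV : IsOpen V) {x : X.pt} (hx : x ∈ V) :
    ∃ (N : ℕ) (V₁ : Set X.pt) (Ω : Set (Cm N)) (ψ : X.pt → Cm N), IsOpen V₁ ∧ x ∈ V₁ ∧ V₁ ⊆ V ∧
      InjOn ψ V₁ ∧ (∀ y ∈ V₁, ∀ f, X.Hol f y → ∃ g, AnalyticAt ℂ g (ψ y) ∧ f =ᶠ[𝓝 y] g ∘ ψ) ∧
      Prp n (p ⁻¹' V₁) (fun w => ψ (p w)) Ω ∧ Prj n (p ⁻¹' V₁) fun w => ψ (p w) := by
  obtain ⟨N, k, V₀, Ω₀, h, ψ, hx₀, M, hj⟩ := hP x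
  obtain ⟨Ω₁, h1, h2⟩ := M.emb.isInducing.isOpen_iff.1 (hV.preimage continuous_subtype_val)
  have h3 : ∀ y ∈ V₀, ψ y ∈ Ω₁ ↔ y ∈ V := fun y hy => Set.ext_iff.1 h2 ⟨y, hy⟩
  have h4 : ∀ y ∈ V₀, ψ y ∈ Ω₀ ∧ ∀ i, h i (ψ y) = 0 := fun y hy =>
    (Set.ext_iff.1 M.image _).1 (mem_image_of_mem ψ hy)
  have h5 : IsOpen (p ⁻¹' (V₀ ∩ V)) := (M.isOpen.inter hV).preimage hp.cont
  refine ⟨N, V₀ ∩ V, Ω₀ ∩ Ω₁, ψ, M.isOpen.inter hV, ⟨hx₀, hx⟩, inter_subset_right,
    fun a ha b hb e => congrArg Subtype.val (M.emb.injective (a₁ := ⟨a, ha.1⟩) (a₂ := ⟨b, hb.1⟩) e),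
    fun y hy f hf => (M.hol y hy.1 f).1 hf, ⟨h5, M.isOpen'.inter h1, fun w hw i => ?_,
      fun w hw => ⟨(h4 _ hw.1).1, (h3 _ hw.1).2 hw.2⟩, fun K hK hK' => ?_⟩,
    prj_mono hj h5 fun w hw => hw.1⟩
  · exact hp.hol w (fun y => ψ y i) ((M.hol _ hw.1 _).2 ⟨fun z => z i,
      (ContinuousLinearMap.proj (R := ℂ) (φ := fun _ : Fin N => ℂ) i).analyticAt _,
      Eventually.of_forall fun _ => rfl⟩)
  · have k1 : IsCompact (K ∩ (fun z i => h i z) ⁻¹' {0}) := hK'.of_isClosed_subset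
      (ContinuousOn.preimage_isClosed_of_isClosed (continuousOn_pi.2 fun i z hz =>
        (M.holo i z (hK hz).1).continuousAt.continuousWithinAt) hK'.isClosed isClosed_singleton)
      inter_subset_left
    have k2 := (M.emb.isInducing.isCompact_preimage' k1 fun z hz => by
      obtain ⟨y, hy, e⟩ := (Set.ext_iff.1 M.image z).2 ⟨(hK hz.1).1, fun i => congrFun hz.2 i⟩
      exact ⟨⟨y, hy⟩, e⟩).image continuous_subtype_val
    convert (k2.isClosed.preimage hp.cont).isCompact using 1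
    ext w
    refine ⟨fun k => ⟨⟨p w, k.1.1⟩, ⟨k.2, funext (h4 _ k.1.1).2⟩, rfl⟩, fun ⟨y, k, e⟩ => ?_⟩
    have k3 : ψ (p w) ∈ K := e ▸ (k.1 : ψ y ∈ K)
    have k4 : p w ∈ V₀ := e ▸ y.2
    exact ⟨⟨k4, (h3 _ k4).1 (hK k3).2⟩, k3⟩

end Vale.Agent.P277Z.Pj.LocQ
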