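import Vale.Agent.P277Z.Pj.Sk2
import Vale.Agent.P277Z.Pj.LocQA
import Vale.Agent.P277Z.Pj.Emb

/-!
# P277, block PROJ: generation at a point
-/

open scoped Manifold ContDiff Topology
open Vale.Agent.P272.K Vale.Agent.P285.H281.FD Set Filter Metric
open Vale.Agent.P277 Vale.Agent.P277.PH
open Vale.Agent.P277Z.Coh (ScAt LBOn HolSys holSys)

noncomputable section

namespace Vale.Agent.P277Z.Pj

open LocQ in
theorem genpt_of (hG : GEN) : GENPT := by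
  intro n W _ _ _ _ _ X p M N hp hP hM hN V r τ hV hτ w hw hs
  have : SecondCountableTopology W := ChartedSpace.secondCountable_of_sigmaCompact (Cm (n + 1)) W
  have hNh : ∀ i j x, x ∈ N.U i → x ∈ N.U j → HolF (n + 1) (N.g i j) x :=
    fun i j x hi hj e he => (hN.holo i j e x he hi hj).analyticAt
  obtain ⟨s, hs0, hs⟩ : ∃ s : N.ι → W → ℂ, NZ N s w ∧ ∀ v ∈ connectedComponentIn (Fib p M τ w) w,
      ∀ᶠ v' in 𝓝 v, ScAt (HolF (n + 1)) N s v' := by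
    refine hs.elim (fun h => ?_) id
    obtain ⟨i, hi⟩ := hN.cover w
    refine ⟨fun j v => N.g j i v, fun j hj => hN.ne_zero j i w hj hi, fun v hv => ?_⟩
    rw [h] at hv
    rw [(hv : v = w)]
    filter_upwards [(hN.isOpen i).mem_nhds hi] with v' hv' j hj
    exact ⟨hNh j i v' hj hv', fun k hk => (hN.cocycle j k i v' hj hk hv').symm⟩
  obtain ⟨N', V₁, Ω, ψ, hV₁, hx, hV₁V, hψ, -, hprp, hprj⟩ := exists_model hp hP hV hw
  set t : W → Cm N' := fun w => ψ (p w) with ht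
  have hτ₁ : FreeOn (n + 1) M (p ⁻¹' V₁) τ :=
    ⟨fun l w hw => hτ.sec l w (hV₁V hw), fun w hw => hτ.nz w (hV₁V hw)⟩
  obtain ⟨D, ν, hD, hν⟩ := exists_pmap hM hprp.isOpen hτ₁
  obtain ⟨U, q, d, g, hU, hzU, -, hg, H⟩ := hG n W N' _ t Ω hprp hprj r D ν hD N
    ⟨hN.isOpen, fun x _ => hN.cover x, fun i j x _ => hNh i j x, fun i j x _ => hN.ne_zero i j x,
      fun i j k x _ => hN.cocycle i j k x⟩ (t w) (hprp.maps hx)
  obtain ⟨m, hm⟩ := (hD.cover w).1 hx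
  have hDO : ∀ m, D m ⊆ p ⁻¹' V₁ := fun m w hw => (hD.cover w).2 ⟨m, hw⟩
  set Φ : Set W := {x | x ∈ p ⁻¹' V₁ ∩ t ⁻¹' {t w} ∧ x ∈ D m ∧ ν m x ∈ ({ν m w} : Set _)} with hΦ
  have hΦc : IsCompact Φ := pmap_cpt hD (hprp.proper _ (singleton_subset_iff.2 (hprp.maps hx))
    isCompact_singleton) inter_subset_left isCompact_singleton m
  have hwΦ : w ∈ Φ := ⟨⟨hx, rfl⟩, hm, rfl⟩
  have hFib : Φ ⊆ Fib p M τ w := fun x k => ⟨hψ k.1.1 hx k.1.2, fun l l' i j hi hj => by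
    have k3 := (hν m j x k.1.1 hj).1.1 k.2.1
    have k4 : ∀ a, τ a j x = τ a i w / τ m i w * τ m j x := fun a => by
      rw [← (hν m i w hx hi).2, ← (k.2.2 : ν m x = ν m w), (hν m j x k.1.1 hj).2,
        div_mul_cancel₀ _ k3]
    rw [k4 l, k4 l']
    ring⟩
  obtain ⟨A, B, hA, hB, hAB, h1, h2, h3⟩ := Emb.exists_part hΦc hwΦ
    (isOpen_setOfPred_eventually_nhds (p := fun v => ScAt (HolF (n + 1)) N s v))
    fun v hv => hs v (connectedComponentIn_mono w hFib hv)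
  obtain ⟨c, -, h5⟩ := H m (t w) hzU (ν m w) (fun i => A.indicator (s i)) fun v k1 k2 k3 => by
    rcases h1 (⟨⟨hDO m k1, k2⟩, k1, k3⟩ : v ∈ Φ) with h | h
    · filter_upwards [hA.mem_nhds h] with v' hv' i hi
      have k := (h2 hv').self_of_nhds i hi
      refine ⟨k.1.congr ?_, fun j hj => ?_⟩
      · filter_upwards [hA.mem_nhds hv'] with y hy using (indicator_of_mem hy _).symm
      · simp only [indicator_of_mem hv', k.2 j hj]
    · filter_upwards [hB.mem_nhds h] with v' hv' i _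
      refine ⟨(HolF.const 0).congr ?_, fun j _ => ?_⟩
      · filter_upwards [hB.mem_nhds hv'] with y hy
          using (indicator_of_notMem (disjoint_right.1 hAB hy) _).symm
      · simp only [indicator_of_notMem (disjoint_right.1 hAB hv'), mul_zero]
  obtain ⟨i₀, hi₀⟩ := hN.cover w
  obtain ⟨a, ha⟩ : ∃ a, g a m i₀ w ≠ 0 := by
    by_contra! h
    have k := (h5 w hm rfl rfl).self_of_nhds i₀ hi₀
    rw [indicator_of_mem (h3 (mem_connectedComponentIn hwΦ))] at k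
    exact hs0 i₀ hi₀ (by simpa [h] using k)
  choose! ix hix using fun v (hv : v ∈ p ⁻¹' V₁) => (hD.cover v).1 hv
  have key : ∀ l i j v, v ∈ D l → t v ∈ U → v ∈ N.U i → v ∈ M.U j →
      g a (ix v) i v * τ (ix v) j v ^ d a = g a l i v * τ l j v ^ d a := by
    intro l i j v k1 k2 k3 k4
    have k5 := hDO l k1
    rw [(hg a v k5 k2 l k1).2 _ (hix v k5) i k3, (hν _ j v k5 k4).2, mul_right_comm, ← mul_pow,
      div_mul_cancel₀ _ ((hν _ j v k5 k4).1.1 (hix v k5)), mul_comm]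
  have hcl : IsClosed (p '' (p ⁻¹' V₁ ∩ t ⁻¹' U)ᶜ) :=
    ((ContinuousOn.isOpen_inter_preimage (fun v hv => (continuousAt_pi.2 fun i =>
      holF_cont (hprp.hol v hv i)).continuousWithinAt) hprp.isOpen
      hU).isClosed_compl.isCompact.image hp.cont).isClosed
  have hgs : ∀ v, p v ∈ (p '' (p ⁻¹' V₁ ∩ t ⁻¹' U)ᶜ)ᶜ → v ∈ p ⁻¹' V₁ ∩ t ⁻¹' U := fun v hv =>
    not_not.1 fun k => hv ⟨v, k, rfl⟩
  refine ⟨d a, _, fun i v => g a (ix v) i.1 v * τ (ix v) i.2 v ^ d a, hcl.isOpen_compl, ?_,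
    fun v hv i hi => ⟨?_, fun j hj => ?_⟩, fun i hi => ?_⟩
  · rintro ⟨v, k, e⟩
    exact k ⟨show p v ∈ V₁ from e ▸ hx, show ψ (p v) ∈ U from e ▸ hzU⟩
  · have k := hgs v hv
    refine (((hg a v k.1 k.2 _ (hix v k.1)).1 _ hi.1).1.mul
      (Emb.holF_pow (hτ₁.sec (ix v) v k.1 _ hi.2).1 (d a))).congr ?_
    filter_upwards [(hD.isOpen _).mem_nhds (hix v k.1), (hN.isOpen _).mem_nhds hi.1,
      (hM.isOpen _).mem_nhds hi.2, (hcl.isOpen_compl.preimage hp.cont).mem_nhds hv]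
      with y k1 k2 k3 k4 using (key _ _ _ y k1 (hgs y k4).2 k2 k3).symm
  · have k := hgs v hv
    obtain ⟨i, i'⟩ := i
    obtain ⟨j, j'⟩ := j
    show g a (ix v) i v * τ (ix v) i' v ^ d a =
      N.g i j v * M.g i' j' v ^ d a * (g a (ix v) j v * τ (ix v) j' v ^ d a)
    rw [((hg a v k.1 k.2 _ (hix v k.1)).1 _ hi.1).2 _ hj.1, (hτ₁.sec (ix v) v k.1 _ hi.2).2 _ hj.2]
    ring
  · show g a (ix w) i.1 w * τ (ix w) i.2 w ^ d a ≠ 0
    rw [key m _ _ w hm hzU hi.1 hi.2, ((hg a w hx hzU m hm).1 _ hi.1).2 _ hi₀]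
    exact mul_ne_zero (mul_ne_zero (hN.ne_zero _ _ w hi.1 hi₀) ha)
      (pow_ne_zero _ ((hν m _ w hx hi.2).1.1 hm))

end Vale.Agent.P277Z.Pj
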