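import Vale.Agent.P277Z.Pj.Sk
import Vale.Agent.P277Z.Pj.Rem
import Vale.Agent.P277Z.Pj.Prj

/-!
# P277, block PROJ: the quotient space
-/

open Vale.Agent.P272.K Set Filter Topology
open Vale.Agent.P277 Vale.Agent.P277.PH

noncomputable section

namespace Vale.Agent.P277Z.Pj

namespace G44

variable {n N : ℕ} {W Y : Type} [TopologicalSpace W] [ChartedSpace (Cm n) W] [TopologicalSpace Y]
  {O : Set W} {t : W → Cm N} {Ω : Set (Cm N)} {φ : W → Y}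

theorem cont (h : Prp n O t Ω) {w : W} (hw : w ∈ O) : ContinuousAt t w :=
  continuousAt_pi.2 fun i => holF_cont (h.hol w hw i)

theorem tube (h : Prp n O t Ω) {z : Cm N} (hz : z ∈ Ω) {p : W → Prop}
    (hp : ∀ w ∈ O, t w = z → ∀ᶠ v in 𝓝 w, p v) : ∀ᶠ y in 𝓝 z, ∀ v ∈ O, t v = y → p v := by
  obtain ⟨r, hr, hB⟩ := Metric.nhds_basis_closedBall.mem_iff.1 (h.isOpen'.mem_nhds hz)
  have h1 := (((h.proper _ hB (isCompact_closedBall z r)).diff (isOpen_interior (s := {v | p v}))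
    ).image_of_continuousOn fun w hw => (cont h hw.1.1).continuousWithinAt).isClosed
  filter_upwards [Metric.closedBall_mem_nhds z hr, h1.isOpen_compl.mem_nhds fun ⟨w, a, b⟩ =>
    a.2 (mem_interior_iff_mem_nhds.2 (hp w a.1.1 b))] with y a b v c d
  exact by_contra fun k => b ⟨v, ⟨⟨c, show t v ∈ _ from d.symm ▸ a⟩, fun e => k (interior_subset e)⟩, d⟩

theorem isOpen_img (h : Prp n O t Ω) (hq : IsQuotientMap φ)
    (hφ : ∀ w ∈ O, ∀ v, φ v = φ w ↔ v ∈ O ∧ t v = t w) {U : Set (Cm N)} (hU : IsOpen U) :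
    IsOpen (φ '' (O ∩ t ⁻¹' U)) := by
  refine hq.isOpen_preimage.1 ?_
  convert ContinuousOn.isOpen_inter_preimage (fun w hw => (cont h hw).continuousWithinAt)
    h.isOpen hU using 1
  refine Subset.antisymm (fun v ⟨w, a, b⟩ => ?_) (subset_preimage_image _ _)
  obtain ⟨c, d⟩ := (hφ w a.1 v).1 b.symm
  exact ⟨c, show t v ∈ U from d ▸ a.2⟩

theorem near (h : Prp n O t Ω) (hq : IsQuotientMap φ)
    (hφ : ∀ w ∈ O, ∀ v, φ v = φ w ↔ v ∈ O ∧ t v = t w) {w : W} (hw : w ∈ O) {p : W → Prop}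
    (hp : ∀ v, φ v = φ w → ∀ᶠ u in 𝓝 v, p u) : ∀ᶠ y in 𝓝 (φ w), ∀ v, φ v = y → p v := by
  obtain ⟨U, a, b, c⟩ := eventually_nhds_iff.1
    (tube h (h.maps hw) fun v k l => hp v ((hφ w hw v).2 ⟨k, l⟩))
  filter_upwards [(isOpen_img h hq hφ b).mem_nhds ⟨w, ⟨hw, c⟩, rfl⟩] with y ⟨u, d, e⟩ v k
  obtain ⟨k1, k2⟩ := (hφ u d.1 v).1 (k.trans e.symm)
  exact a _ d.2 v k1 k2

theorem hol_iff (h : Prp n O t Ω) (hq : IsQuotientMap φ)
    (hφ : ∀ w ∈ O, ∀ v, φ v = φ w ↔ v ∈ O ∧ t v = t w) {ψ : Y → Cm N}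
    (hψ : ∀ w ∈ O, ψ (φ w) = t w) {w : W} (hw : w ∈ O)
    (hc : ∀ g : W → ℂ, (∀ v, φ v = φ w → HolF n g v) →
      ∃ c : Cm N → ℂ, AnalyticAt ℂ c (t w) ∧ ∀ v, φ v = φ w → ∀ᶠ u in 𝓝 v, g u = c (t u))
    (f : Y → ℂ) : (∀ v, φ v = φ w → HolF n (fun u => f (φ u)) v) ↔
      ∃ g : Cm N → ℂ, AnalyticAt ℂ g (ψ (φ w)) ∧ f =ᶠ[𝓝 (φ w)] g ∘ ψ := by
  rw [hψ w hw]
  refine ⟨fun k => ?_, fun ⟨g, a, b⟩ v k => ?_⟩
  · obtain ⟨c, a, b⟩ := hc _ k
    refine ⟨c, a, (near h hq hφ hw fun v e => (b v e).and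
      (h.isOpen.eventually_mem ((hφ w hw v).1 e).1)).mono fun y e => ?_⟩
    obtain ⟨v, rfl⟩ := hq.surjective y
    exact (e v rfl).1.trans (congrArg c (hψ v (e v rfl).2).symm)
  · obtain ⟨k1, k2⟩ := (hφ w hw v).1 k
    refine (holF_comp (h.hol v k1) (k2.symm ▸ a)).congr ?_
    filter_upwards [hq.continuous.continuousAt.eventually (k.symm ▸ b), h.isOpen.mem_nhds k1]
      with u c d
    exact (c.trans (congrArg g (hψ u d))).symm

theorem emb (h : Prp n O t Ω) (hq : IsQuotientMap φ)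
    (hφ : ∀ w ∈ O, ∀ v, φ v = φ w ↔ v ∈ O ∧ t v = t w) {ψ : Y → Cm N}
    (hψ : ∀ w ∈ O, ψ (φ w) = t w) {S : Set W} (hS : S ⊆ O) :
    IsEmbedding ((φ '' S).domRestrict ψ) := by
  refine ⟨isInducing_iff_nhds.2 ?_, ?_⟩
  · rintro ⟨_, w, hw, rfl⟩
    have e : (φ '' S).domRestrict ψ ⟨φ w, w, hw, rfl⟩ = t w := hψ w (hS hw)
    rw [e]
    refine le_antisymm (tendsto_iff_comap.1 fun U hU => ?_) fun A hA => ?_
    · refine continuousAt_subtype_val.eventually (p := fun y => ψ y ∈ U)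
        ((near h hq hφ (hS hw) (p := fun v => v ∈ O ∧ t v ∈ U) fun v k => ?_).mono fun y k => ?_)
      · obtain ⟨k1, k2⟩ := (hφ w (hS hw) v).1 k
        exact (h.isOpen.eventually_mem k1).and ((cont h k1).eventually_mem (k2.symm ▸ hU))
      · obtain ⟨v, rfl⟩ := hq.surjective y
        exact (hψ v (k v rfl).1).symm ▸ (k v rfl).2
    · obtain ⟨B, a, b⟩ := (mem_nhds_subtype _ _ _).1 hA
      refine ⟨_, tube h (h.maps (hS hw)) (p := fun v => φ v ∈ B) fun v k l =>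
        hq.continuous.continuousAt.eventually_mem (((hφ w (hS hw) v).2 ⟨k, l⟩).symm ▸ a), ?_⟩
      rintro ⟨_, v, hv, rfl⟩ k
      exact b (k v (hS hv) (hψ v (hS hv)).symm)
  · rintro ⟨_, v, hv, rfl⟩ ⟨_, w, hw, rfl⟩ e
    exact Subtype.ext ((hφ w (hS hw) v).2 ⟨hS hv,
      (hψ v (hS hv)).symm.trans (e.trans (hψ w (hS hw)))⟩)

end G44

open G44 in
theorem glueq : GLUEQ := by
  intro n W _ _ _ _ _ C H
  have : SecondCountableTopology W := ChartedSpace.secondCountable_of_sigmaCompact (Cm (n + 1)) W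
  choose O N t Ω h0 hG hC using H
  let φ : W → Quotient (Setoid.ker C) := Quotient.mk _
  have hq : IsQuotientMap φ := isQuotientMap_quotient_mk'
  have h1 : ∀ w v, φ v = φ w ↔ v ∈ C w := fun w v => by
    refine Quotient.eq.trans ⟨fun k : C v = C w => ?_, fun k => show C v = C w from ?_⟩
    · rw [← k, (hC v v (h0 v)).1]
      exact ⟨h0 v, rfl⟩
    · rw [(hC w w (h0 w)).1] at k ⊢
      rw [(hC w v k.1).1, k.2]
  have h2 : ∀ a, ∀ w ∈ O a, ∀ v, φ v = φ w ↔ v ∈ O a ∧ t a v = t a w := fun a w hw v => by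
    rw [h1, (hC a w hw).1]
    rfl
  have h3 : ∀ a, ∀ w ∈ O a, t a (φ w).out = t a w := fun a w hw =>
    ((h2 a w hw _).1 (Quotient.out_eq _)).2
  have h4 := fun a w (hw : w ∈ O a) => hol_iff (hG a).toPrp hq (h2 a)
    (ψ := fun y => t a y.out) (h3 a) hw fun g k => by
    simpa only [h1] using (hC a w hw).2 g fun v e => k v ((h1 w v).2 e)
  have h5 : ∀ w, IsCompact (φ ⁻¹' {φ w}) := fun w => by
    convert (hG w).proper _ (singleton_subset_iff.2 ((hG w).maps (h0 w))) isCompact_singleton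
      using 1
    exact Set.ext (h2 w w (h0 w))
  have : T2Space (Quotient (Setoid.ker C)) := t2Space_iff_disjoint_nhds.2 fun y y' e => by
    obtain ⟨w, rfl⟩ := hq.surjective y
    obtain ⟨w', rfl⟩ := hq.surjective y'
    obtain ⟨U, U', a, b, c, d, k⟩ := SeparatedNhds.of_isCompact_isCompact (h5 w) (h5 w')
      ((disjoint_singleton.2 e).preimage φ)
    refine disjoint_of_disjoint_of_mem (disjoint_left.2 fun y k1 k2 => ?_)
      (near (hG w).toPrp hq (h2 w) (h0 w) fun v e => a.eventually_mem (c e))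
      (near (hG w').toPrp hq (h2 w') (h0 w') fun v e => b.eventually_mem (d e))
    exact disjoint_left.1 k (k1 _ y.out_eq) (k2 _ y.out_eq)
  refine ⟨⟨Quotient (Setoid.ker C), fun f y => ∀ v, φ v = y → HolF (n + 1) (fun u => f (φ u)) v,
    fun y => ?_⟩, φ, ⟨⟨hq.continuous, fun w g k => k w rfl⟩, hq.surjective, fun y g k => ?_⟩, h1⟩
  · obtain ⟨a, rfl⟩ := hq.surjective y
    obtain ⟨m, h, b, c⟩ := rem_of br prj n W _ _ _ _ (hG a) _ ((hG a).maps (h0 a))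
    obtain ⟨U, d, e, k⟩ := eventually_nhds_iff.1
      (c.and (eventually_all.2 fun i => (b i).eventually_analyticAt))
    refine ⟨_, m, φ '' (O a ∩ t a ⁻¹' U), U, h, fun y => t a y.out, ⟨a, ⟨h0 a, k⟩, rfl⟩,
      isOpen_img (hG a).toPrp hq (h2 a) e, e, fun i z hz => (d z hz).2 i, ?_,
      emb (hG a).toPrp hq (h2 a) (ψ := fun y => t a y.out) (h3 a) inter_subset_left, ?_⟩
    · refine Subset.antisymm ?_ fun z hz => ?_
      · rintro _ ⟨_, ⟨w, hw, rfl⟩, rfl⟩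
        simp only [h3 a w hw.1]
        exact ⟨hw.2, (d _ hw.2).1.1 ⟨w, hw.1, rfl⟩⟩
      · obtain ⟨w, hw, rfl⟩ := (d z hz.1).1.2 hz.2
        exact ⟨_, ⟨w, ⟨hw, hz.1⟩, rfl⟩, h3 a w hw⟩
    · rintro _ ⟨w, hw, rfl⟩
      exact h4 a w hw.1
  · obtain ⟨a, rfl⟩ := hq.surjective y
    obtain ⟨c, b, d⟩ := (hC a a (h0 a)).2 g fun v e => k v ((h1 a v).2 e)
    refine ⟨fun y => c (t a y.out), (h4 a a (h0 a) _).2 ⟨c, (h3 a a (h0 a)).symm ▸ b, .rfl⟩,
      fun v e => ?_⟩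
    filter_upwards [d v ((h1 a v).1 e), (hG a).isOpen.mem_nhds ((h2 a a (h0 a) v).1 e).1]
      with u k1 k2
    exact k1.trans (congrArg c (h3 a u k2).symm)

end Vale.Agent.P277Z.Pj
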