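import Vale.Agent.P277Z.Pj.LocQA

/-!
# P277, block PROJ: the local models of the Stein factorisation
-/

open scoped Manifold ContDiff Topology
open Vale.Agent.P272.K Vale.Agent.P285.H281.FD Set Filter Metric
open Vale.Agent.P277 Vale.Agent.P277.PH
open Vale.Agent.P277Z.Coh (ScAt LBOn HolSys holSys)

noncomputable section

namespace Vale.Agent.P277Z.Pj

namespace LocQ

/-- the three blocks of coordinates -/
def spl (N r q : ℕ) (z : Cm (N + r + q)) : (Cm N × Cm r) × Cm q :=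
  ((fun i => z (Fin.castAdd q (Fin.castAdd r i)), fun i => z (Fin.castAdd q (Fin.natAdd N i))),
    fun i => z (Fin.natAdd (N + r) i))

theorem spl_an (N r q : ℕ) (z : Cm (N + r + q)) : AnalyticAt ℂ (spl N r q) z := by
  have h : ∀ j, AnalyticAt ℂ (fun z : Cm (N + r + q) => z j) z := fun j =>
    (ContinuousLinearMap.proj (R := ℂ) (φ := fun _ : Fin (N + r + q) => ℂ) j).analyticAt _
  exact ((analyticAt_pi_iff.2 fun _ => h _).prod (analyticAt_pi_iff.2 fun _ => h _)).prod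
    (analyticAt_pi_iff.2 fun _ => h _)

theorem spl_cont (N r q : ℕ) : Continuous (spl N r q) :=
  continuous_iff_continuousAt.2 fun z => (spl_an N r q z).continuousAt

theorem spl_app {N r q : ℕ} (a : Cm N) (b : Cm r) (c : Cm q) :
    spl N r q (Fin.append (Fin.append a b) c) = ((a, b), c) := by
  simp [spl]

theorem app_inj {N r q : ℕ} {a a' : Cm N} {b b' : Cm r} {c c' : Cm q} :
    (Fin.append (Fin.append a b) c : Cm (N + r + q)) = Fin.append (Fin.append a' b') c' ↔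
      (a = a' ∧ b = b') ∧ c = c' := by
  refine ⟨fun h => ?_, fun h => by rw [h.1.1, h.1.2, h.2]⟩
  have := congrArg (spl N r q) h
  simpa only [spl_app, Prod.mk.injEq] using this

variable {n : ℕ} {W : Type} [TopologicalSpace W] [T2Space W] [CompactSpace W]
  [ChartedSpace (Cm (n + 1)) W] [IsManifold 𝓘(ℂ, Cm (n + 1)) ω W]

theorem main (hG : GEN) {X : CSp} {p : W → X.pt} {M : Bd W} (hp : HolTo (n + 1) X p)
    (hP : GPrj (n + 1) X p) (hI : Dense {w | ImmTo (n + 1) X p w}) (hM : IsLB (n + 1) M)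
    {V : Set X.pt} {r : ℕ} {τ : Fin (r + 1) → M.ι → W → ℂ} (hV : IsOpen V)
    (hτ : FreeOn (n + 1) M (p ⁻¹' V) τ) {w₀ : W} (hw₀ : p w₀ ∈ V) :
    ∃ (O : Set W) (N : ℕ) (t : W → Cm N) (Ω : Set (Cm N)), w₀ ∈ O ∧ Gfin (n + 1) O t Ω ∧
      ∀ w ∈ O, Cls (n + 1) p M w = connectedComponentIn (Fib p M τ w) w ∧
        Cls (n + 1) p M w = {w' | w' ∈ O ∧ t w' = t w} ∧
        ∀ h : W → ℂ, (∀ w' ∈ Cls (n + 1) p M w, HolF (n + 1) h w') → ∃ c : Cm N → ℂ,
          AnalyticAt ℂ c (t w) ∧ ∀ w' ∈ Cls (n + 1) p M w, ∀ᶠ v in 𝓝 w', h v = c (t v) := by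
  have : SecondCountableTopology W := ChartedSpace.secondCountable_of_sigmaCompact (Cm (n + 1)) W
  obtain ⟨N, V₁, Ω, ψ, hV₁, hx, hV₁V, hψ, hmod, hprp, hprj⟩ := exists_model hp hP hV hw₀
  set t : W → Cm N := fun w => ψ (p w) with ht
  have hτ₁ : FreeOn (n + 1) M (p ⁻¹' V₁) τ :=
    ⟨fun l w hw => hτ.sec l w (hV₁V hw), fun w hw => hτ.nz w (hV₁V hw)⟩
  obtain ⟨D, ν, hD, hν⟩ := exists_pmap hM hprp.isOpen hτ₁
  obtain ⟨U, q, d, g, hU, hzU, hUΩ, hg, H⟩ := hG n W N _ t Ω hprp hprj r D ν hD (Coh.triv W)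
    ⟨fun _ => isOpen_univ, fun _ _ => ⟨(), trivial⟩, fun _ _ _ _ _ _ => HolF.const 1,
      fun _ _ _ _ _ _ => one_ne_zero, fun _ _ _ _ _ _ _ _ => one_mul 1⟩ (t w₀) (hprp.maps hx)
  obtain ⟨m, hm⟩ := (hD.cover w₀).1 hx
  have hDO : D m ⊆ p ⁻¹' V₁ := fun w hw => (hD.cover w).2 ⟨m, hw⟩
  set G : W → Cm q := fun w a => g a m () w with hGd
  set O : Set W := D m ∩ t ⁻¹' U with hO
  have htc : ∀ w ∈ p ⁻¹' V₁, ContinuousAt t w := fun w hw =>
    continuousAt_pi.2 fun i => holF_cont (hprp.hol w hw i)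
  have hOo : IsOpen O := ContinuousOn.isOpen_inter_preimage
    (fun w hw => (htc w (hDO hw)).continuousWithinAt) (hD.isOpen m) hU
  have hGh : ∀ w ∈ O, ∀ a, HolF (n + 1) (fun v => G v a) w := fun w hw a =>
    ((hg a w (hDO hw.1) hw.2 m hw.1).1 () trivial).1
  set t' : W → Cm (N + (r + 1) + q) := fun w => Fin.append (Fin.append (t w) (ν m w)) (G w)
    with ht'
  have hspl : ∀ w, spl N (r + 1) q (t' w) = ((t w, ν m w), G w) := fun w => spl_app _ _ _
  have hth : ∀ w ∈ O, ∀ i, HolF (n + 1) (fun w => t' w i) w := fun w hw i => by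
    induction i using Fin.addCases with
    | left i =>
      induction i using Fin.addCases with
      | left i => simpa only [ht', Fin.append_left] using hprp.hol w (hDO hw.1) i
      | right i => simpa only [ht', Fin.append_left, Fin.append_right] using hD.hol m w hw.1 i
    | right i => simpa only [ht', Fin.append_right] using hGh w hw i
  have hcpt : ∀ K₁ ⊆ U, IsCompact K₁ → ∀ K₂, IsCompact K₂ →
      IsCompact {x | x ∈ p ⁻¹' V₁ ∩ t ⁻¹' K₁ ∧ x ∈ D m ∧ ν m x ∈ K₂} := fun K₁ h1 h2 K₂ h3 =>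
    pmap_cpt hD (hprp.proper K₁ (h1.trans hUΩ) h2) inter_subset_left h3 m
  refine ⟨O, _, t', {z | (spl N (r + 1) q z).1.1 ∈ U}, ⟨hm, hzU⟩, ⟨⟨hOo,
    hU.preimage (spl_cont _ _ _).fst.fst, hth, fun w hw => ?_, fun K hK hK' => ?_⟩,
    fun w hw => ?_⟩, fun w hw => ?_⟩
  · show (spl N (r + 1) q (t' w)).1.1 ∈ U
    rw [hspl]
    exact hw.2
  · have h1 := hcpt _ (image_subset_iff.2 hK) (hK'.image (spl_cont N (r + 1) q).fst.fst) _
      (hK'.image (spl_cont N (r + 1) q).fst.snd)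
    have h2 : {x | x ∈ p ⁻¹' V₁ ∩ t ⁻¹' ((fun z => (spl N (r + 1) q z).1.1) '' K) ∧ x ∈ D m ∧
        ν m x ∈ (fun z => (spl N (r + 1) q z).1.2) '' K} ⊆ O := fun x hx =>
      ⟨hx.2.1, image_subset_iff.2 hK hx.1.2⟩
    have h3 := h1.of_isClosed_subset (ContinuousOn.preimage_isClosed_of_isClosed (f := t')
      (fun x hx => (continuousAt_pi.2 fun i => holF_cont (hth x (h2 hx) i)).continuousWithinAt)
      h1.isClosed hK'.isClosed) inter_subset_left
    convert h3 using 1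
    ext x
    exact ⟨fun k => ⟨⟨⟨hDO k.1.1, t' x, k.2, by simp only [hspl]⟩, k.1.1, t' x, k.2,
      by simp only [hspl]⟩, k.2⟩, fun k => ⟨h2 k.1, k.2⟩⟩
  · refine closure_mono (fun v hv => ?_) (hI.open_subset_closure_inter hOo hw)
    refine ⟨hv.1, ?_⟩
    obtain ⟨k, γ, h1, h2⟩ := hv.2
    choose Γ h3 h4 using fun a => hmod _ (hDO hv.1.1) _ (h1 a)
    refine imm_of_comp (Γ := fun z a => Γ a (spl N (r + 1) q z).1.1) h2 (fun e he =>
      (analyticAt_pi_iff.2 fun i => hth v hv.1 i e he).differentiableAt)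
      (differentiableAt_pi.2 fun a => ?_) ?_
    · refine DifferentiableAt.comp (g := Γ a) _ ?_ (spl_an _ _ _ _).differentiableAt.fst.fst
      rw [hspl]
      exact (h3 a).differentiableAt
    · refine (hp.cont.continuousAt.eventually (eventually_all.2 h4)).mono fun x hx => ?_
      funext a
      rw [hspl]
      exact hx a
  -- the fibre
  set Φ : Set W := {x | x ∈ p ⁻¹' V₁ ∩ t ⁻¹' {t w} ∧ x ∈ D m ∧ ν m x ∈ ({ν m w} : Set _)} with hΦ
  have hΦc : IsCompact Φ :=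
    hcpt _ (singleton_subset_iff.2 hw.2) isCompact_singleton _ isCompact_singleton
  have hΦO : Φ ⊆ O := fun x hx => ⟨hx.2.1, by
    have : t x = t w := hx.1.2
    rw [mem_preimage, this]
    exact hw.2⟩
  have hwΦ : w ∈ Φ := ⟨⟨hDO hw.1, rfl⟩, hw.1, rfl⟩
  have hwO := hDO hw.1
  have hpΦ : ∀ x ∈ Φ, p x = p w := fun x hx => hψ hx.1.1 hwO hx.1.2
  have hFib : Fib p M τ w = Φ := by
    ext x
    refine ⟨fun k => ?_, fun k => ⟨hpΦ x k, fun l l' i j hi hj => ?_⟩⟩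
    · have k1 : x ∈ p ⁻¹' V₁ := by
        rw [mem_preimage, k.1]
        exact hwO
      obtain ⟨i, hi⟩ := hM.cover w
      obtain ⟨j, hj⟩ := hM.cover x
      obtain ⟨l, hl⟩ := hτ₁.nz x k1 j hj
      have k2 := (hν m i w hwO hi).1.1 hw.1
      have k3 : τ m j x ≠ 0 := fun e => by
        have := k.2 l m i j hi hj
        rw [e, mul_zero] at this
        exact mul_ne_zero k2 hl this.symm
      refine ⟨⟨k1, congrArg ψ k.1⟩, (hν m j x k1 hj).1.2 k3, funext fun l' => ?_⟩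
      rw [(hν m j x k1 hj).2, (hν m i w hwO hi).2, div_eq_div_iff k3 k2, k.2 l' m i j hi hj,
        mul_comm]
    · have k2 := (hν m i w hwO hi).1.1 hw.1
      have k3 := (hν m j x k.1.1 hj).1.1 k.2.1
      have k4 : ∀ a, τ a j x = τ a i w / τ m i w * τ m j x := fun a => by
        rw [← (hν m i w hwO hi).2, ← (k.2.2 : ν m x = ν m w), (hν m j x k.1.1 hj).2,
          div_mul_cancel₀ _ k3]
      rw [k4 l, k4 l']
      ring
  obtain ⟨c1, c2⟩ := comp_eq (holSys (n + 1)) hΦc (T := fun v => (t v, ν m v)) (y := (t w, ν m w))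
    (fun v hv => Prod.ext hv.1.2 hv.2.2) (G := G) (fun v hv => hGh v (hΦO hv))
    (fun h hh => by
      obtain ⟨c, k1, k2⟩ := H m (t w) hw.2 (ν m w) (fun _ => h) fun v k1 k2 k3 =>
        (hol_near (hh v ⟨⟨hDO k1, k2⟩, k1, k3⟩)).mono fun v' k _ _ =>
          ⟨k, fun _ _ => (one_mul _).symm⟩
      exact ⟨c, k1, fun v hv => (k2 v hv.2.1 hv.1.2 hv.2.2).mono fun v' k => k () trivial⟩) hwΦ
  -- the germs of sections are proportional on the component
  have hger : ∀ s : Germ (n + 1) p M (p w), ∃ κ : ℂ, ∀ x ∈ Φ, G x = G w → ∀ j, x ∈ M.U j →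
      s.1 j x = κ * τ m j x := by
    intro s
    choose ix hix using hM.cover
    have k0 : ∀ x ∈ Φ, ∀ j, x ∈ M.U j →
        ∀ᶠ v in 𝓝 x, s.1 j v / τ m j v = s.1 (ix v) v / τ m (ix v) v := fun x hx j hj => by
      filter_upwards [s.2 x (hpΦ x hx), (hM.isOpen j).mem_nhds hj,
        hprp.isOpen.mem_nhds hx.1.1] with v l1 l2 l3
      rw [(l1 j l2).2 _ (hix v), (hτ₁.sec m v l3 j l2).2 _ (hix v),
        mul_div_mul_left _ _ (hM.ne_zero j _ v l2 (hix v))]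
    obtain ⟨C, -, k1⟩ := c2 (fun v => s.1 (ix v) v / τ m (ix v) v) fun x hx _ =>
      (hol_div ((s.2 x (hpΦ x hx)).self_of_nhds _ (hix x)).1 (hτ₁.sec m x hx.1.1 _ (hix x)).1
        ((hν m _ x hx.1.1 (hix x)).1.1 hx.2.1)).congr (k0 x hx _ (hix x))
    refine ⟨C ((t w, ν m w), G w), fun x hx k2 j hj => ?_⟩
    have k3 := (k1 x hx k2).self_of_nhds
    rw [← (k0 x hx j hj).self_of_nhds, k2, (hx.1.2 : t x = t w), (hx.2.2 : ν m x = ν m w)] at k3
    rw [← k3, div_mul_cancel₀ _ ((hν m j x hx.1.1 hj).1.1 hx.2.1)]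
  have hCls : Cls (n + 1) p M w = connectedComponentIn Φ w := by
    refine subset_antisymm (connectedComponentIn_mono w fun x hx => ?_)
      (isPreconnected_connectedComponentIn.subset_connectedComponentIn
        (mem_connectedComponentIn hwΦ) fun x hx => ?_)
    · have k : ∀ l, ∀ v, p v = p w → ∀ᶠ v' in 𝓝 v, ScAt (HolF (n + 1)) M (τ l) v' :=
        fun l v hv => (hprp.isOpen.eventually_mem (show v ∈ p ⁻¹' V₁ by
          rw [mem_preimage, hv]
          exact hwO)).mono fun v' => hτ₁.sec l v'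
      rw [← hFib]
      exact ⟨hx.1, fun l l' => hx.2 ⟨τ l, k l⟩ ⟨τ l', k l'⟩⟩
    · rw [c1] at hx
      refine ⟨hpΦ x hx.1, fun s s' i j hi hj => ?_⟩
      obtain ⟨κ, k1⟩ := hger s
      obtain ⟨κ', k2⟩ := hger s'
      show s.1 i w * s'.1 j x = s'.1 i w * s.1 j x
      rw [k1 w hwΦ rfl i hi, k1 x hx.1 hx.2 j hj, k2 w hwΦ rfl i hi, k2 x hx.1 hx.2 j hj]
      ring
  refine ⟨by rw [hCls, hFib], ?_, ?_⟩
  · rw [hCls, c1]
    ext x
    refine ⟨fun k => ⟨hΦO k.1, app_inj.2 ⟨⟨k.1.1.2, k.1.2.2⟩, k.2⟩⟩, fun k => ?_⟩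
    obtain ⟨⟨k1, k2⟩, k3⟩ := app_inj.1 k.2
    exact ⟨⟨⟨hDO k.1.1, k1⟩, k.1.1, k2⟩, k3⟩
  · rw [hCls, c1]
    intro h hh
    obtain ⟨C, k1, k2⟩ := c2 h fun v k k' => hh v ⟨k, k'⟩
    refine ⟨fun z => C (spl N (r + 1) q z),
      AnalyticAt.fun_comp (g := C) (by rwa [hspl]) (spl_an _ _ _ _), fun v hv => ?_⟩
    simpa only [hspl] using k2 v hv.1 hv.2

end LocQ

theorem locq_of (h : GEN) : LOCQ := by
  intro n W _ _ _ _ _ X p M hp hP hI hM hF
  refine ⟨fun w₀ => ?_, fun V r τ hV hτ w hw => ?_⟩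
  · obtain ⟨V, r, τ, hV, hx, hτ⟩ := hF (p w₀)
    obtain ⟨O, N, t, Ω, h1, h2, h3⟩ := LocQ.main h hp hP hI hM hV hτ hx
    exact ⟨O, N, t, Ω, h1, h2, fun w hw => (h3 w hw).2⟩
  · obtain ⟨O, N, t, Ω, h1, -, h3⟩ := LocQ.main h hp hP hI hM hV hτ hw
    exact (h3 w h1).1

end Vale.Agent.P277Z.Pj
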