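import Vale.Agent.P277Z.Pj.Sk
import Vale.Agent.P277Z.Pj.Imm
import Vale.Agent.P277Z.Glc.BIso

/-!
# P277, block PROJ: the normalisation, pull back of ample line bundles by finite maps
-/

open scoped Manifold ContDiff Topology
open Vale.Agent.P272.K Vale.Agent.P285.H281.FD Set Filter Metric
open Vale.Agent.P277 Vale.Agent.P277.PH
open Vale.Agent.P277.HD (pull)

noncomputable section

namespace Vale.Agent.P277Z.Pj

theorem norm_of (h1 : PROJ) (h2 : LOCQ) (h3 : REMG) (h4 : NRM) (h5 : STB) : NORM := by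
  intro W _ _ _ _ _ _ X p B hp hP hB hd hi
  have hI : Dense {w | ImmTo 4 X p w} := hd.mono fun w hw => (hi w hw).1
  have hM : IsLB 4 (Coh.triv W) := ⟨fun _ => isOpen_univ, fun _ => ⟨(), trivial⟩,
    fun _ _ _ _ _ _ _ => contDiffAt_const, fun _ _ _ _ _ => one_ne_zero,
    fun _ _ _ _ _ _ _ => mul_one _⟩
  have hT : FreeOn 4 (Coh.triv W) (p ⁻¹' univ) (r := 0) fun _ _ _ => 1 :=
    ⟨fun _ _ _ _ _ => ⟨HolF.const 1, fun _ _ => (mul_one _).symm⟩, fun _ _ _ _ => ⟨0, one_ne_zero⟩⟩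
  have hF : Free 4 p (Coh.triv W) := fun x => ⟨univ, 0, _, isOpen_univ, trivial, hT⟩
  obtain ⟨Y, φ, q, L, u, hS, hq, hqp, -, -, -, hφ⟩ := h1 3 W X p _ hp hP hI hM hF
  have hC : ∀ w, φ ⁻¹' {φ w} = connectedComponentIn (p ⁻¹' {p w}) w := fun w => by
    have e : Fib p (Coh.triv W) (fun (_ : Fin (0 + 1)) _ _ => (1 : ℂ)) w = p ⁻¹' {p w} :=
      Set.ext fun v => ⟨fun h => h.1, fun h => ⟨h, fun _ _ _ _ _ _ => rfl⟩⟩
    rw [← e, ← (h2 3 W X p _ hp hP hI hM hF).2 univ 0 _ isOpen_univ hT w trivial]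
    exact Set.ext fun w' => hφ w w'
  refine ⟨Y, q, φ, ⟨(h4 2 W Y φ hS (hI.mono ?_)).1, hq, fun x => ?_, hB, ?_, ?_, ?_⟩, hS, hqp⟩
  · rintro w ⟨k, g, a1, a2⟩
    refine ⟨k, fun y => g (q y), fun a => (hq (φ w)).2 (fun x => g x a) (by rw [hqp]; exact a1 a),
      a2.congr (.of_forall fun v => congrArg g (hqp v).symm)⟩
  · refine (((h3 3 W X p hp hP).2 x).preimage (f := fun y => φ ⁻¹' {y})
      ((hS.surj.preimage_injective.comp singleton_injective).injOn)).subset fun y hy => ?_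
    obtain ⟨w, rfl⟩ := hS.surj y
    have e : p w = x := (hqp w).symm.trans hy
    exact ⟨w, e, e ▸ hC w⟩
  · refine (hS.surj.denseRange.dense_image hS.cont hd).mono ?_
    rintro _ ⟨w, hw, rfl⟩
    show q (φ w) ∉ B
    rwa [hqp]
  · intro v v' a1 a2
    obtain ⟨w, rfl⟩ := hS.surj v
    obtain ⟨w', rfl⟩ := hS.surj v'
    rw [hqp] at a1
    rw [hqp, hqp] at a2
    rw [(hi w a1).2 w' a2]
  · intro v g a1 a2
    obtain ⟨w, rfl⟩ := hS.surj v
    rw [hqp] at a1 ⊢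
    obtain ⟨⟨k, g₀, b1, b2⟩, b3⟩ := hi w a1
    obtain ⟨G, c1, c2⟩ := b2.left_inv (t' := fun w => g (φ w))
      (holV_pi.2 fun a => hp.hol w _ (b1 a)) (hS.hol w g a2)
    refine ⟨fun x => G (g₀ x), hol_comp (f := fun a x => g₀ x a) b1 c1, ?_⟩
    rw [← ((h5 3 W Y φ hS).2.2.2.2.2.1 w fun w' e => b3 w' (by rw [← hqp, e, hqp])).2]
    refine eventually_map.2 (c2.mono fun w' e => ?_)
    show g (φ w') = G (g₀ (q (φ w')))
    rw [hqp]
    exact e

theorem finamp_of (h : EMB) : FINAMP := by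
  intro n W _ _ _ _ _ V X Z V₁ u ν f F ν₁ L hu hP hν hfin hf hF hν₁ hc hL ha v₁
  obtain ⟨O, k, N, s, hO, hz, hk, hs, a1, a2, -⟩ := ha (ν₁ v₁)
  obtain ⟨O', k', N', s', hO', hz', hk', hs', b1, b2, b3⟩ := h n W Z V u (fun v => f (ν v))
    (pull ν (L.pow k)) hu (fun y => Glc.holMap_comp (hf _) (hν y)) hP
    (Glc.lb_pull (Glc.lb_pow hL k) hν) O N (fun l i y => s l i (ν y)) hO
    (fun l => ⟨fun i y hy hi => (hν y).2 _ ((hs l).holo i _ hy hi),
      fun i j y hy hi hj => (hs l).change i j _ hy hi hj⟩)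
    (fun y i hy hi => a1 _ i hy hi) (fun w hw w' hw' => by
      by_contra hne
      have c1 := mem_connectedComponentIn
        (connectedComponentIn_nonempty_iff.1 ⟨w', hw'⟩)
      refine (isPreconnected_connectedComponentIn.image u hu.cont.continuousOn
        ).infinite_of_nontrivial ⟨_, ⟨w', hw', rfl⟩, _, ⟨w, c1, rfl⟩, hne⟩
        ((hfin (ν (u w))).subset ?_)
      rintro _ ⟨v, hv, rfl⟩
      have c2 := connectedComponentIn_subset _ _ hv
      by_contra c3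
      obtain ⟨i, hi⟩ := hL.cover (ν (u w))
      obtain ⟨j, hj⟩ := hL.cover (ν (u v))
      obtain ⟨l, m, c4⟩ := a2 _ _ i j hw c2.1 c3 hi hj
      exact c4 (c2.2 l m i j hi hj)) (ν₁ v₁) hz
  have e : ∀ v, F v ∈ ν₁ ⁻¹' O' → f (ν v) ∈ O' := fun v hv => hc v ▸ hv
  refine ⟨ν₁ ⁻¹' O', k * k', N', s',
    hO'.preimage (continuous_iff_continuousAt.2 fun y => (hν₁ y).1), hz', Nat.mul_pos hk hk',
    fun l => ⟨fun i y hy hi => (hs' l).holo i y (e y hy) hi, fun i j y hy hi hj => ?_⟩,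
    fun y i hy hi => b1 y i (e y hy) hi,
    fun y y' i j hy e' hne hi hj => b2 y y' i j (e y hy)
      ((hc y').symm.trans ((congrArg ν₁ e').trans (hc y))) hne hi hj,
    fun y i l hy hi hl g hg => ?_⟩
  · have := (hs' l).change i j y (e y hy) hi hj
    change s' l i y = (L.g i j (ν y) ^ k) ^ k' * s' l j y at this
    change s' l i y = L.g i j (ν y) ^ (k * k') * s' l j y
    rw [pow_mul]
    exact this
  · obtain ⟨M, g', G, c1, c2, c3⟩ := b3 y i l (e y hy) hi hl g hg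
    refine ⟨M, fun a x => g' a (ν₁ x), G, fun a => (hν₁ (F y)).2 (g' a) (hc y ▸ c1 a), ?_, ?_⟩
    · simp only [hc]
      exact c2
    · simp only [hc]
      exact c3

end Vale.Agent.P277Z.Pj
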