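import Vale.Agent.P277Z.Pj.Sk
import Vale.Agent.P277Z.Pj.Bdd
import Vale.Agent.P277Z.Pj.Prj
import Vale.Agent.P277Z.Pj.Imm

/-!
# P277, block PROJ: the row `NRM`
-/

set_option linter.unusedSectionVars false

open scoped Manifold ContDiff Topology
open Vale.Agent.P272.K Vale.Agent.P285.H281.FD Set Filter Metric
open Vale.Agent.P277 Vale.Agent.P277.H762 Vale.Agent.P277.PH

noncomputable section

namespace Vale.Agent.P277Z.Pj

namespace Nrm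

theorem cv_zero {k : ℕ} {B : Set (Cm (k + 1))} (hB : IsOpen B) (hc : IsPreconnected B)
    {J : Cm (k + 1) → ℂ} (hJ : ∀ z ∈ B, AnalyticAt ℂ J z) {p : Cm (k + 1)} (hp : p ∈ B)
    (h0 : J p ≠ 0) : ∃ (D : ℕ → Set (Cm k)) (γ : ℕ → Cm k → Cm (k + 1)), (∀ l, IsOpen (D l)) ∧
      (∀ l, ∀ q ∈ D l, AnalyticAt ℂ (γ l) q ∧ γ l q ∈ B) ∧
      {z | z ∈ B ∧ J z = 0} ⊆ ⋃ l, γ l '' D l :=
  H622.stB1 k B J hB hJ fun _ hz h =>
    h0 (AnalyticOnNhd.eqOn_zero_of_preconnected_of_eventuallyEq_zero hJ hc hz h hp)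

theorem cv_crit {k N : ℕ} {B : Set (Cm (k + 1))} (hB : IsOpen B) (hc : IsPreconnected B)
    {g : Cm (k + 1) → Cm N} (hg : ∀ z ∈ B, AnalyticAt ℂ g z) {p : Cm (k + 1)} (hp : p ∈ B)
    (h0 : Function.Injective (fderiv ℂ g p)) :
    ∃ (D : ℕ → Set (Cm k)) (γ : ℕ → Cm k → Cm (k + 1)), (∀ l, IsOpen (D l)) ∧
      (∀ l, ∀ q ∈ D l, AnalyticAt ℂ (γ l) q ∧ γ l q ∈ B) ∧
      {z | z ∈ B ∧ ¬ Function.Injective (fderiv ℂ g z)} ⊆ ⋃ l, γ l '' D l := by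
  obtain ⟨L₀, hL⟩ := (fderiv ℂ g p : Cm (k + 1) →ₗ[ℂ] Cm N).exists_leftInverse_of_injective
    (LinearMap.ker_eq_bot.2 h0)
  let L : Cm N →L[ℂ] Cm (k + 1) := LinearMap.toContinuousLinearMap L₀
  obtain ⟨D, γ, h1, h2, h3⟩ := cv_zero hB hc
    (J := fun z => LinearMap.det (L.comp (fderiv ℂ g z) : Cm (k + 1) →ₗ[ℂ] _))
    (fun z hz => Bdd.an_det fun v => (L.analyticAt _).comp
      (((ContinuousLinearMap.apply ℂ (Cm N) v).analyticAt _).comp (hg z hz).fderiv)) hp (by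
        rw [show (L.comp (fderiv ℂ g p) : Cm (k + 1) →ₗ[ℂ] _) = LinearMap.id from hL,
          LinearMap.det_id]
        exact one_ne_zero)
  exact ⟨D, γ, h1, h2, fun z hz => h3 ⟨hz.1, by_contra fun h => hz.2
    (Function.Injective.of_comp (f := L) (LinearMap.equivOfDetNeZero _ h).injective)⟩⟩

section model

variable {Y : CSp} {N k : ℕ} {V : Set Y.pt} {Ω : Set (Cm N)} {h : Fin k → Cm N → ℂ}
  {ψ : Y.pt → Cm N}

theorem mem_zero (hM : IsModel Y.Hol V Ω h ψ) {y : Y.pt} (hy : y ∈ V) :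
    ψ y ∈ Ω ∧ ∀ i, h i (ψ y) = 0 :=
  (hM.image ▸ mem_image_of_mem ψ hy : ψ y ∈ {z ∈ Ω | ∀ i, h i z = 0})

theorem dimLe_img [Nonempty Y.pt] (hM : IsModel Y.Hol V Ω h ψ) (d : ℕ) :
    ∀ (D : Set (Cm d)) (g : Cm d → Cm N), IsOpen D → (∀ p ∈ D, AnalyticAt ℂ g p) →
      DimLe Y d (V ∩ ψ ⁻¹' (g '' D)) := by
  induction d with
  | zero =>
    refine fun D g _ _ => dimLe_of_countable (Set.Subsingleton.countable ?_)
    rintro y ⟨hy, p, -, hp⟩ y' ⟨hy', p', -, hp'⟩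
    exact hM.injOn hy hy' (hp.symm.trans ((congrArg g (Subsingleton.elim _ _)).trans hp'))
  | succ d ih =>
    intro D g hD hg
    have key : ∀ p ∈ D ∩ g ⁻¹' Ω, ∃ B ∈ 𝓝 p, DimLe Y (d + 1) (V ∩ ψ ⁻¹' (g '' B)) := by
      intro p hp
      obtain ⟨r, hr, hb⟩ := Metric.eventually_nhds_iff_ball.1 ((hD.eventually_mem hp.1).and
        ((hg p hp.1).continuousAt.eventually_mem (hM.isOpen'.mem_nhds hp.2)))
      refine ⟨ball p r, ball_mem_nhds p hr, ?_⟩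
      by_cases h0 : ∀ q ∈ ball p r, ∀ i, h i (g q) = 0
      · have h1 : ∀ q ∈ ball p r, ∃ y ∈ V, ψ y = g q := fun q hq =>
          (hM.image.symm ▸ ⟨(hb q hq).2, h0 q hq⟩ : g q ∈ ψ '' V)
        refine dimLe_of_family (κ := Unit) (fun _ => ball p r)
          (fun _ q => Function.invFunOn ψ V (g q)) (fun _ => isOpen_ball)
          (fun _ q hq => holAt_of_coord hM.isCoord ?_ fun a => ?_) ?_
        · filter_upwards [isOpen_ball.mem_nhds hq] with u hu using Function.invFunOn_mem (h1 u hu)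
        · refine (analyticAt_pi_iff.1 (hg q (hb q hq).1) a).congr ?_
          filter_upwards [isOpen_ball.mem_nhds hq] with u hu
          rw [Function.invFunOn_eq (h1 u hu)]
        · rintro y ⟨hy, q, hq, hqy⟩
          exact mem_iUnion.2 ⟨(), q, hq, hM.injOn (Function.invFunOn_mem (h1 q hq)) hy
            ((Function.invFunOn_eq (h1 q hq)).trans hqy)⟩
      · push Not at h0
        obtain ⟨q, hq, i, hi⟩ := h0
        obtain ⟨D', γ, h1, h2, h3⟩ := cv_zero isOpen_ball (convex_ball p r).isPreconnected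
          (J := fun q => h i (g q))
          (fun u hu => (hM.holo i _ (hb u hu).2).comp (hg u (hb u hu).1)) hq hi
        refine ((dimLe_iUnion fun l => ih (D' l) (fun u => g (γ l u)) (h1 l) fun u hu =>
          (hg _ (hb _ (h2 l u hu).2).1).comp (h2 l u hu).1).le d.le_succ).mono ?_
        rintro y ⟨hy, u, hu, huy⟩
        obtain ⟨l, v, hv, rfl⟩ := mem_iUnion.1
          (h3 ⟨hu, (congrArg (h i) huy).trans ((mem_zero hM hy).2 i)⟩)
        exact mem_iUnion.2 ⟨l, hy, v, hv, huy⟩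
    choose! B hB hd using key
    obtain ⟨t, htT, htc, ht⟩ := TopologicalSpace.countable_cover_nhdsWithin
      (f := B) (s := D ∩ g ⁻¹' Ω) fun p hp => mem_nhdsWithin_of_mem_nhds (hB p hp)
    refine (dimLe_biUnion htc fun p hp => hd p (htT hp)).mono ?_
    rintro y ⟨hy, q, hq, hqy⟩
    obtain ⟨p, hp, hqp⟩ := mem_iUnion₂.1 (ht ⟨hq, show g q ∈ Ω from hqy ▸ (mem_zero hM hy).1⟩)
    exact mem_iUnion₂.2 ⟨p, hp, hy, q, hqp, hqy⟩

theorem dimLe_of_cv [Nonempty Y.pt] (hM : IsModel Y.Hol V Ω h ψ) {d : ℕ} {T : Set (Cm N)}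
    (hT : Cv d T) : DimLe Y d (V ∩ ψ ⁻¹' T) := by
  obtain ⟨D, g, h1, h2, h3⟩ := hT
  refine (dimLe_iUnion fun l => dimLe_img hM d (D l) (g l) (h1 l) (h2 l)).mono fun y hy => ?_
  obtain ⟨l, hl⟩ := mem_iUnion.1 (h3 hy.2)
  exact mem_iUnion.2 ⟨l, hy.1, hl⟩

theorem cv_of_dimLe (hM : IsModel Y.Hol V Ω h ψ) {d : ℕ} {T : Set Y.pt} (hT : DimLe Y d T) :
    Cv d (ψ '' (V ∩ T)) := by
  obtain ⟨D, g, h1, h2, h3⟩ := hT
  refine ⟨fun l => {p | p ∈ D l ∧ g l p ∈ V}, fun l p => ψ (g l p),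
    fun l => isOpen_iff_mem_nhds.2 fun p hp => inter_mem ((h1 l).mem_nhds hp.1)
      ((h2 l p hp.1).1 (hM.isOpen.mem_nhds hp.2)),
    fun l p hp => AnalyticAt.pi fun a => (h2 l p hp.1).analyticAt (hM.isCoord.hol a _ hp.2), ?_⟩
  rintro _ ⟨y, hy, rfl⟩
  obtain ⟨l, p, hp, rfl⟩ := mem_iUnion.1 (h3 hy.2)
  exact mem_iUnion.2 ⟨l, p, ⟨hp, hy.1⟩, rfl⟩

theorem compact_pre (hM : IsModel Y.Hol V Ω h ψ) {K : Set (Cm N)} (hK : K ⊆ Ω)
    (hc : IsCompact K) : IsCompact (V ∩ ψ ⁻¹' K) := by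
  have h1 : IsCompact (K ∩ (fun z i => h i z) ⁻¹' {0}) :=
    hc.of_isClosed_subset (ContinuousOn.preimage_isClosed_of_isClosed
      (continuousOn_pi.2 fun i z hz => (hM.holo i z (hK hz)).continuousAt.continuousWithinAt)
      hc.isClosed isClosed_singleton) inter_subset_left
  have h2 := (hM.emb.isInducing.isCompact_preimage' h1 fun z hz => by
    obtain ⟨y, hy, rfl⟩ : z ∈ ψ '' V := hM.image.symm ▸ ⟨hK hz.1, congrFun hz.2⟩
    exact ⟨⟨y, hy⟩, rfl⟩).image continuous_subtype_val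
  rw [show V ∩ ψ ⁻¹' K = Subtype.val '' (V.domRestrict ψ ⁻¹' (K ∩ (fun z i => h i z) ⁻¹' {0}))
    from Set.ext fun y => ⟨fun hy => ⟨⟨y, hy.1⟩, ⟨hy.2, funext (mem_zero hM hy.1).2⟩, rfl⟩,
      fun ⟨u, hu, e⟩ => e ▸ ⟨u.2, hu.1⟩⟩]
  exact h2

theorem isOpen_diff {E : Set Y.pt} (hV : IsOpen V) (hE : IsAn Y V E) : IsOpen (V \ E) := by
  refine isOpen_iff_mem_nhds.2 fun x hx => ?_
  obtain ⟨k, h, h1, h2⟩ := hE x hx.1
  obtain ⟨i, hi⟩ := not_forall.1 (mt h2.self_of_nhds.2 hx.2)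
  filter_upwards [hV.mem_nhds hx.1, h2, (hol_continuousAt (h1 i)).eventually_ne hi]
    with y a1 a2 a3 using ⟨a1, fun a4 => a3 (a2.1 a4 i)⟩

variable {m : ℕ} {W : Type} [TopologicalSpace W] [ChartedSpace (Cm m) W] {φ : W → Y.pt} {w : W}

theorem holV_t (hφ : HolTo m Y φ) (hM : IsModel Y.Hol V Ω h ψ) (hw : φ w ∈ V) :
    HolV m (fun w => ψ (φ w)) w :=
  holV_pi.2 fun a => hφ.hol w _ (hM.isCoord.hol a _ hw)

theorem imm_t (hφ : HolTo m Y φ) (hM : IsModel Y.Hol V Ω h ψ) (hw : φ w ∈ V)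
    (hi : ImmTo m Y φ w) : Imm m (fun w => ψ (φ w)) w := by
  obtain ⟨k, g, h1, h2⟩ := hi
  choose G h3 h4 using fun a => (hM.hol _ hw _).1 (h1 a)
  refine h2.of_comp (holV_t hφ hM hw) (H := fun z a => G a z) (AnalyticAt.pi h3) ?_
  filter_upwards [eventually_all.2 fun a => hφ.cont.continuousAt.eventually (h4 a)] with v hv
    using funext hv

theorem gfin [CompactSpace W] (hφ : HolTo m Y φ) (hd : Dense {w | ImmTo m Y φ w})
    (hM : IsModel Y.Hol V Ω h ψ) : Gfin m (φ ⁻¹' V) (fun w => ψ (φ w)) Ω where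
  isOpen := hM.isOpen.preimage hφ.cont
  isOpen' := hM.isOpen'
  hol _ hw := holV_pi.1 (holV_t hφ hM hw)
  maps _ hw := (mem_zero hM hw).1
  proper _ hK hc := ((compact_pre hM hK hc).isClosed.preimage hφ.cont).isCompact
  imm := (hd.open_subset_closure_inter (hM.isOpen.preimage hφ.cont)).trans
    (closure_mono fun _ hw => ⟨hw.1, imm_t hφ hM hw.1 hw.2⟩)

end model

section main

variable {n : ℕ} {W : Type} [TopologicalSpace W] [T2Space W] [CompactSpace W]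
  [ChartedSpace (Cm (n + 1 + 1)) W] [IsManifold 𝓘(ℂ, Cm (n + 1 + 1)) ω W] {Y : CSp} {φ : W → Y.pt}

theorem fib_loc (hφ : HolTo (n + 1 + 1) Y φ) (hd : Dense {w | ImmTo (n + 1 + 1) Y φ w}) (w : W) :
    ∃ N ∈ 𝓝 w, ∃ T, DimLe Y n T ∧
      ∀ y ∉ T, {v | v ∈ N ∧ φ v = y ∧ ¬ ImmTo (n + 1 + 1) Y φ v}.Countable := by
  have : Nonempty Y.pt := ⟨φ w⟩
  obtain ⟨N, k, V, Ω, h, ψ, hw, hM⟩ := Y.model (φ w)
  have he := at_chartAt (n := n + 1 + 1) w
  set e := chartAt (Cm (n + 1 + 1)) w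
  obtain ⟨r, hr, hb⟩ := Metric.eventually_nhds_iff_ball.1
    ((e.open_target.eventually_mem (e.map_source he.2)).and
      (ev_symm he.2 (hφ.cont.continuousAt.eventually_mem (hM.isOpen.mem_nhds hw))))
  have hV : ∀ v ∈ e.source ∩ e ⁻¹' ball (e w) r, φ v ∈ V := fun v hv => by
    have := (hb _ hv.2).2
    rwa [e.left_inv hv.1] at this
  have hg : ∀ z ∈ ball (e w) r, AnalyticAt ℂ (fun z => ψ (φ (e.symm z))) z := fun z hz => by
    have := holV_t hφ hM (hb z hz).2 e ⟨he.1, e.map_target (hb z hz).1⟩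
    rwa [e.right_inv (hb z hz).1] at this
  have hO := e.isOpen_inter_preimage (isOpen_ball (x := e w) (ε := r))
  obtain ⟨p, hp, hi⟩ := hd.inter_open_nonempty _ hO ⟨w, he.2, mem_ball_self hr⟩
  obtain ⟨D, γ, h1, h2, h3⟩ := cv_crit isOpen_ball (convex_ball _ r).isPreconnected hg hp.2
    (imm_t hφ hM (hV p hp) hi e ⟨he.1, hp.1⟩)
  choose T h4 h5 using fun l => fib n N (D l) (fun q => ψ (φ (e.symm (γ l q)))) (h1 l)
    fun q hq => (hg _ (h2 l q hq).2).comp (f := γ l) (h2 l q hq).1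
  refine ⟨_, hO.mem_nhds ⟨he.2, mem_ball_self hr⟩, _, dimLe_of_cv hM (cv_iUnion h4),
    fun y hy => ?_⟩
  by_cases hyV : y ∈ V
  · refine (countable_iUnion fun l => (h5 l (ψ y) fun h6 =>
      hy ⟨hyV, mem_iUnion.2 ⟨l, h6⟩⟩).image fun q => e.symm (γ l q)).mono ?_
    rintro v ⟨hv, rfl, hn⟩
    obtain ⟨l, q, hq, hqv⟩ := mem_iUnion.1 (h3 ⟨hv.2, fun h6 => hn ⟨N, ψ,
      fun a => hM.isCoord.hol a _ hyV, imm_of_chart ⟨he.1, hv.1⟩ (hg _ hv.2) h6⟩⟩)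
    exact mem_iUnion.2 ⟨l, q, ⟨hq, by rw [hqv, e.left_inv hv.1]⟩, by
      simp only [hqv, e.left_inv hv.1]⟩
  · exact countable_empty.mono fun v hv => hyV (hv.2.1 ▸ hV v hv.1)

theorem dim_C [Nonempty W] (hφ : HolTo (n + 1 + 1) Y φ)
    (hd : Dense {w | ImmTo (n + 1 + 1) Y φ w}) (hc : ∀ y, IsConnected (φ ⁻¹' {y}))
    (hi : ∀ w, ImmTo (n + 1 + 1) Y φ w → ∀ w', φ w' = φ w → w' = w) :
    DimLe Y n {y | ¬ (φ ⁻¹' {y}).Subsingleton} := by
  have : Nonempty Y.pt := Nonempty.map φ inferInstance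
  choose N hN T hT h using fib_loc hφ hd
  obtain ⟨t, ht⟩ := CompactSpace.elim_nhds_subcover N hN
  refine (dimLe_biUnion t.countable_toSet fun w _ => hT w).mono fun y hy => ?_
  by_contra h1
  have h2 : (φ ⁻¹' {y}).Countable := by
    refine (t.countable_toSet.biUnion fun w hw => h w y fun h3 =>
      h1 (mem_iUnion₂.2 ⟨w, hw, h3⟩)).mono fun v hv => ?_
    obtain ⟨w, hw, h3⟩ := mem_iUnion₂.1 (ht.symm ▸ mem_univ v : v ∈ ⋃ w ∈ t, N w)
    exact mem_iUnion₂.2 ⟨w, hw, h3, hv, fun h4 => hy fun a ha b hb =>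
      (hi v h4 a (ha.trans hv.symm)).trans (hi v h4 b (hb.trans hv.symm)).symm⟩
  have := h2.totallySeparatedSpace
  exact hy (totallyDisconnectedSpace_subtype_iff.1 inferInstance _ Subset.rfl (hc y).isPreconnected)

theorem bound (hφ : HolTo (n + 1 + 1) Y φ) (hd : Dense {w | ImmTo (n + 1 + 1) Y φ w})
    {V E : Set Y.pt} (hV : IsOpen V) (hVE : IsOpen (V \ E)) (hE : DimLe Y n (V ∩ E))
    {f : Y.pt → ℂ} (hf : ∀ x ∈ V \ E, Y.Hol f x) {w : W} (hw : φ w ∈ V) :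
    ∃ C : ℝ, ∀ᶠ w' in 𝓝 w, φ w' ∉ E → ‖f (φ w')‖ ≤ C := by
  have := ChartedSpace.secondCountable_of_sigmaCompact (Cm (n + 1 + 1)) W
  obtain ⟨N, k, V₁, Ω, h, ψ, hw₁, hM⟩ := Y.model (φ w)
  obtain ⟨π, hπ⟩ := prj (n + 1) W N _ _ Ω (gfin hφ hd hM) _ (mem_zero hM hw₁).1
  obtain ⟨U, hU, hUV⟩ := hM.emb.isInducing.isOpen_iff.1
    (hV.preimage (continuous_subtype_val (p := (· ∈ V₁))))
  have hU' : ∀ y ∈ V₁, ψ y ∈ U ↔ y ∈ V := fun y hy => Set.ext_iff.1 hUV ⟨y, hy⟩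
  obtain ⟨U', r, E', h1, h2, h3, hr, -, hP, -⟩ := hπ U (hU.mem_nhds ((hU' _ hw₁).2 hw))
  set V' := φ ⁻¹' V₁ ∩ (fun w => ψ (φ w)) ⁻¹' U'
  set G : W → Cm (n + 1 + 1) := fun w => π (ψ (φ w))
  set B := ball (π (ψ (φ w))) r
  have hV' : ∀ x ∈ V', φ x ∈ V := fun x hx => (hU' _ hx.1).1 (h3 hx.2).1
  set F := G '' (V' ∩ φ ⁻¹' E)
  have hF : Cv n F := ((cv_of_dimLe hM hE).image isOpen_univ (subset_univ _)
    fun z _ => π.analyticAt z).mono (by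
      rintro _ ⟨x, hx, rfl⟩
      exact ⟨_, ⟨φ x, ⟨hx.1.1, hV' x hx.1, hx.2⟩, rfl⟩, rfl⟩)
  have hBF : IsOpen (B \ F) := isOpen_iff_mem_nhds.2 fun b hb => by
    obtain ⟨K, hK, hKB, hKc⟩ := local_compact_nhds (hP.openB.mem_nhds hb.1)
    have h4 := (((hP.proper K hKB hKc).diff (hVE.preimage hφ.cont)).image_of_continuousOn
      (hP.cont.mono fun x hx => hx.1.1)).isClosed
    filter_upwards [hK, h4.isOpen_compl.mem_nhds (x := b) fun ⟨x, hx, e⟩ =>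
      hb.2 ⟨x, ⟨hx.1.1, by_contra fun h5 => hx.2 ⟨hV' x hx.1.1, h5⟩⟩, e⟩] with b' a1 a2
    exact ⟨hKB a1, fun ⟨x, hx, e⟩ =>
      a2 ⟨x, ⟨⟨hx.1, show G x ∈ K from e ▸ a1⟩, fun h5 => h5.2 hx.2⟩, e⟩⟩
  obtain ⟨C, hC⟩ := bdd_of conn br W _ n V' G B E' F hP hBF (hF.mono inter_subset_right)
    (fun w => f (φ w)) (fun x hx h4 => hφ.hol x f
      (hf _ ⟨hV' x hx, fun h5 => h4 ⟨x, ⟨hx, h5⟩, rfl⟩⟩)) _ (mem_ball_self hr)
  have hden : ∀ x ∈ V', x ∈ closure (V' \ G ⁻¹' F) := fun x hx =>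
    closure_minimal (fun x hx => by
      obtain ⟨N', s, a1, a2, a3, a4, a5⟩ := hP.etale x hx.1 hx.2
      have a6 := (a5 x a2).2.1.continuousWithinAt.mem_closure
        ((hF.mono (inter_subset_right (s := G '' N'))).mem_closure (by simp) a4 ⟨x, a2, rfl⟩)
        (t := V' \ G ⁻¹' F) (by
          rintro _ ⟨⟨y, hy, rfl⟩, a7⟩
          rw [(a5 y hy).1]
          exact ⟨a3 hy, a7⟩)
      rwa [(a5 x a2).1] at a6) isClosed_closure (hP.dense hx)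
  have hwV : w ∈ V' := ⟨hw₁, h2⟩
  refine ⟨C, ?_⟩
  filter_upwards [hP.isOpen.mem_nhds hwV,
    ((hP.cont.continuousAt (hP.isOpen.mem_nhds hwV)).eventually hC).eventually_nhds]
    with x a1 a2 a3
  by_contra a4
  obtain ⟨u, b1, b2, b3⟩ := ((mem_closure_iff_frequently.1 (hden x a1)).and_eventually (a2.and
    (continuousAt_const.eventually_lt ((hol_continuousAt (hf _ ⟨hV' x a1, a3⟩)).comp
      (f := φ) hφ.cont.continuousAt).norm (not_le.1 a4)))).exists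
  exact (b2 b1.2 u b1.1 rfl).not_gt b3

theorem thin (hφ : HolTo (n + 1 + 1) Y φ) {V E : Set Y.pt} (hE : IsAn Y V E)
    (hd : Dense (φ ⁻¹' (V ∩ E)ᶜ)) (hV : IsOpen V) {e : Chart (n + 1 + 1) W}
    (he : e ∈ atlas (Cm (n + 1 + 1)) W) :
    Cv (n + 1) (e.target ∩ e.symm ⁻¹' (φ ⁻¹' V ∩ φ ⁻¹' E)) := by
  refine cv_of_local fun z hz => ?_
  obtain ⟨k, h, h1, h2⟩ := hE _ hz.2.1
  obtain ⟨r, hr, hb⟩ := Metric.eventually_nhds_iff_ball.1
    ((e.open_target.eventually_mem hz.1).and ((hφ.cont.continuousAt.comp (f := e.symm)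
      (e.continuousAt_symm hz.1)).eventually (((hV.eventually_mem hz.2.1).and h2).and
        (eventually_all.2 fun i => hol_eventually (h1 i)))))
  obtain ⟨p, hp, h3⟩ := hd.inter_open_nonempty _
    (e.isOpen_inter_preimage (isOpen_ball (x := z) (ε := r)))
    ⟨e.symm z, e.map_target hz.1, by rw [mem_preimage, e.right_inv hz.1]; exact mem_ball_self hr⟩
  have h4 := (hb _ hp.2).2.1
  obtain ⟨i, hi⟩ := not_forall.1 fun h5 => h3 (by
    have := And.intro h4.1 (h4.2.2 h5)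
    rwa [Function.comp, e.left_inv hp.1] at this)
  obtain ⟨D, γ, a1, a2, a3⟩ := cv_zero isOpen_ball (convex_ball z r).isPreconnected
    (J := fun u => h i (φ (e.symm u))) (fun u hu => by
      have := hφ.hol _ _ ((hb u hu).2.2 i) e ⟨he, e.map_target (hb u hu).1⟩
      rwa [e.right_inv (hb u hu).1] at this) hp.2 hi
  exact ⟨_, ball_mem_nhds z hr, D, γ, a1, fun l q hq => (a2 l q hq).1,
    fun u hu => a3 ⟨hu.1, (hb u hu.1).2.1.2.1 hu.2.2.2 i⟩⟩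

end main

end Nrm

open Nrm in
/-- ROW NRM -/
theorem nrm_of (h : STB) : NRM := by
  intro n W _ _ _ _ _ _ Y φ hφ hd
  have := ChartedSpace.secondCountable_of_sigmaCompact (Cm (n + 1 + 1)) W
  obtain ⟨h1, h2, -, -, h3, h4, -⟩ := h (n + 1) W Y φ hφ
  have hC := dim_C hφ.toHolTo hd h2 fun w hw => (h3 w).2 hw
  have hreg : Dense {x | IsReg (n + 1 + 1) Y x} :=
    (hφ.surj.denseRange.dense_image hφ.cont hd).mono (by
      rintro _ ⟨w, hw, rfl⟩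
      exact (h4 w ((h3 w).2 hw)).1)
  refine ⟨⟨hreg, hC.mono fun y hy h5 => hy ?_, fun V E hV hE hdim f hf => ?_⟩, hC⟩
  · obtain ⟨w, rfl⟩ := hφ.surj y
    exact (h4 w fun w' hw' => h5 hw' rfl).1
  have hVE := isOpen_diff hV hE
  have hden : Dense (φ ⁻¹' (V ∩ E)ᶜ) := by
    refine dense_iff_inter_open.2 fun U hU hne => ?_
    obtain ⟨w, hw, hi⟩ := hd.inter_open_nonempty U hU hne
    obtain ⟨_, ⟨v, hv, rfl⟩, h5⟩ := mem_closure_iff_nhds.1
      (dense_compl_of_dimLe (by omega) hreg hdim (φ w)) (φ '' U)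
      ((h4 w ((h3 w).2 hi)).2 ▸ image_mem_map (hU.mem_nhds hw))
    exact ⟨v, hv, h5⟩
  obtain ⟨g, hg, hgf⟩ := rext (n + 1) W (φ ⁻¹' V) (φ ⁻¹' E) (hV.preimage hφ.cont)
    (hVE.preimage hφ.cont) (fun e he => thin hφ.toHolTo hE hden hV he) (fun w => f (φ w))
    (fun w hw => hφ.hol w f (hf _ hw)) fun w hw => bound hφ.toHolTo hd hV hVE hdim hf hw
  have hcst : ∀ w, φ w ∈ V → g w = g (Function.surjInv hφ.surj (φ w)) := fun w hw => by
    obtain ⟨a, -, ha⟩ := hφ.desc (φ w) g fun v hv => hg v (show φ v ∈ V from hv ▸ hw)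
    rw [(ha w rfl).self_of_nhds, (ha _ (Function.surjInv_eq hφ.surj _)).self_of_nhds,
      Function.surjInv_eq hφ.surj]
  refine ⟨fun y => g (Function.surjInv hφ.surj y), fun y hy => h1 y _ fun w hw => ?_,
    fun y hy => ?_⟩
  · have hwV : φ w ∈ V := hw ▸ hy
    exact (hg w hwV).congr
      ((hφ.cont.continuousAt.eventually_mem (hV.mem_nhds hwV)).mono hcst)
  · obtain ⟨w, rfl⟩ := hφ.surj y
    exact (hcst w hy.1).symm.trans (hgf w hy)

end Vale.Agent.P277Z.Pj
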