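import Vale.Agent.P281.H713.TsumHol

/-!
# P277, block PROJ: Taylor coefficients depending on parameters
-/

open scoped Topology Nat
open Set Filter Metric

noncomputable section

namespace Vale.Agent.P277Z.Pj.Sv

/-- the Taylor coefficients at the origin -/
def cf (d : ℕ) (f : ℂ → ℂ) : ℂ := (d ! : ℂ)⁻¹ * iteratedDeriv d f 0

theorem cf_comp (d : ℕ) (f : ℂ → ℂ) (c : ℂ) : cf d (fun s => f (c * s)) = c ^ d * cf d f := by
  have h : iteratedDeriv d (fun s => f (c * s)) = fun s => c ^ d * iteratedDeriv d f (c * s) := by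
    induction d with
    | zero => simp
    | succ d ih =>
      ext s
      rw [iteratedDeriv_succ, ih, deriv_const_mul_field, deriv_comp_mul_left, ← iteratedDeriv_succ,
        smul_eq_mul]
      ring
  rw [cf, cf, h]
  simp only [mul_zero]
  ring

theorem cf_congr (d : ℕ) {f g : ℂ → ℂ} {c : ℂ} (h : ∀ᶠ s in 𝓝 0, f s = c * g s) :
    cf d f = c * cf d g := by
  rw [cf, cf, EventuallyEq.iteratedDeriv_eq d h, iteratedDeriv_const_mul_field]
  ring

variable {E : Type} [NormedAddCommGroup E] [NormedSpace ℂ E] [FiniteDimensional ℂ E]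

theorem an_cf (d : ℕ) {F : E × ℂ → ℂ} {z : E} (h : AnalyticAt ℂ F (z, 0)) :
    AnalyticAt ℂ (fun z => cf d fun s => F (z, s)) z := by
  have : CompleteSpace E := FiniteDimensional.complete ℂ E
  have h1 : AnalyticAt ℂ (fun p : E × ℂ => iteratedDeriv d (fun s => F (p.1, s)) p.2) (z, 0) := by
    induction d with
    | zero => simpa using h
    | succ d ih =>
      refine (((ContinuousLinearMap.apply ℂ ℂ ((0, 1) : E × ℂ)).analyticAt _).comp
        ih.fderiv).congr ?_
      filter_upwards [ih.eventually_analyticAt] with p hp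
      rw [iteratedDeriv_succ]
      exact (hp.differentiableAt.hasFDerivAt.comp_hasDerivAt p.2
        ((hasDerivAt_const p.2 p.1).prodMk (hasDerivAt_id p.2))).deriv.symm
  exact analyticAt_const.mul (AnalyticAt.comp (f := fun z : E => (z, (0 : ℂ))) h1
    (analyticAt_id.prod analyticAt_const))

theorem an_sum {F : E × ℂ → ℂ} {z : E} {c : ℂ} {ρ C : ℝ} {l : ℕ → ℂ} (hc : 2 * ‖c‖ < ρ)
    (h : ∀ s, ‖s‖ ≤ ρ → AnalyticAt ℂ F (z, s)) (hl : ∀ d, ‖l d‖ ≤ C * 2 ^ d) :
    AnalyticAt ℂ (fun p : E × ℂ => ∑' d, l d * (p.2 ^ d * cf d fun s => F (p.1, s))) (z, c) := by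
  have : ProperSpace E := FiniteDimensional.proper ℂ E
  have : CompleteSpace E := FiniteDimensional.complete ℂ E
  obtain ⟨ρ', h1, h2⟩ := exists_between hc
  have h0 : 0 < ρ' := lt_of_le_of_lt (by positivity) h1
  have hρ : 0 < ρ := h0.trans h2
  have hC : 0 ≤ C := by simpa using (norm_nonneg _).trans (hl 0)
  obtain ⟨U, V, hU, -, hz, hV, hUV⟩ := generalized_tube_lemma (s := {z}) isCompact_singleton
    (isCompact_closedBall (0 : ℂ) ρ) (isOpen_analyticAt ℂ F) (by
      rintro ⟨x, s⟩ ⟨rfl, hs⟩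
      exact h s (mem_closedBall_zero_iff.1 hs))
  obtain ⟨r, hr, hrU⟩ := nhds_basis_closedBall.mem_iff.1 (hU.mem_nhds (hz rfl))
  have h3 : ∀ x ∈ closedBall z r, ∀ s ∈ closedBall (0 : ℂ) ρ, AnalyticAt ℂ F (x, s) :=
    fun x hx s hs => hUV ⟨hrU hx, hV hs⟩
  obtain ⟨M, hM⟩ := ((isCompact_closedBall z r).prod
    (isCompact_closedBall (0 : ℂ) ρ)).exists_bound_of_continuousOn (f := F)
      fun p hp => (h3 p.1 hp.1 p.2 hp.2).continuousAt.continuousWithinAt
  refine P281.H713.analyticAt_tsum (U := closedBall z r ×ˢ ball 0 (ρ' / 2))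
    (prod_mem_nhds (closedBall_mem_nhds z hr)
      (isOpen_ball.mem_nhds (mem_ball_zero_iff.2 (by linarith))))
    (fun d p hp => ?_) (u := fun d => C * M * (ρ' / ρ) ^ d)
    ((summable_geometric_of_lt_one (by positivity) ((div_lt_one hρ).2 h2)).mul_left _)
    fun d p hp => ?_
  · refine (AnalyticAt.differentiableAt (analyticAt_const.mul ((analyticAt_snd.pow d).mul
      ?_))).differentiableWithinAt
    exact AnalyticAt.comp (f := Prod.fst)
      (an_cf d (h3 p.1 hp.1 0 (mem_closedBall_self hρ.le))) analyticAt_fst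
  · have h4 := Complex.norm_iteratedDeriv_le_of_forall_mem_sphere_norm_le
      (f := fun s => F (p.1, s)) (c := 0) d hρ (DifferentiableOn.diffContOnCl fun s hs =>
        (AnalyticAt.comp (f := fun s : ℂ => (p.1, s)) (h3 p.1 hp.1 s (closure_ball_subset_closedBall hs))
          (analyticAt_const.prod analyticAt_id)).differentiableAt.differentiableWithinAt)
      fun s hs => hM (p.1, s) ⟨hp.1, sphere_subset_closedBall hs⟩
    have h5 : ‖cf d fun s => F (p.1, s)‖ ≤ M / ρ ^ d := by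
      have h6 : (0 : ℝ) < d ! := Nat.cast_pos.2 d.factorial_pos
      rw [cf, norm_mul, norm_inv, Complex.norm_natCast, inv_mul_le_iff₀ h6, ← mul_div_assoc]
      exact h4
    have h6 : ‖p.2‖ ≤ ρ' / 2 := (mem_ball_zero_iff.1 hp.2).le
    rw [norm_mul, norm_mul, norm_pow]
    calc _ ≤ C * 2 ^ d * ((ρ' / 2) ^ d * (M / ρ ^ d)) := by gcongr; exact hl d
      _ = _ := by rw [div_pow, div_pow]; field_simp

theorem exists_coef (a : ℂ) : ∃ (q : ℕ) (l : ℕ → ℂ) (C : ℝ), (∀ d, ‖l d‖ ≤ C * 2 ^ d) ∧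
    ∀ d, l d * ((1 / 2) ^ d - a) = if d < q then 0 else 1 := by
  by_cases ha : a = 0
  · exact ⟨0, fun d => 2 ^ d, 1, fun d => by simp, fun d => by simp [ha]⟩
  have h0 : 0 < ‖a‖ / 2 := by positivity
  obtain ⟨q, hq⟩ := exists_pow_lt_of_lt_one h0 (show (1 / 2 : ℝ) < 1 by norm_num)
  have h1 : ∀ d, ¬ d < q → ‖a‖ / 2 ≤ ‖(1 / 2 : ℂ) ^ d - a‖ := fun d hd => by
    have h2 : (1 / 2 : ℝ) ^ d ≤ (1 / 2) ^ q :=
      pow_le_pow_of_le_one (by norm_num) (by norm_num) (not_lt.1 hd)
    have h3 := norm_sub_norm_le a ((1 / 2 : ℂ) ^ d)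
    rw [norm_sub_rev, norm_pow, norm_div, norm_one, Complex.norm_two] at h3
    linarith
  refine ⟨q, fun d => if d < q then 0 else ((1 / 2) ^ d - a)⁻¹, (‖a‖ / 2)⁻¹, fun d => ?_,
    fun d => ?_⟩
  · beta_reduce
    split_ifs with hd
    · rw [norm_zero]; positivity
    · rw [norm_inv]
      exact (inv_anti₀ h0 (h1 d hd)).trans
        (le_mul_of_one_le_right (by positivity) (one_le_pow₀ one_le_two))
  · beta_reduce
    split_ifs with hd
    · exact zero_mul _
    · exact inv_mul_cancel₀ (norm_pos_iff.1 (h0.trans_le (h1 d hd)))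

theorem ident {f : ℂ → ℂ} {c a : ℂ} {ρ C : ℝ} {l : ℕ → ℂ} {q : ℕ} (hc : 2 * ‖c‖ < ρ)
    (h : DifferentiableOn ℂ f (ball 0 ρ)) (hl : ∀ d, ‖l d‖ ≤ C * 2 ^ d)
    (hq : ∀ d, l d * ((1 / 2) ^ d - a) = if d < q then 0 else 1) :
    f c = ∑' d, l d * ((c / 2) ^ d * cf d f) - a * ∑' d, l d * (c ^ d * cf d f) +
      ∑ d ∈ Finset.range q, c ^ d * cf d f := by
  have h1 : ∀ x : ℂ, ‖x‖ < ρ → HasSum (fun d => x ^ d * cf d f) (f x) := fun x hx => by
    refine (Complex.hasSum_taylorSeries_on_ball h (mem_ball_zero_iff.2 hx)).congr_fun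
      fun d => ?_
    rw [cf, sub_zero, smul_eq_mul, smul_eq_mul]
    ring
  have h2 : ∀ x : ℂ, 2 * ‖x‖ < ρ → Summable fun d => l d * (x ^ d * cf d f) := fun x hx => by
    refine Summable.of_norm_bounded ((h1 (2 * x) (by simpa using hx)).summable.norm.mul_left C)
      fun d => ?_
    simp only [norm_mul, mul_pow, norm_pow, Complex.norm_two]
    calc _ ≤ C * 2 ^ d * (‖x‖ ^ d * ‖cf d f‖) := by gcongr; exact hl d
      _ = _ := by ring
  have hn := norm_nonneg c
  have h3 := (((h2 (c / 2) (by rw [norm_div, Complex.norm_two]; linarith)).hasSum.sub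
    ((h2 c hc).hasSum.mul_left a))).add (hasSum_sum_of_ne_finset_zero
      (f := fun d => if d < q then c ^ d * cf d f else 0) (s := Finset.range q)
      fun d hd => if_neg (by simpa using hd))
  rw [Finset.sum_congr rfl fun d hd => if_pos (Finset.mem_range.1 hd)] at h3
  refine (h1 c (by linarith)).unique (h3.congr_fun fun d => ?_)
  have h4 := hq d
  rw [div_eq_mul_one_div, mul_pow]
  split_ifs at h4 ⊢
  · linear_combination (-(c ^ d * cf d f)) * h4
  · linear_combination (-(c ^ d * cf d f)) * h4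

end Vale.Agent.P277Z.Pj.Sv
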