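import Vale.Agent.P277Z.Pj.Sk
import Vale.Agent.P277Z.Pj.SolveA

/-!
# P277, block PROJ: the row SOLVE
-/

open scoped Manifold ContDiff Topology
open Vale.Agent.P272.K Vale.Agent.P285.H281.FD Set Filter Metric
open Vale.Agent.P277 Vale.Agent.P277.H762 Vale.Agent.P277.PH
open Vale.Agent.P277.HD (pull)
open Vale.Agent.P277Z.Coh (ScAt LBOn)

noncomputable section

namespace Vale.Agent.P277Z.Pj

open Sv

theorem solve_of (h : TOTH) : SOLVE := by
  intro n W T _ _ _ _ _ _ _ r O D ν pr ζ pt hP hT L K V R _ _ hV hKV _ hR f a hf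
  obtain ⟨-, -, -, h4, -⟩ := h n W T r O D ν pr ζ pt hP hT
  obtain ⟨q, l, C, hl, hq⟩ := exists_coef a
  choose μ hμ using hT.mem
  let g : ℕ → Fin (r + 1) → L.ι → W → ℂ := fun d m i w => cf d fun s => f i (pt m w s)
  let v : L.ι → T → ℂ := fun i u => ∑' d, l d * (ζ u (μ u) ^ d * g d (μ u) i (pr u))
  have hpt : ∀ m k w, w ∈ D m → w ∈ D k → ∀ s, pt k w s = pt m w (ν k w m * s) :=
    fun m k w hm hk s => hT.emb.injective (Prod.ext
      ((hT.pr_pt k w hk s).trans (hT.pr_pt m w hm _).symm) (by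
        show ζ _ = ζ _
        rw [hT.ζ_pt k w hk, hT.ζ_pt m w hm, mul_comm, mul_smul, ← hP.chg k m w hk hm]))
  have hg : ∀ d m k i w, w ∈ D m → w ∈ D k → g d k i w = ν k w m ^ d * g d m i w :=
    fun d m k i w hm hk => by
      rw [← cf_comp]
      simp only [g, hpt m k w hm hk]
  have hv : ∀ i m w, w ∈ D m → ∀ c, v i (pt m w c) = ∑' d, l d * (c ^ d * g d m i w) :=
    fun i m w hm c => tsum_congr fun d => by
      have h1 := hμ (pt m w c)
      rw [hT.pr_pt m w hm] at h1 ⊢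
      rw [hg d _ m i w h1 hm, hT.ζ_pt m w hm, Pi.smul_apply, smul_eq_mul, mul_pow, mul_assoc]
  have hf' : ∀ m w, w ∈ V → w ∈ D m → ∀ s : ℂ, ‖s‖ * ‖ν m w‖ < R → ∀ i, w ∈ L.U i →
      HolF (n + 1 + 1) (f i) (pt m w s) ∧
        ∀ j, w ∈ L.U j → f i (pt m w s) = L.g i j w * f j (pt m w s) :=
    fun m w hw hm s hs i hi => by
      have h1 := hT.pr_pt m w hm s
      have h2 := hf (pt m w s) (by rwa [h1]) (by rwa [hT.ζ_pt m w hm, norm_smul]) i
        (show pr _ ∈ L.U i by rwa [h1])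
      refine ⟨h2.1, fun j hj => ?_⟩
      have h3 := h2.2 j (show pr _ ∈ L.U j by rwa [h1])
      rwa [show (pull pr L).g i j (pt m w s) = L.g i j (pr (pt m w s)) from rfl, h1] at h3
  have hρ : ∀ m w, w ∈ D m → ∀ c : ℂ, ‖c • ν m w‖ < R / 2 → ∃ ρ, 2 * ‖c‖ < ρ ∧
      ∀ s : ℂ, ‖s‖ ≤ ρ → ‖s‖ * ‖ν m w‖ < R := fun m w hm c hc => by
    have h0 : 0 < ‖ν m w‖ := norm_pos_iff.2 fun h0 => one_ne_zero (by
      rw [← hP.one m w hm, h0]; rfl)
    rw [norm_smul] at hc
    obtain ⟨ρ, h1, h2⟩ := exists_between ((lt_div_iff₀ h0).2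
      (show 2 * ‖c‖ * ‖ν m w‖ < R by linarith))
    exact ⟨ρ, h1, fun s hs => (lt_div_iff₀ h0).1 (hs.trans_lt h2)⟩
  have hgc : ∀ d m i j w, w ∈ V → w ∈ D m → w ∈ L.U i → w ∈ L.U j →
      g d m i w = L.g i j w * g d m j w := fun d m i j w hw hm hi hj => by
    have h1 : Continuous fun s : ℂ => ‖s‖ * ‖ν m w‖ := by fun_prop
    refine cf_congr d ?_
    filter_upwards [h1.continuousAt.eventually (gt_mem_nhds (by simpa using hR))] with s hs
      using (hf' m w hw hm s hs i hi).2 j hj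
  refine ⟨V, R / 2, v, q, g, hV, hKV, Subset.rfl, half_pos hR, fun u hu hζ i hi => ?_,
    fun d w hw m hm => ⟨fun i hi => ⟨fun e he => ?_, fun j hj => hgc d m i j w hw hm hi hj⟩,
      fun k hk i _ => hg d m k i w hm hk⟩, fun m i w hw hm hi c hc => ?_⟩
  · have hm := hμ u
    have h1 := hT.pt_eq _ u hm
    refine ⟨?_, fun j hj => ?_⟩
    · obtain ⟨ρ, h2, h3⟩ := hρ _ _ hm (ζ u (μ u)) (by rwa [← hT.ζ_pt _ _ hm, h1])
      rw [← h1, h4 _ _ hm]
      intro e he
      refine (an_sum (F := fun p => f i (pt (μ u) (e.symm p.1) p.2)) h2 (fun s hs =>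
        (h4 _ _ hm s _).1 (hf' _ _ hu hm s (h3 s hs) i hi).1 e he) hl).congr ?_
      have h5 : ContinuousAt (fun p : Cm (n + 1) × ℂ => e.symm p.1) (e (pr u), ζ u (μ u)) :=
        ContinuousAt.comp (f := Prod.fst) (e.continuousAt_symm (e.map_source he.2))
          continuousAt_fst
      filter_upwards [h5.eventually ((hP.isOpen _).mem_nhds
        (show e.symm (e (pr u)) ∈ D (μ u) by rwa [e.left_inv he.2]))] with p hp
        using (hv i _ _ hp p.2).symm
    · show v i u = L.g i j (pr u) * v j u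
      rw [← tsum_mul_left]
      refine tsum_congr fun d => ?_
      rw [hgc d _ i j _ hu hm hi hj]
      ring
  · exact an_cf (F := fun p => f i (pt m (e.symm p.1) p.2)) d
      ((h4 m w hm 0 _).1 (hf' m w hw hm 0 (by simpa using hR) i hi).1 e he)
  · obtain ⟨ρ, h2, h3⟩ := hρ m w hm c hc
    have he : At (chartAt (Cm (n + 1)) w) w := ⟨chart_mem_atlas _ _, mem_chart_source _ _⟩
    rw [hv i m w hm, hv i m w hm]
    refine ident (f := fun s => f i (pt m w s)) h2 (fun s hs => ?_) hl hq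
    have h5 := AnalyticAt.comp (f := fun s : ℂ => (chartAt (Cm (n + 1)) w w, s))
      ((h4 m w hm s _).1 (hf' m w hw hm s (h3 s (mem_ball_zero_iff.1 hs).le) i hi).1 _ he)
      (analyticAt_const.prod analyticAt_id)
    simp only [Function.comp_def, (chartAt (Cm (n + 1)) w).left_inv he.2] at h5
    exact h5.differentiableAt.differentiableWithinAt

end Vale.Agent.P277Z.Pj
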