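import Vale.Agent.P277Z.Pj.Sk
import Vale.Agent.P277Z.Pj.Imm

/-!
# P277, block PROJ: the cone is proper and projective over the product
-/

set_option linter.unusedSectionVars false

open scoped Manifold ContDiff Topology
open Vale.Agent.P272.K Vale.Agent.P285.H281.FD Set Filter Metric
open Vale.Agent.P277 Vale.Agent.P277.H762 Vale.Agent.P277.PH

noncomputable section

namespace Vale.Agent.P277Z.Pj

/-- the first projection of the product -/
def cfst (N r : ℕ) : Cm (N + r) →L[ℂ] Cm N :=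
  ContinuousLinearMap.pi fun i => ContinuousLinearMap.proj (Fin.castAdd r i)

/-- the second projection of the product -/
def csnd (N r : ℕ) : Cm (N + r) →L[ℂ] Cm r :=
  ContinuousLinearMap.pi fun i => ContinuousLinearMap.proj (Fin.natAdd N i)

theorem mem_cyl {N r : ℕ} {Ω : Set (Cm N)} {z : Cm (N + r)} : z ∈ cyl Ω r ↔ cfst N r z ∈ Ω :=
  Iff.rfl

theorem cfst_cone {W T : Type} {N r : ℕ} (t : W → Cm N) (pr : T → W) (ζ : T → Cm r) (u : T) :
    cfst N r (cone t pr ζ u) = t (pr u) := funext fun i => Fin.append_left _ _ i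

theorem csnd_cone {W T : Type} {N r : ℕ} (t : W → Cm N) (pr : T → W) (ζ : T → Cm r) (u : T) :
    csnd N r (cone t pr ζ u) = ζ u := funext fun i => Fin.append_right _ _ i

theorem cone_eq_iff {W T : Type} {N r : ℕ} {t : W → Cm N} {pr : T → W} {ζ : T → Cm r} {u u' : T} :
    cone t pr ζ u' = cone t pr ζ u ↔ t (pr u') = t (pr u) ∧ ζ u' = ζ u :=
  ⟨fun h => ⟨by rw [← cfst_cone t pr ζ, h, cfst_cone], by rw [← csnd_cone t pr ζ, h, csnd_cone]⟩,
    fun h => by rw [cone, cone, h.1, h.2]⟩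

section

variable {n r : ℕ} {W T : Type} [TopologicalSpace W] [ChartedSpace (Cm n) W] [TopologicalSpace T]
  [ChartedSpace (Cm (n + 1)) T] {O : Set W} {D : Fin (r + 1) → Set W}
  {ν : Fin (r + 1) → W → Cm (r + 1)} {pr : T → W} {ζ : T → Cm (r + 1)}
  {pt : Fin (r + 1) → W → ℂ → T}

theorem Tot.cont_pr (h : Tot n D ν pr ζ pt) : Continuous pr := h.emb.continuous.fst

theorem Tot.cont_ζ (h : Tot n D ν pr ζ pt) : Continuous ζ := h.emb.continuous.snd

theorem Tot.ext (h : Tot n D ν pr ζ pt) {u u' : T} (h1 : pr u' = pr u) (h2 : ζ u' = ζ u) :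
    u' = u := h.emb.injective (Prod.ext h1 h2)

theorem Tot.ζ_eq (h : Tot n D ν pr ζ pt) {m : Fin (r + 1)} {u : T} (hu : pr u ∈ D m) :
    ζ u = ζ u m • ν m (pr u) := by
  rw [← h.ζ_pt m _ hu, h.pt_eq m u hu]

theorem Tot.ne (h : Tot n D ν pr ζ pt) {m : Fin (r + 1)} {u : T} (hu : pr u ∈ D m) (h0 : ζ u ≠ 0) :
    ζ u m ≠ 0 := fun h1 => h0 (by rw [h.ζ_eq hu, h1, zero_smul])

theorem Tot.mem_of_ne (h : Tot n D ν pr ζ pt) (hP : PMap n O D ν) {m : Fin (r + 1)} {u : T}
    (h0 : ζ u m ≠ 0) : pr u ∈ D m := by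
  obtain ⟨l, hl⟩ := h.mem u
  refine (hP.mem l m _ hl).2 fun h1 => h0 ?_
  rw [h.ζ_eq hl, Pi.smul_apply, h1, smul_zero]

theorem Tot.isCompact [T2Space W] (h : Tot n D ν pr ζ pt) (hP : PMap n O D ν) {K : Set W}
    (hK : IsCompact K) (hO : K ⊆ O) {K' : Set (Cm (r + 1))} (hK' : IsCompact K') :
    IsCompact (pr ⁻¹' K ∩ ζ ⁻¹' K') := by
  have hC := hK.prod hK'
  rw [h.emb.isCompact_iff]
  refine hC.of_isClosed_subset (isClosed_of_closure_subset fun x hx => ?_)
    (image_subset_iff.2 fun u hu => hu)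
  have h1 : x ∈ K ×ˢ K' := closure_minimal (image_subset_iff.2 fun u hu => hu) hC.isClosed hx
  obtain ⟨m, hm⟩ := (hP.cover _).1 (hO h1.1)
  have h2 : ContinuousAt (fun y : W × Cm (r + 1) => y.2 m • ν m y.1) x :=
    ((continuous_apply m).comp continuous_snd).continuousAt.smul
      ((holV_pi.2 (hP.hol m _ hm)).continuousAt.comp continuousAt_fst)
  have h3 : x.2 = x.2 m • ν m x.1 := tendsto_nhds_unique_of_frequently_eq continuousAt_snd h2
    (((mem_closure_iff_frequently.1 hx).and_eventually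
      (continuousAt_fst.eventually ((hP.isOpen m).mem_nhds hm))).mono (by
        rintro _ ⟨⟨u, -, rfl⟩, hu⟩
        exact h.ζ_eq hu))
  have h4 : (pr (pt m x.1 (x.2 m)), ζ (pt m x.1 (x.2 m))) = x :=
    Prod.ext (h.pr_pt m _ hm _) ((h.ζ_pt m _ hm _).trans h3.symm)
  exact ⟨_, (show (pr _, ζ _) ∈ K ×ˢ K' from h4.symm ▸ h1), h4⟩

end

/-- ROW TOTP -/
theorem totp_of (h : TOTH) : TOTP := by
  intro n W T _ _ _ _ _ _ _ r O D ν pr ζ pt hP hT N t Ω ht
  obtain ⟨a1, a2, a3, -, -⟩ := h n W T r O D ν pr ζ pt hP hT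
  have hO : ∀ u, pr u ∈ O := fun u => (hP.cover _).2 (hT.mem u)
  have hc : ∀ u, HolV (n + 1 + 1) (cone t pr ζ) u := fun u => holV_pi.2 fun i => by
    refine Fin.addCases (fun i => ?_) (fun i => ?_) i
    · simpa only [cone, Fin.append_left] using a1 u _ (ht.hol _ (hO u) i)
    · simpa only [cone, Fin.append_right] using a2 u i
  have h1 : Prp (n + 1 + 1) univ (cone t pr ζ) (cyl Ω (r + 1)) := by
    refine ⟨isOpen_univ, ht.isOpen'.preimage (cfst N (r + 1)).continuous,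
      fun u _ => holV_pi.1 (hc u), fun u _ => ?_, fun K hK hK' => ?_⟩
    · rw [mem_cyl, cfst_cone]
      exact ht.maps (hO u)
    · refine (hT.isCompact hP (ht.proper _ (image_subset_iff.2 hK)
        (hK'.image (cfst N (r + 1)).continuous)) inter_subset_left
        (hK'.image (csnd N (r + 1)).continuous)).of_isClosed_subset
        (isClosed_univ.inter (hK'.isClosed.preimage
          (continuous_iff_continuousAt.2 fun u => (hc u).continuousAt))) fun u hu => ?_
      exact ⟨⟨hO u, _, hu.2, cfst_cone ..⟩, _, hu.2, csnd_cone ..⟩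
  have h2 : ∀ (s : ℕ) (D' : Fin (s + 1) → Set W) (ν' : Fin (s + 1) → W → Cm (s + 1)),
      PEmb (n + 1) O t D' ν' → PEmb (n + 1 + 1) univ (cone t pr ζ) (fun m => pr ⁻¹' D' m)
        fun m u => ν' m (pr u) := fun s D' ν' h' => by
    refine ⟨⟨fun m => (h'.isOpen m).preimage hT.cont_pr,
      fun u => ⟨fun _ => (h'.cover _).1 (hO u), fun _ => trivial⟩,
      fun m u hu l => a1 u _ (h'.hol m _ hu l), fun m u hu => h'.one m _ hu,
      fun m l u hu => h'.mem m l _ hu, fun m l u hu => h'.chg m l _ hu⟩,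
      fun m u hu u' hu' b1 b2 => hT.ext (h'.inj m _ hu _ hu' (cone_eq_iff.1 b1).1 b2)
        (cone_eq_iff.1 b1).2, fun m u hu => ?_⟩
    obtain ⟨l, hl⟩ := hT.mem u
    have he := at_chartAt (n := n + 1) (pr u)
    obtain ⟨e', b1, b2, b3, -⟩ := hT.chart l _ he.1
    obtain ⟨G, b4, b5⟩ := (h'.imm m _ hu).chart_eq
      ((holV_pi.2 (ht.hol _ (hO u))).prod (holV_pi.2 (h'.hol m _ hu))) he
    refine imm_of_left_inv (e := e') ⟨b1, b2 ▸ ⟨hl, he.2⟩⟩
      ((hc u).prod (holV_pi.2 fun l => a1 u _ (h'.hol m _ hu l)))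
      (G := fun y => Fin.cons (csnd N (r + 1) y.1 l) (G (cfst N (r + 1) y.1, y.2)))
      (analyticAt_pi_iff.2 fun i => ?_) ?_
    · refine Fin.cases ?_ (fun i => ?_) i
      · exact analyticAt_pi_iff.1 (((csnd N (r + 1)).analyticAt _).comp analyticAt_fst) l
      · exact analyticAt_pi_iff.1 (AnalyticAt.fun_comp (g := G)
          (f := fun y : Cm (N + (r + 1)) × Cm (s + 1) => (cfst N (r + 1) y.1, y.2))
          (by rwa [cfst_cone])
          ((((cfst N (r + 1)).analyticAt _).comp analyticAt_fst).prod analyticAt_snd)) i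
    · filter_upwards [hT.cont_pr.continuousAt.eventually b5] with v hv
      rw [b3, hv, cfst_cone, csnd_cone]
  have h3 : univ ⊆ closure {u | ζ u ≠ 0} := fun u _ => by
    obtain ⟨m, hm⟩ := hT.mem u
    rw [← hT.pt_eq m u hm]
    refine ((a3 m _ hm (ζ u m)).comp (f := fun c => (pr u, c))
      (by fun_prop)).continuousWithinAt.mem_closure (dense_compl_singleton 0 _) fun c hc h0 => ?_
    have h4 := congrFun ((hT.ζ_pt m _ hm c).symm.trans h0) m
    rw [Pi.smul_apply, hP.one m _ hm, smul_eq_mul, mul_one] at h4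
    exact hc h4
  refine ⟨h1, h2, fun h' => ⟨⟨h1, h3.trans (closure_mono fun u hu => ⟨trivial, ?_⟩)⟩,
    h3.trans (closure_mono (interior_maximal (fun u hu => ⟨trivial, fun u' _ b1 => ?_⟩)
      (isOpen_ne_fun hT.cont_ζ continuous_const)))⟩⟩
  · obtain ⟨m, hm⟩ := hT.mem u
    have h4 := (csnd N (r + 1)).analyticAt (cone t pr ζ u)
    refine ((h2 r D ν h').imm m u hm).of_comp (hc u)
      (H := fun z => (z, (csnd N (r + 1) z m)⁻¹ • csnd N (r + 1) z))
      (analyticAt_id.prod (((analyticAt_pi_iff.1 h4 m).inv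
        (by rw [csnd_cone]; exact hT.ne hm hu)).smul h4)) ?_
    filter_upwards [((continuous_apply m).comp hT.cont_ζ).continuousAt.eventually_ne (hT.ne hm hu)]
      with v hv
    rw [csnd_cone, Prod.mk.injEq, eq_inv_smul_iff₀ (show ζ v m ≠ 0 from hv)]
    exact ⟨rfl, (hT.ζ_eq (hT.mem_of_ne hP hv)).symm⟩
  · obtain ⟨m, hm⟩ := hT.mem u
    obtain ⟨b2, b3⟩ := cone_eq_iff.1 b1
    have b4 := hT.ne hm hu
    have hm' := hT.mem_of_ne hP (u := u') (b3 ▸ b4)
    refine hT.ext (h'.inj m _ hm _ hm' b2 (smul_right_injective _ b4 ?_)) b3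
    have b5 := hT.ζ_eq hm'
    rw [b3] at b5
    exact b5.symm.trans (hT.ζ_eq hm)

end Vale.Agent.P277Z.Pj
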