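import Vale.Agent.P277Z.Pj.Tot
import Vale.Agent.P277Z.Pj.TotP
import Vale.Agent.P277Z.Pj.CohT
import Vale.Agent.P277Z.Pj.Solve
import Vale.Agent.P277Z.Pj.Gen
import Vale.Agent.P277Z.Pj.Rap
import Vale.Agent.P277Z.Pj.LocQ
import Vale.Agent.P277Z.Pj.GlueQ
import Vale.Agent.P277Z.Pj.Emb
import Vale.Agent.P277Z.Pj.Nrm
import Vale.Agent.P277Z.Pj.Norm
import Vale.Agent.P277Z.Pj.GenPt
import Vale.Agent.P277Z.Pj.Crit
import Vale.Agent.P277Z.Pj.Model
import Vale.Agent.P277Z.Pj.Qc
import Vale.Agent.P277Z.Coh.Vap

/-!
# P277, block PROJ: all statements from the finiteness theorem for bimeromorphic maps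
-/

namespace Vale.Agent.P277Z.Pj

theorem totp : TOTP := totp_of toth

theorem solve : SOLVE := solve_of toth

theorem nrm : NRM := nrm_of stb

theorem immc : IMMC := immc_of stb

theorem oemb : OEMB := oemb_of stb

namespace F

variable (h : Coh.FTS)

include h

theorem coht : COHT := coht_of tot_thm toth totp Coh.vap h

theorem remp : REMP := remp_of (coht h)

theorem gen : GEN := gen_of tot_thm toth totp (coht h) solve

theorem remg : REMG := remg_of (coht h) (remp h)

theorem locq : LOCQ := locq_of (gen h)

theorem emb : EMB := emb_of (gen h) stb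

theorem genpt : GENPT := genpt_of (gen h)

theorem proj : PROJ := proj_of (locq h) glueq stb descl (emb h)

theorem norm : NORM := norm_of (proj h) (locq h) (remg h) nrm stb

theorem finamp : FINAMP := finamp_of (emb h)

theorem model : StModel := model_of (proj h) (locq h) nrm descl (genpt h) oemb rap

end F

end Vale.Agent.P277Z.Pj
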