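import Vale.Agent.P277Z.Pj.Proj
import Vale.Agent.P277Z.Pj.Stb
import Vale.Agent.P277Z.Glc.BIso

/-!
# P277, block PROJ: anti-effective relatively ample line bundles, products of free systems
-/

open scoped Manifold ContDiff Topology
open Vale.Agent.P272.K Vale.Agent.P285.H281.FD Set Filter
open Vale.Agent.P277 Vale.Agent.P277.PH
open Vale.Agent.P277.HD (pull)
open Vale.Agent.P277.H60.Z (XH)
open Vale.Agent.P277Z.Coh (ScAt HomAt holSys)

noncomputable section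

namespace Vale.Agent.P277Z.Pj.Md

theorem amp_twist {Y X Z : CSp} {p : Y.pt → X.pt} {f : X.pt → Z.pt} (hp : ∀ y, HolMap Y X p y)
    (hf : ∀ x, HolMap X Z f x) {Q : Bd Y.pt} {M : Bd X.pt} (hM : IsLBx X M)
    (h : RelAmple Y Z (fun y => f (p y)) Q) : RelAmple Y X p (Q.mul (pull p M)) := by
  intro x
  obtain ⟨O, k, N, s, h1, h2, h3, h4, h5, h6, h7⟩ := h (f x)
  obtain ⟨j₀, hj₀⟩ := hM.cover x
  have hne : ∀ y j, p y ∈ M.U j → p y ∈ M.U j₀ → M.g j j₀ (p y) ^ k ≠ 0 := fun y j a b =>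
    pow_ne_zero _ (hM.ne_zero j j₀ _ a b)
  refine ⟨f ⁻¹' O ∩ M.U j₀, k, N, fun l i y => s l i.1 y * M.g i.2 j₀ (p y) ^ k,
    (h1.preimage (continuous_iff_continuousAt.2 fun y => (hf y).1)).inter (hM.isOpen j₀),
    ⟨h2, hj₀⟩, h3, fun l => ⟨fun i y hy hi => hol_mul ((h4 l).holo i.1 y hy.1 hi.1)
      (hol_pow ((hp y).2 _ (hM.holo i.2 j₀ _ hi.2 hy.2)) k), fun i j y hy hi hj => ?_⟩,
    fun y i hy hi => ?_, fun y y' i j hy e1 e2 hi hj => ?_, fun y i l hy hi e1 g hg => ?_⟩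
  · show s l i.1 y * M.g i.2 j₀ (p y) ^ k = (Q.g i.1 j.1 y * M.g i.2 j.2 (p y)) ^ k *
      (s l j.1 y * M.g j.2 j₀ (p y) ^ k)
    rw [(h4 l).change i.1 j.1 y hy.1 hi.1 hj.1, ← hM.cocycle i.2 j.2 j₀ _ hi.2 hj.2 hy.2]
    simp only [Bd.pow]
    ring
  · obtain ⟨l, hl⟩ := h5 y i.1 hy.1 hi.1
    exact ⟨l, mul_ne_zero hl (hne y _ hi.2 hy.2)⟩
  · obtain ⟨l, m, e3⟩ := h6 y y' i.1 j.1 hy.1 (congrArg f e1) e2 hi.1 hj.1
    refine ⟨l, m, fun e4 => e3 (mul_right_cancel₀ (mul_ne_zero (hne y _ hi.2 hy.2)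
      (hne y' _ hj.2 (e1 ▸ hy.2))) ?_)⟩
    linear_combination e4
  · obtain ⟨n, u, G, e2, e3, e4⟩ := h7 y i.1 l hy.1 hi.1 (left_ne_zero_of_mul e1) g hg
    refine ⟨n, fun a x => u a (f x), G, fun a => (hf _).2 _ (e2 a), ?_, ?_⟩
    · simpa only [mul_div_mul_right _ _ (hne y _ hi.2 hy.2)] using e3
    · filter_upwards [e4, (hp y).1.eventually (((hM.isOpen _).inter (hM.isOpen _)).mem_nhds
        ⟨hi.2, hy.2⟩)] with y' a b
      simpa only [mul_div_mul_right _ _ (hne y' _ b.1 b.2)] using a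

theorem lbx_inv {Y : CSp} {L : Bd Y.pt} (h : IsLBx Y L) : IsLBx Y (Bd.inv L) :=
  ⟨h.isOpen, h.cover, fun i j x hi hj => hol_inv (h.holo i j x hi hj) (h.ne_zero i j x hi hj),
    fun i j x hi hj => inv_ne_zero (h.ne_zero i j x hi hj), fun i j k x hi hj hk =>
      (mul_inv _ _).symm.trans (congrArg (·⁻¹) (h.cocycle i j k x hi hj hk))⟩

theorem lbx_mul {Y : CSp} {L M : Bd Y.pt} (h : IsLBx Y L) (h' : IsLBx Y M) : IsLBx Y (L.mul M) :=
  ⟨fun i => (h.isOpen i.1).inter (h'.isOpen i.2),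
    fun x => (h.cover x).elim fun i hi => (h'.cover x).elim fun j hj => ⟨(i, j), hi, hj⟩,
    fun _ _ x hi hj => hol_mul (h.holo _ _ x hi.1 hj.1) (h'.holo _ _ x hi.2 hj.2),
    fun _ _ x hi hj => mul_ne_zero (h.ne_zero _ _ x hi.1 hj.1) (h'.ne_zero _ _ x hi.2 hj.2),
    fun _ _ _ x hi hj hk => (mul_mul_mul_comm _ _ _ _).trans (congrArg₂ (· * ·)
      (h.cocycle _ _ _ x hi.1 hj.1 hk.1) (h'.cocycle _ _ _ x hi.2 hj.2 hk.2))⟩

variable {n : ℕ} {W : Type} [TopologicalSpace W] [T2Space W] [CompactSpace W]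
  [ChartedSpace (Cm n) W] [IsManifold 𝓘(ℂ, Cm n) ω W]

theorem lb_iff {L : Bd W} : IsLB n L ↔ IsLBx (XH n W) L :=
  ⟨fun h => ⟨h.isOpen, h.cover, fun i j x hi hj e he => (h.holo i j e x he hi hj).analyticAt,
      h.ne_zero, h.cocycle⟩,
    fun h => ⟨h.isOpen, h.cover, fun i j e x he hi hj => (h.holo i j x hi hj e he).contDiffAt,
      h.ne_zero, h.cocycle⟩⟩

theorem holMap {X : CSp} {p : W → X.pt} (h : HolTo n X p) (y : W) : HolMap (XH n W) X p y :=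
  ⟨h.cont.continuousAt, h.hol y⟩

/-- the zeros of a section of the dual of a relatively ample line bundle -/
theorem zero {Y : CSp} {ψ : W → Y.pt} (hS : Stein n Y ψ) {P : Bd W} (hP : IsLB n P)
    (hA : RelAmple (XH n W) Y ψ P) {τ : P.ι → W → ℂ} (hτ : IsSec n (Bd.inv P) τ) :
    (∀ w i, w ∈ P.U i → τ i w ≠ 0 → ∀ v, ψ v = ψ w → v = w) ∧
      IsAn Y univ (ψ '' {w | ∃ i, w ∈ P.U i ∧ τ i w = 0}) := by
  choose c hc using hP.cover
  have key : ∀ y, ∃ (O : Set Y.pt) (k N : ℕ) (s : Fin (N + 1) → P.ι → W → ℂ)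
      (H : Fin (N + 1) → Y.pt → ℂ), IsOpen O ∧ y ∈ O ∧ 1 ≤ k ∧
      (∀ w i, ψ w ∈ O → w ∈ P.U i → ∃ l, s l i w ≠ 0) ∧
      (∀ w w' i j, ψ w ∈ O → ψ w' = ψ w → w' ≠ w → w ∈ P.U i → w' ∈ P.U j →
        ∃ l m, s l i w * s m j w' ≠ s m i w * s l j w') ∧ (∀ l, Y.Hol (H l) y) ∧
      ∀ l w i, ψ w ∈ O → w ∈ P.U i → H l (ψ w) = s l i w * τ i w ^ k := fun y => by
    obtain ⟨O, k, N, s, h1, h2, h3, h4, h5, h6, -⟩ := hA y
    have e : ∀ l w i, ψ w ∈ O → w ∈ P.U i →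
        s l (c w) w * τ (c w) w ^ k = s l i w * τ i w ^ k := fun l w i a b => by
      have h7 := hP.ne_zero _ i w (hc w) b
      rw [(h4 l).change _ i w a (hc w) b, hτ.change _ i w (hc w) b]
      show P.g (c w) i w ^ k * _ * ((P.g (c w) i w)⁻¹ * _) ^ k = _
      rw [mul_pow, inv_pow]
      field_simp
    have hh : ∀ l y', y' ∈ O → ∀ w, ψ w = y' →
        HolF n (fun w => s l (c w) w * τ (c w) w ^ k) w := fun l y' a w b => by
      have a' : ψ w ∈ O := b ▸ a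
      have a1 : HolF n (fun v : W => s l (c w) v * τ (c w) v ^ k) w := fun ch hch =>
        ((h4 l).holo _ w a' (hc w) ch hch).mul ((hτ.holo _ ch w hch (hc w)).analyticAt.pow k)
      refine HolF.congr a1 ?_
      filter_upwards [(h1.preimage hS.cont).mem_nhds a', (hP.isOpen _).mem_nhds (hc w)]
        with v d1 d2 using (e l v _ d1 d2).symm
    exact ⟨O, k, N, s, fun l y' => (fun w => s l (c w) w * τ (c w) w ^ k)
      (Function.surjInv hS.surj y'), h1, h2, h3, h5, h6, fun l => (Stb.desc hS (hh l y h2)).1,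
      fun l w i a b => ((Stb.desc hS (hh l _ a)).2.self_of_nhds w rfl).symm.trans (e l w i a b)⟩
  refine ⟨fun w i hi h0 v hv => by_contra fun hne => ?_, fun y _ => ?_⟩
  · obtain ⟨O, k, N, s, H, -, h2, -, h4, h5, -, h7⟩ := key (ψ w)
    have h8 : ∀ l, s l i w * τ i w ^ k = s l (c v) v * τ (c v) v ^ k := fun l => by
      rw [← h7 l w i h2 hi, ← h7 l v _ (hv ▸ h2) (hc v), hv]
    obtain ⟨l₀, h9⟩ := h4 w i h2 hi
    have h10 := right_ne_zero_of_mul (h8 l₀ ▸ mul_ne_zero h9 (pow_ne_zero k h0))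
    obtain ⟨l, m, h11⟩ := h5 w v i _ h2 hv hne hi (hc v)
    refine h11 (mul_right_cancel₀ (mul_ne_zero (pow_ne_zero k h0) h10) ?_)
    linear_combination (s m (c v) v * τ (c v) v ^ k) * h8 l - (s l (c v) v * τ (c v) v ^ k) * h8 m
  · obtain ⟨O, k, N, s, H, h1, h2, h3, h4, -, h6, h7⟩ := key y
    refine ⟨N + 1, H, h6, ?_⟩
    filter_upwards [h1.mem_nhds h2] with y' hy'
    constructor
    · rintro ⟨w, ⟨i, hi, h0⟩, rfl⟩ l
      rw [h7 l w i hy' hi, h0, zero_pow (by omega), mul_zero]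
    · intro h0
      obtain ⟨w, rfl⟩ := hS.surj y'
      obtain ⟨l, hl⟩ := h4 w _ hy' (hc w)
      exact ⟨w, ⟨_, hc w, pow_eq_zero_iff (by omega) |>.1
        ((mul_eq_zero.1 ((h7 l w _ hy' (hc w)).symm.trans (h0 l))).resolve_left hl)⟩, rfl⟩

omit [T2Space W] [CompactSpace W] [IsManifold 𝓘(ℂ, Cm n) ω W] in
/-- products of free systems -/
theorem free_prod {R : ℕ} {M : Fin R → Bd W} {O : Set W} {r : Fin R → ℕ}
    {τ : ∀ i, Fin (r i + 1) → (M i).ι → W → ℂ} (h : ∀ i, FreeOn n (M i) O (τ i)) :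
    ∃ (s : ℕ) (a : Fin (s + 1) → ∀ i, Fin (r i + 1)),
      FreeOn n (HD.Bd.lin M fun _ => 1) O fun l I w => ∏ i, τ i (a l i) (I i) w := by
  obtain ⟨s, hs⟩ := Nat.exists_eq_succ_of_ne_zero
    (Fintype.card_ne_zero (α := ∀ i, Fin (r i + 1)))
  let e := (Fintype.equivFinOfCardEq hs).symm
  refine ⟨s, e, fun l w hw I hI => ⟨fun ch hch => Finset.analyticAt_fun_prod _ fun i _ =>
    ((h i).sec _ w hw _ (hI i)).1 ch hch, fun J hJ => ?_⟩, fun w hw I hI => ?_⟩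
  · change _ = (∏ i, (M i).g (I i) (J i) w ^ (1 : ℤ)) * _
    rw [← Finset.prod_mul_distrib]
    exact Finset.prod_congr rfl fun i _ => by
      rw [zpow_one, ← ((h i).sec _ w hw _ (hI i)).2 _ (hJ i)]
  · choose a ha using fun i => (h i).nz w hw (I i) (hI i)
    exact ⟨e.symm a, Finset.prod_ne_zero_iff.2 fun i _ => by
      rw [e.apply_symm_apply]; exact ha i⟩

end Vale.Agent.P277Z.Pj.Md
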