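import Vale.Agent.P277Z.Pj.Defs
import Vale.Agent.P277Z.Coh.FtS
import Vale.Agent.P277Z.Glc.Sk0
import Vale.Agent.P277.H60.Z.XH

/-!
# P277, block PROJ: cones, coherence, the Stein factorisation (statements)
-/

open scoped Manifold ContDiff Topology
open Vale.Agent.P272.K Vale.Agent.P285.H281.FD Set Filter Metric
open Vale.Agent.P277 Vale.Agent.P277.H762 Vale.Agent.P277.PH
open Vale.Agent.P277.HD (pull)
open Vale.Agent.P277.H60.Z (XH)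
open Vale.Agent.P277Z.Coh (ScAt LBOn prpBase holSys)

noncomputable section

namespace Vale.Agent.P277Z.Pj

section loc

variable {W : Type} [TopologicalSpace W]

theorem holF_cont {n : ℕ} [ChartedSpace (Cm n) W] {f : W → ℂ} {x : W} (h : HolF n f x) :
    ContinuousAt f x := (holSys n).cont h

/-- composition of an analytic function with a holomorphic map -/
theorem holF_comp {n N : ℕ} [ChartedSpace (Cm n) W] {t : W → Cm N} {x : W}
    (h : ∀ i, HolF n (fun w => t w i) x) {c : Cm N → ℂ} (hc : AnalyticAt ℂ c (t x)) :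
    HolF n (fun w => c (t w)) x := fun e he =>
  AnalyticAt.fun_comp (g := c) (f := fun z => t (e.symm z)) (by rwa [e.left_inv he.2])
    (analyticAt_pi_iff.2 fun i => h i e he)

variable (n : ℕ) [ChartedSpace (Cm n) W]

/-- A holomorphic map from `O` to the projective space; `ν m` is its expression in the affine chart
`D m`. -/
structure PMap (O : Set W) {r : ℕ} (D : Fin (r + 1) → Set W) (ν : Fin (r + 1) → W → Cm (r + 1)) :
    Prop where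
  isOpen : ∀ m, IsOpen (D m)
  cover : ∀ w, w ∈ O ↔ ∃ m, w ∈ D m
  hol : ∀ m, ∀ w ∈ D m, ∀ l, HolF n (fun w => ν m w l) w
  one : ∀ m, ∀ w ∈ D m, ν m w m = 1
  mem : ∀ m l, ∀ w ∈ D m, w ∈ D l ↔ ν m w l ≠ 0
  chg : ∀ m l, ∀ w ∈ D m, w ∈ D l → ν m w = ν m w l • ν l w

/-- `(t, ν)` is an injective immersion. -/
structure PEmb (O : Set W) {N r : ℕ} (t : W → Cm N) (D : Fin (r + 1) → Set W)
    (ν : Fin (r + 1) → W → Cm (r + 1)) : Prop extends PMap n O D ν where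
  inj : ∀ m, ∀ w ∈ D m, ∀ w' ∈ D m, t w' = t w → ν m w' = ν m w → w' = w
  imm : ∀ m, ∀ w ∈ D m, Imm n (fun w => (t w, ν m w)) w

/-- `t` is projective on `O`. -/
def Prj (O : Set W) {N : ℕ} (t : W → Cm N) : Prop :=
  ∃ (r : ℕ) (D : Fin (r + 1) → Set W) (ν : Fin (r + 1) → W → Cm (r + 1)), PEmb n O t D ν

/-- `T` is the total space of the pull back of the tautological bundle. -/
structure Tot {r : ℕ} (D : Fin (r + 1) → Set W) (ν : Fin (r + 1) → W → Cm (r + 1)) {T : Type}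
    [TopologicalSpace T] [ChartedSpace (Cm (n + 1)) T] (pr : T → W) (ζ : T → Cm (r + 1))
    (pt : Fin (r + 1) → W → ℂ → T) : Prop where
  emb : Topology.IsEmbedding fun u => (pr u, ζ u)
  mem : ∀ u, ∃ m, pr u ∈ D m
  pr_pt : ∀ m, ∀ w ∈ D m, ∀ c, pr (pt m w c) = w
  ζ_pt : ∀ m, ∀ w ∈ D m, ∀ c, ζ (pt m w c) = c • ν m w
  pt_eq : ∀ m u, pr u ∈ D m → pt m (pr u) (ζ u m) = u
  chart : ∀ m, ∀ e ∈ atlas (Cm n) W, ∃ e' ∈ atlas (Cm (n + 1)) T,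
    e'.source = pr ⁻¹' (D m ∩ e.source) ∧ (∀ u, e' u = Fin.cons (ζ u m) (e (pr u))) ∧
    ∀ z, e'.symm z = pt m (e.symm (Fin.tail z)) (z 0)

/-- `g` is near `w` a section of `L ⊗ O(d)`; `g m` is its expression in the chart `D m`. -/
def SecD (L : Bd W) {r : ℕ} (D : Fin (r + 1) → Set W) (ν : Fin (r + 1) → W → Cm (r + 1)) (d : ℕ)
    (g : Fin (r + 1) → L.ι → W → ℂ) (w : W) : Prop :=
  ∀ m, w ∈ D m → ScAt (HolF n) L (g m) w ∧
    ∀ l, w ∈ D l → ∀ i, w ∈ L.U i → g l i w = ν l w m ^ d * g m i w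

end loc

/-- the map from the cone to the product of the base and the vector space -/
def cone {W T : Type} {N r : ℕ} (t : W → Cm N) (pr : T → W) (ζ : T → Cm r) (u : T) : Cm (N + r) :=
  Fin.append (t (pr u)) (ζ u)

/-- the product of `Ω` and the vector space -/
def cyl {N : ℕ} (Ω : Set (Cm N)) (r : ℕ) : Set (Cm (N + r)) :=
  {z | (fun i => z (Fin.castAdd r i)) ∈ Ω}

/-- ROW TOT: the cone exists. -/
def TOT : Prop :=
  AllM fun n W _ _ => ∀ (O : Set W) (r : ℕ) (D : Fin (r + 1) → Set W)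
    (ν : Fin (r + 1) → W → Cm (r + 1)), PMap (n + 1) O D ν → O.Nonempty →
    ∃ (T : Type) (_ : TopologicalSpace T) (_ : T2Space T) (_ : SecondCountableTopology T)
      (_ : ChartedSpace (Cm (n + 1 + 1)) T) (_ : IsManifold 𝓘(ℂ, Cm (n + 1 + 1)) ω T)
      (pr : T → W) (ζ : T → Cm (r + 1)) (pt : Fin (r + 1) → W → ℂ → T), Tot (n + 1) D ν pr ζ pt

/-- a statement on all cones -/
def AllT (P : ∀ (n : ℕ) (W T : Type) [TopologicalSpace W] [ChartedSpace (Cm (n + 1)) W]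
    [TopologicalSpace T] [ChartedSpace (Cm (n + 1 + 1)) T] (r : ℕ), Set W →
    (Fin (r + 1) → Set W) → (Fin (r + 1) → W → Cm (r + 1)) → (T → W) → (T → Cm (r + 1)) →
    (Fin (r + 1) → W → ℂ → T) → Prop) : Prop :=
  ∀ (n : ℕ) (W T : Type) [TopologicalSpace W] [T2Space W] [ChartedSpace (Cm (n + 1)) W]
    [IsManifold 𝓘(ℂ, Cm (n + 1)) ω W] [TopologicalSpace T] [ChartedSpace (Cm (n + 1 + 1)) T]
    [IsManifold 𝓘(ℂ, Cm (n + 1 + 1)) ω T] (r : ℕ) (O : Set W) (D : Fin (r + 1) → Set W)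
    (ν : Fin (r + 1) → W → Cm (r + 1)) (pr : T → W) (ζ : T → Cm (r + 1))
    (pt : Fin (r + 1) → W → ℂ → T), PMap (n + 1) O D ν → Tot (n + 1) D ν pr ζ pt →
    P n W T r O D ν pr ζ pt

/-- ROW TOTH: holomorphic functions on the cone. -/
def TOTH : Prop :=
  AllT fun n W T _ _ _ _ _ O D _ pr ζ pt =>
    (∀ u f, HolF (n + 1) f (pr u) → HolF (n + 1 + 1) (fun u => f (pr u)) u) ∧
    (∀ u l, HolF (n + 1 + 1) (fun u => ζ u l) u) ∧
    (∀ m, ∀ w ∈ D m, ∀ c, ContinuousAt (fun p : W × ℂ => pt m p.1 p.2) (w, c)) ∧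
    (∀ m, ∀ w ∈ D m, ∀ (c : ℂ) (f : T → ℂ), HolF (n + 1 + 1) f (pt m w c) ↔
      ∀ e : Chart (n + 1) W, At e w →
        AnalyticAt ℂ (fun p : Cm (n + 1) × ℂ => f (pt m (e.symm p.1) p.2)) (e w, c)) ∧
    ∀ L : Bd W, LBOn (n + 1) O L → IsLB (n + 1 + 1) (pull pr L)

/-- ROW TOTP: the cone is proper and projective over the product. -/
def TOTP : Prop :=
  AllT fun n _ _ _ _ _ _ r O D ν pr ζ _ => ∀ (N : ℕ) (t : _ → Cm N) (Ω : Set (Cm N)),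
    Prp (n + 1) O t Ω → Prp (n + 1 + 1) univ (cone t pr ζ) (cyl Ω (r + 1)) ∧
      (∀ (s : ℕ) (D' : Fin (s + 1) → Set _) (ν' : Fin (s + 1) → _ → Cm (s + 1)),
        PEmb (n + 1) O t D' ν' → PEmb (n + 1 + 1) univ (cone t pr ζ) (fun m => pr ⁻¹' D' m)
          fun m u => ν' m (pr u)) ∧
      (PEmb (n + 1) O t D ν → Bim (n + 1 + 1) univ (cone t pr ζ) (cyl Ω (r + 1)))

/-- ROW COHT: direct images of line bundles by projective maps are coherent. -/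
def COHT : Prop :=
  AllM fun n W _ _ => ∀ (N : ℕ) (O : Set W) (t : W → Cm N) (Ω : Set (Cm N))
    (h : Prp (n + 1) O t Ω), Prj (n + 1) O t → ∀ L : Bd W, LBOn (n + 1) O L → ∀ z ∈ Ω,
      ((prpBase h).img L).FT z ∧ ((prpBase h).img L).RelFT z

/-- ROW REMP: the image of a projective map is analytic. -/
def REMP : Prop :=
  AllM fun n W _ _ => ∀ (N : ℕ) (O : Set W) (t : W → Cm N) (Ω : Set (Cm N)),
    Prp (n + 1) O t Ω → Prj (n + 1) O t → ∀ z ∈ Ω, ∃ (m : ℕ) (h : Fin m → Cm N → ℂ),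
      (∀ i, AnalyticAt ℂ (h i) z) ∧ ∀ᶠ y in 𝓝 z, (y ∈ t '' O ↔ ∀ i, h i y = 0)

/-- ROW SOLVE: the equation `u (c / 2) - a u (c) = f` on the cone has a solution modulo homogeneous
sections. -/
def SOLVE : Prop :=
  AllT fun n W T _ _ _ _ r O D ν pr ζ pt => ∀ (L : Bd W) (K V : Set W) (R : ℝ), LBOn (n + 1) O L →
    IsCompact K → IsOpen V → K ⊆ V → V ⊆ O → 0 < R → ∀ (f : L.ι → T → ℂ) (a : ℂ),
    (∀ u, pr u ∈ V → ‖ζ u‖ < R → ScAt (HolF (n + 1 + 1)) (pull pr L) f u) →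
    ∃ (V' : Set W) (R' : ℝ) (v : L.ι → T → ℂ) (q : ℕ) (g : ℕ → Fin (r + 1) → L.ι → W → ℂ),
      IsOpen V' ∧ K ⊆ V' ∧ V' ⊆ V ∧ 0 < R' ∧
      (∀ u, pr u ∈ V' → ‖ζ u‖ < R' → ScAt (HolF (n + 1 + 1)) (pull pr L) v u) ∧
      (∀ d, ∀ w ∈ V', SecD (n + 1) L D ν d (g d) w) ∧
      ∀ m i, ∀ w ∈ V', w ∈ D m → w ∈ L.U i → ∀ c : ℂ, ‖c • ν m w‖ < R' →
        f i (pt m w c) = v i (pt m w (c / 2)) - a * v i (pt m w c) +
          ∑ d ∈ Finset.range q, c ^ d * g d m i w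

/-- ROW GEN: the germs along the fibres of `(t, ν)` are generated by sections over the base. -/
def GEN : Prop :=
  AllM fun n W _ _ => ∀ (N : ℕ) (O : Set W) (t : W → Cm N) (Ω : Set (Cm N)),
    Prp (n + 1) O t Ω → Prj (n + 1) O t → ∀ (r : ℕ) (D : Fin (r + 1) → Set W)
    (ν : Fin (r + 1) → W → Cm (r + 1)), PMap (n + 1) O D ν → ∀ L : Bd W, LBOn (n + 1) O L →
    ∀ z ∈ Ω, ∃ (U : Set (Cm N)) (q : ℕ) (d : Fin q → ℕ)
      (g : Fin q → Fin (r + 1) → L.ι → W → ℂ), IsOpen U ∧ z ∈ U ∧ U ⊆ Ω ∧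
      (∀ a, ∀ w ∈ O, t w ∈ U → SecD (n + 1) L D ν (d a) (g a) w) ∧
      ∀ m, ∀ y ∈ U, ∀ (η : Cm (r + 1)) (s : L.ι → W → ℂ),
        (∀ w ∈ D m, t w = y → ν m w = η → ∀ᶠ w' in 𝓝 w, ScAt (HolF (n + 1)) L s w') →
        ∃ c : Fin q → Cm N × Cm (r + 1) → ℂ, (∀ a, AnalyticAt ℂ (c a) (y, η)) ∧
          ∀ w ∈ D m, t w = y → ν m w = η → ∀ᶠ w' in 𝓝 w, ∀ i, w' ∈ L.U i →
            s i w' = ∑ a, c a (t w', ν m w') * g a m i w'

/-! ### compact manifolds over spaces -/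

section glob

variable (n : ℕ) {W : Type} [TopologicalSpace W] [ChartedSpace (Cm n) W]

/-- `p` is holomorphic. -/
structure HolTo (X : CSp) (p : W → X.pt) : Prop where
  cont : Continuous p
  hol : ∀ w g, X.Hol g (p w) → HolF n (fun w => g (p w)) w

/-- `p` is projective, locally over the base. -/
def GPrj (X : CSp) (p : W → X.pt) : Prop :=
  ∀ x, ∃ (N k : ℕ) (V : Set X.pt) (Ω : Set (Cm N)) (h : Fin k → Cm N → ℂ) (ψ : X.pt → Cm N),
    x ∈ V ∧ IsModel X.Hol V Ω h ψ ∧ Prj n (p ⁻¹' V) fun w => ψ (p w)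

/-- `p` is an immersion at `w`. -/
def ImmTo (X : CSp) (p : W → X.pt) (w : W) : Prop :=
  ∃ (k : ℕ) (g : X.pt → Cm k), (∀ a, X.Hol (fun x => g x a) (p w)) ∧ Imm n (fun w => g (p w)) w

/-- `φ_* O_W = O_Y` -/
structure Stein (Y : CSp) (φ : W → Y.pt) : Prop extends HolTo n Y φ where
  surj : Function.Surjective φ
  desc : ∀ y (h : W → ℂ), (∀ w, φ w = y → HolF n h w) →
    ∃ f, Y.Hol f y ∧ ∀ w, φ w = y → ∀ᶠ w' in 𝓝 w, h w' = f (φ w')

/-- the sections `τ l` of `M` over `O` have no common zero -/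
structure FreeOn (M : Bd W) (O : Set W) {r : ℕ} (τ : Fin (r + 1) → M.ι → W → ℂ) : Prop where
  sec : ∀ l, ∀ w ∈ O, ScAt (HolF n) M (τ l) w
  nz : ∀ w ∈ O, ∀ i, w ∈ M.U i → ∃ l, τ l i w ≠ 0

/-- `M` is generated by its sections, locally over the base -/
def Free {X : CSp} (p : W → X.pt) (M : Bd W) : Prop :=
  ∀ x, ∃ (V : Set X.pt) (r : ℕ) (τ : Fin (r + 1) → M.ι → W → ℂ), IsOpen V ∧ x ∈ V ∧
    FreeOn n M (p ⁻¹' V) τ

/-- the fibre through `w` of the map defined by `p` and the sections `τ l` -/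
def Fib {X : Type} (p : W → X) (M : Bd W) {κ : Type} (τ : κ → M.ι → W → ℂ) (w : W) : Set W :=
  {w' | p w' = p w ∧ ∀ l m i j, w ∈ M.U i → w' ∈ M.U j → τ l i w * τ m j w' = τ m i w * τ l j w'}

/-- the sections of `M` near the fibre of `p` over `x` -/
def Germ {X : Type} (p : W → X) (M : Bd W) (x : X) : Type :=
  {s : M.ι → W → ℂ // ∀ v, p v = x → ∀ᶠ v' in 𝓝 v, ScAt (HolF n) M s v'}

/-- the fibre through `w` of the Stein factorisation of the map defined by `p` and `M` -/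
def Cls {X : Type} (p : W → X) (M : Bd W) (w : W) : Set W :=
  connectedComponentIn (Fib p M (fun s : Germ n p M (p w) => s.1) w) w

/-- local models for the quotient of `W` with the classes `C w` -/
def QCh (C : W → Set W) : Prop :=
  ∀ w₀, ∃ (O : Set W) (N : ℕ) (t : W → Cm N) (Ω : Set (Cm N)), w₀ ∈ O ∧ Gfin n O t Ω ∧
    ∀ w ∈ O, C w = {w' | w' ∈ O ∧ t w' = t w} ∧ ∀ h : W → ℂ, (∀ w' ∈ C w, HolF n h w') →
      ∃ c : Cm N → ℂ, AnalyticAt ℂ c (t w) ∧ ∀ w' ∈ C w, ∀ᶠ v in 𝓝 w', h v = c (t v)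

/-- `u` is an isomorphism from `φ^* L` to `M` (on coefficients: `s j = u i j * s' i`) -/
structure PIso {Y : Type} (φ : W → Y) (L : Bd Y) (M : Bd W) (u : L.ι → M.ι → W → ℂ) : Prop where
  hol : ∀ i j w, φ w ∈ L.U i → w ∈ M.U j → HolF n (u i j) w ∧ u i j w ≠ 0
  chg : ∀ i i' j j' w, φ w ∈ L.U i → φ w ∈ L.U i' → w ∈ M.U j → w ∈ M.U j' →
    u i j w * L.g i i' (φ w) = M.g j j' w * u i' j' w

end glob

/-- the conclusion of `RelAmple` at the point `z` -/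
def AmpAt (X Z : CSp) (f : X.pt → Z.pt) (L : Bd X.pt) (z : Z.pt) : Prop :=
  ∃ (V : Set Z.pt) (k N : ℕ) (s : Fin (N + 1) → L.ι → X.pt → ℂ), IsOpen V ∧ z ∈ V ∧ 1 ≤ k ∧
    (∀ l, IsSecx X (f ⁻¹' V) (L.pow k) (s l)) ∧
    (∀ x i, f x ∈ V → x ∈ L.U i → ∃ l, s l i x ≠ 0) ∧
    (∀ x x' i j, f x ∈ V → f x' = f x → x' ≠ x → x ∈ L.U i → x' ∈ L.U j →
      ∃ l m, s l i x * s m j x' ≠ s m i x * s l j x') ∧
    (∀ x i l, f x ∈ V → x ∈ L.U i → s l i x ≠ 0 → ∀ h, X.Hol h x →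
      ∃ (M : ℕ) (g : Fin M → Z.pt → ℂ) (G : Cm M × Cm (N + 1) → ℂ),
        (∀ a, Z.Hol (g a) (f x)) ∧
        AnalyticAt ℂ G (fun a => g a (f x), fun m => s m i x / s l i x) ∧
        h =ᶠ[𝓝 x] fun y => G (fun a => g a (f y), fun m => s m i y / s l i y))

theorem relAmple_iff {X Z : CSp} {f : X.pt → Z.pt} {L : Bd X.pt} :
    RelAmple X Z f L ↔ ∀ z, AmpAt X Z f L z := Iff.rfl

/-- a statement on all compact manifolds of dimension `n + 1` -/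
def AllC (P : ∀ (n : ℕ) (W : Type) [TopologicalSpace W] [T2Space W] [CompactSpace W]
    [ChartedSpace (Cm (n + 1)) W] [IsManifold 𝓘(ℂ, Cm (n + 1)) ω W], Prop) : Prop :=
  ∀ (n : ℕ) (W : Type) [TopologicalSpace W] [T2Space W] [CompactSpace W]
    [ChartedSpace (Cm (n + 1)) W] [IsManifold 𝓘(ℂ, Cm (n + 1)) ω W], P n W

/-- ROW RAP: a map with a relatively ample line bundle is projective. -/
def RAP : Prop :=
  AllC fun n W _ _ _ _ _ => ∀ (X : CSp) (p : W → X.pt) (P : Bd W), HolTo (n + 1) X p →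
    IsLB (n + 1) P → RelAmple (XH (n + 1) W) X p P → GPrj (n + 1) X p

/-- ROW PRJC: projectivity passes to the intermediate spaces. -/
def PRJC : Prop :=
  AllC fun n W _ _ _ _ _ => ∀ (X Y : CSp) (φ : W → Y.pt) (q : Y.pt → X.pt), HolTo (n + 1) Y φ →
    (∀ y, HolMap Y X q y) → GPrj (n + 1) X (fun w => q (φ w)) → GPrj (n + 1) Y φ

/-- ROW REMG: the image of a projective map is analytic; its fibres have finitely many
components. -/
def REMG : Prop :=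
  AllC fun n W _ _ _ _ _ => ∀ (X : CSp) (p : W → X.pt), HolTo (n + 1) X p → GPrj (n + 1) X p →
    IsAn X univ (range p) ∧ ∀ x, {C | ∃ w, p w = x ∧ C = connectedComponentIn (p ⁻¹' {x}) w}.Finite

/-- ROW LOCQ: the local models of the Stein factorisation. -/
def LOCQ : Prop :=
  AllC fun n W _ _ _ _ _ => ∀ (X : CSp) (p : W → X.pt) (M : Bd W), HolTo (n + 1) X p →
    GPrj (n + 1) X p → Dense {w | ImmTo (n + 1) X p w} → IsLB (n + 1) M → Free (n + 1) p M →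
    QCh (n + 1) (Cls (n + 1) p M) ∧
    ∀ (V : Set X.pt) (r : ℕ) (τ : Fin (r + 1) → M.ι → W → ℂ), IsOpen V →
      FreeOn (n + 1) M (p ⁻¹' V) τ → ∀ w, p w ∈ V →
        Cls (n + 1) p M w = connectedComponentIn (Fib p M τ w) w

/-- ROW GLUEQ: the quotient space. -/
def GLUEQ : Prop :=
  AllC fun n W _ _ _ _ _ => ∀ C : W → Set W, QCh (n + 1) C →
    ∃ (Y : CSp) (φ : W → Y.pt), Stein (n + 1) Y φ ∧ ∀ w w', φ w' = φ w ↔ w' ∈ C w

/-- ROW STB: maps with `φ_* O = O`. -/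
def STB : Prop :=
  AllC fun n W _ _ _ _ _ => ∀ (Y : CSp) (φ : W → Y.pt), Stein (n + 1) Y φ →
    (∀ y f, (∀ w, φ w = y → HolF (n + 1) (fun w => f (φ w)) w) → Y.Hol f y) ∧
    (∀ y, IsConnected (φ ⁻¹' {y})) ∧
    (∀ (Z : CSp) (ψ : W → Z.pt), HolTo (n + 1) Z ψ → (∀ w w', φ w' = φ w → ψ w' = ψ w) →
      ∃ q : Y.pt → Z.pt, (∀ y, HolMap Y Z q y) ∧ ∀ w, q (φ w) = ψ w) ∧
    IsOpen {w | ∀ w', φ w' = φ w → w' = w} ∧
    (∀ w, (∀ w', φ w' = φ w → w' = w) ↔ ImmTo (n + 1) Y φ w) ∧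
    (∀ w, (∀ w', φ w' = φ w → w' = w) → IsReg (n + 1) Y (φ w) ∧ map φ (𝓝 w) = 𝓝 (φ w)) ∧
    ∀ (L : Bd Y.pt) (V : Set Y.pt) (s : L.ι → W → ℂ), IsLBx Y L → IsOpen V →
      (∀ w, φ w ∈ V → ScAt (HolF (n + 1)) (pull φ L) s w) →
      ∃ s', IsSecx Y V L s' ∧ ∀ i w, φ w ∈ V → φ w ∈ L.U i → s i w = s' i (φ w)

/-- ROW DESCL: a line bundle which is trivial near the fibres descends. -/
def DESCL : Prop :=
  AllC fun n W _ _ _ _ _ => ∀ (Y : CSp) (φ : W → Y.pt) (M : Bd W), Stein (n + 1) Y φ →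
    IsLB (n + 1) M → (∀ y, ∃ s : M.ι → W → ℂ, ∀ w, φ w = y →
      (∀ᶠ v in 𝓝 w, ScAt (HolF (n + 1)) M s v) ∧ NZ M s w) →
    ∃ (L : Bd Y.pt) (u : L.ι → M.ι → W → ℂ), IsLBx Y L ∧ PIso (n + 1) φ L M u

/-- ROW EMB: a free line bundle which defines a finite map is ample. -/
def EMB : Prop :=
  AllC fun n W _ _ _ _ _ => ∀ (X Y : CSp) (φ : W → Y.pt) (q : Y.pt → X.pt) (L : Bd Y.pt),
    Stein (n + 1) Y φ → (∀ y, HolMap Y X q y) → GPrj (n + 1) X (fun w => q (φ w)) → IsLBx Y L →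
    ∀ (V : Set X.pt) (r : ℕ) (τ : Fin (r + 1) → L.ι → Y.pt → ℂ), IsOpen V →
      (∀ l, IsSecx Y (q ⁻¹' V) L (τ l)) → (∀ y i, q y ∈ V → y ∈ L.U i → ∃ l, τ l i y ≠ 0) →
      (∀ w, q (φ w) ∈ V → ∀ w' ∈ connectedComponentIn (φ ⁻¹' Fib q L τ (φ w)) w, φ w' = φ w) →
      ∀ x ∈ V, AmpAt Y X q L x

/-- ROW NRM: the target of a bimeromorphic map with `φ_* O = O` is normal. -/
def NRM : Prop :=
  ∀ (n : ℕ) (W : Type) [TopologicalSpace W] [T2Space W] [CompactSpace W]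
    [ChartedSpace (Cm (n + 1 + 1)) W] [IsManifold 𝓘(ℂ, Cm (n + 1 + 1)) ω W] [Nonempty W]
    (Y : CSp) (φ : W → Y.pt), Stein (n + 1 + 1) Y φ → Dense {w | ImmTo (n + 1 + 1) Y φ w} →
    IsNormal (n + 1 + 1) Y ∧ DimLe Y n {y | ¬ (φ ⁻¹' {y}).Subsingleton}

/-- **PROJ**: the ample model of a free line bundle. -/
def PROJ : Prop :=
  AllC fun n W _ _ _ _ _ => ∀ (X : CSp) (p : W → X.pt) (M : Bd W), HolTo (n + 1) X p →
    GPrj (n + 1) X p → Dense {w | ImmTo (n + 1) X p w} → IsLB (n + 1) M → Free (n + 1) p M →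
    ∃ (Y : CSp) (φ : W → Y.pt) (q : Y.pt → X.pt) (L : Bd Y.pt) (u : L.ι → M.ι → W → ℂ),
      Stein (n + 1) Y φ ∧ (∀ y, HolMap Y X q y) ∧ (∀ w, q (φ w) = p w) ∧ IsLBx Y L ∧
      PIso (n + 1) φ L M u ∧ RelAmple Y X q L ∧ ∀ w w', φ w' = φ w ↔ w' ∈ Cls (n + 1) p M w

/-- **NORM**: the normalisation of the image. -/
def NORM : Prop :=
  ∀ (W : Type) [TopologicalSpace W] [T2Space W] [CompactSpace W] [ChartedSpace (Cm 4) W]
    [IsManifold 𝓘(ℂ, Cm 4) ω W] [Nonempty W] (X : CSp) (p : W → X.pt) (B : Set X.pt),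
    HolTo 4 X p → GPrj 4 X p → IsAn X univ B → Dense (p ⁻¹' Bᶜ) →
    (∀ w, p w ∉ B → ImmTo 4 X p w ∧ ∀ w', p w' = p w → w' = w) →
    ∃ (V : CSp) (ν : V.pt → X.pt) (u : W → V.pt), Glc.IsNorm V X ν B ∧ Stein 4 V u ∧
      ∀ w, ν (u w) = p w

/-- **FINAMP**: the pull back of a relatively ample line bundle by a finite map. -/
def FINAMP : Prop :=
  AllC fun n W _ _ _ _ _ => ∀ (V X Z V₁ : CSp) (u : W → V.pt) (ν : V.pt → X.pt) (f : X.pt → Z.pt)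
    (F : V.pt → V₁.pt) (ν₁ : V₁.pt → Z.pt) (L : Bd X.pt), Stein (n + 1) V u →
    GPrj (n + 1) Z (fun w => f (ν (u w))) → (∀ v, HolMap V X ν v) → (∀ x, (ν ⁻¹' {x}).Finite) →
    (∀ x, HolMap X Z f x) → (∀ v, HolMap V V₁ F v) → (∀ v, HolMap V₁ Z ν₁ v) →
    (∀ v, ν₁ (F v) = f (ν v)) → IsLBx X L → RelAmple X Z f L → RelAmple V V₁ F (pull ν L)

end Vale.Agent.P277Z.Pj
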