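import Vale.Agent.P277Z.Pj.Sk

/-!
# P277, block PROJ: criteria for contraction and embedding (statements)
-/

open scoped Manifold ContDiff Topology
open Vale.Agent.P272.K Vale.Agent.P285.H281.FD Set Filter Metric
open Vale.Agent.P277 Vale.Agent.P277.H762 Vale.Agent.P277.PH
open Vale.Agent.P277.HD (pull)
open Vale.Agent.P277Z.Coh (ScAt LBOn prpBase holSys)

noncomputable section

namespace Vale.Agent.P277Z.Pj

/-- ROW GENPT: if `N` has a section near a fibre of the Stein factorisation which does not vanish at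
`w`, then some `N ⊗ M^k` has a section over the base which does not vanish at `w`. -/
def GENPT : Prop :=
  AllC fun n W _ _ _ _ _ => ∀ (X : CSp) (p : W → X.pt) (M N : Bd W), HolTo (n + 1) X p →
    GPrj (n + 1) X p → IsLB (n + 1) M → IsLB (n + 1) N → ∀ (V : Set X.pt) (r : ℕ)
    (τ : Fin (r + 1) → M.ι → W → ℂ), IsOpen V → FreeOn (n + 1) M (p ⁻¹' V) τ → ∀ w, p w ∈ V →
    (connectedComponentIn (Fib p M τ w) w = {w} ∨ ∃ s : N.ι → W → ℂ, NZ N s w ∧
      ∀ v ∈ connectedComponentIn (Fib p M τ w) w, ∀ᶠ v' in 𝓝 v, ScAt (HolF (n + 1)) N s v') →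
    ∃ (k : ℕ) (V' : Set X.pt) (g : (N.mul (M.pow k)).ι → W → ℂ), IsOpen V' ∧ p w ∈ V' ∧
      (∀ v, p v ∈ V' → ScAt (HolF (n + 1)) (N.mul (M.pow k)) g v) ∧ NZ (N.mul (M.pow k)) g w

/-- ROW IMMC: if sections of a line bundle pulled back from `Y` define an immersion at `w`, then the
fibre through `w` is a point. -/
def IMMC : Prop :=
  AllC fun n W _ _ _ _ _ => ∀ (Y : CSp) (φ : W → Y.pt) (M : Bd W), Stein (n + 1) Y φ →
    IsLB (n + 1) M → ∀ (w : W) (τ : M.ι → W → ℂ) (a b : ℕ) (s : Fin (b + 1) → M.ι → W → ℂ)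
    (F : W → Cm a) (i : M.ι),
    (∀ v, φ v = φ w → (∀ᶠ v' in 𝓝 v, ScAt (HolF (n + 1)) M τ v') ∧ NZ M τ v) →
    (∀ l v, φ v = φ w → ∀ᶠ v' in 𝓝 v, ScAt (HolF (n + 1)) M (s l) v') →
    (∀ j v, φ v = φ w → HolF (n + 1) (fun v => F v j) v) → w ∈ M.U i → s 0 i w ≠ 0 →
    Imm (n + 1) (fun v => (F v, fun l => s l i v / s 0 i v)) w → ∀ v, φ v = φ w → v = w

/-- ROW OEMB: the map is an open embedding where the fibres are points. -/
def OEMB : Prop :=
  ∀ (W : Type) [TopologicalSpace W] [T2Space W] [CompactSpace W] [ChartedSpace (Cm 4) W]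
    [IsManifold 𝓘(ℂ, Cm 4) ω W] (Y : CSp) (φ : W → Y.pt), Stein 4 Y φ →
    IsOpenEmb Y {w | ∀ w', φ w' = φ w → w' = w} φ

/-- ROW PRJS: projectivity passes to submanifolds. -/
def PRJS : Prop :=
  ∀ (d n : ℕ) (H W : Type) [TopologicalSpace H] [ChartedSpace (Cm d) H]
    [IsManifold 𝓘(ℂ, Cm d) ω H] [TopologicalSpace W] [ChartedSpace (Cm n) W]
    [IsManifold 𝓘(ℂ, Cm n) ω W] (X : CSp) (p : W → X.pt) (ι : H → W), Continuous ι →
    Function.Injective ι → (∀ (y : H) (e : Chart d H) (e' : Chart n W), At e y → At e' (ι y) →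
      AnalyticAt ℂ (fun z => e' (ι (e.symm z))) (e y) ∧
        Function.Injective (fderiv ℂ (fun z => e' (ι (e.symm z))) (e y))) →
    (HolTo n X p → HolTo d X fun y => p (ι y)) ∧ (GPrj n X p → GPrj d X fun y => p (ι y))

end Vale.Agent.P277Z.Pj
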