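import Vale.Agent.P277Z.Pj.Sk

/-!
# P277, block PROJ, rows TOT and TOTH: the cone
-/

set_option linter.unusedSectionVars false

open scoped Manifold ContDiff Topology
open Vale.Agent.P272.K Vale.Agent.P285.H281.FD Set Filter Metric
open Vale.Agent.P277 Vale.Agent.P277.H762 Vale.Agent.P277.PH
open Vale.Agent.P277.HD (pull)
open Vale.Agent.P277Z.Coh (ScAt LBOn prpBase holSys)

noncomputable section

namespace Vale.Agent.P277Z.Pj

namespace H38T

/-- the last coordinates -/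
def tl (k : ℕ) : Cm (k + 1) →L[ℂ] Cm k :=
  ContinuousLinearMap.pi fun i => ContinuousLinearMap.proj i.succ

theorem an_tail {k : ℕ} (z : Cm (k + 1)) : AnalyticAt ℂ (fun z : Cm (k + 1) => Fin.tail z) z :=
  (tl k).analyticAt z

theorem an_zero {k : ℕ} (z : Cm (k + 1)) : AnalyticAt ℂ (fun z : Cm (k + 1) => z 0) z :=
  (ContinuousLinearMap.proj (R := ℂ) (φ := fun _ : Fin (k + 1) => ℂ) 0).analyticAt z

theorem an_cons {E : Type} [NormedAddCommGroup E] [NormedSpace ℂ E] {k : ℕ} {f : E → ℂ}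
    {g : E → Cm k} {z : E} (hf : AnalyticAt ℂ f z) (hg : AnalyticAt ℂ g z) :
    AnalyticAt ℂ (fun y => (Fin.cons (f y) (g y) : Cm (k + 1))) z := by
  refine AnalyticAt.pi fun i => ?_
  refine Fin.cases ?_ (fun i => ?_) i
  · exact hf
  · exact analyticAt_pi_iff.1 hg i

section constr

variable {n : ℕ} {W : Type} [TopologicalSpace W] [ChartedSpace (Cm n) W] {O : Set W} {r : ℕ}
  {D : Fin (r + 1) → Set W} {ν : Fin (r + 1) → W → Cm (r + 1)}

theorem nu_cont (h : PMap n O D ν) {m : Fin (r + 1)} {w : W} (hw : w ∈ D m) :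
    ContinuousAt (ν m) w := continuousAt_pi.2 fun l => holF_cont (h.hol m w hw l)

/-- the cone as a set -/
def TT (D : Fin (r + 1) → Set W) (ν : Fin (r + 1) → W → Cm (r + 1)) : Set (W × Cm (r + 1)) :=
  {p | ∃ m, p.1 ∈ D m ∧ p.2 = p.2 m • ν m p.1}

theorem TT_eq (h : PMap n O D ν) (u : TT D ν) {l : Fin (r + 1)} (hl : u.1.1 ∈ D l) :
    u.1.2 = u.1.2 l • ν l u.1.1 := by
  obtain ⟨m, hm, h1⟩ := u.2
  have h2 : u.1.2 l = u.1.2 m * ν m u.1.1 l := congrFun h1 l
  rw [h2, ← smul_smul, ← h.chg m l _ hm hl]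
  exact h1

theorem mem_TT (h : PMap n O D ν) {m : Fin (r + 1)} {w : W} (hw : w ∈ D m) (c : ℂ) :
    (w, c • ν m w) ∈ TT D ν :=
  ⟨m, hw, by simp only [Pi.smul_apply, h.one m w hw, smul_eq_mul, mul_one]⟩

open Classical in
/-- the points of the cone -/
def pnt (h : PMap n O D ν) (u₀ : TT D ν) (m : Fin (r + 1)) (w : W) (c : ℂ) : TT D ν :=
  if hw : w ∈ D m then ⟨(w, c • ν m w), mem_TT h hw c⟩ else u₀

theorem pnt_val (h : PMap n O D ν) (u₀ : TT D ν) {m : Fin (r + 1)} {w : W} (hw : w ∈ D m) (c : ℂ) :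
    (pnt h u₀ m w c).1 = (w, c • ν m w) := by
  rw [pnt, dif_pos hw]

theorem pnt_eq (h : PMap n O D ν) (u₀ : TT D ν) {m : Fin (r + 1)} (u : TT D ν)
    (hu : u.1.1 ∈ D m) : pnt h u₀ m u.1.1 (u.1.2 m) = u := by
  apply Subtype.ext
  rw [pnt_val h u₀ hu, ← TT_eq h u hu]

/-- the charts of the cone -/
def chT (h : PMap n O D ν) (u₀ : TT D ν) (m : Fin (r + 1)) (e : Chart n W) :
    Chart (n + 1) (TT D ν) where
  toFun u := Fin.cons (u.1.2 m) (e u.1.1)
  invFun z := pnt h u₀ m (e.symm (Fin.tail z)) (z 0)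
  source := (fun u => u.1.1) ⁻¹' (D m ∩ e.source)
  target := {z | Fin.tail z ∈ e.target ∩ e.symm ⁻¹' D m}
  map_source' u hu := by
    show Fin.tail (Fin.cons (u.1.2 m) (e u.1.1) : Cm (n + 1)) ∈ e.target ∩ e.symm ⁻¹' D m
    rw [Fin.tail_cons]
    exact ⟨e.map_source hu.2, by rw [mem_preimage, e.left_inv hu.2]; exact hu.1⟩
  map_target' z hz := by
    show (pnt h u₀ m (e.symm (Fin.tail z)) (z 0)).1.1 ∈ D m ∩ e.source
    rw [pnt_val h u₀ hz.2]
    exact ⟨hz.2, e.map_target hz.1⟩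
  left_inv' u hu := by
    rw [Fin.tail_cons, Fin.cons_zero, e.left_inv hu.2]
    exact pnt_eq h u₀ u hu.1
  right_inv' z hz := by
    rw [pnt_val h u₀ hz.2]
    simp only [Pi.smul_apply, h.one m _ hz.2, smul_eq_mul, mul_one, e.right_inv hz.1]
    exact Fin.cons_self_tail z
  open_source := ((h.isOpen m).inter e.open_source).preimage
    (continuous_fst.comp continuous_subtype_val)
  open_target := (e.isOpen_inter_preimage_symm (h.isOpen m)).preimage (tl n).continuous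
  continuousOn_toFun := by
    refine continuousOn_pi.2 fun i => ?_
    refine Fin.cases ?_ (fun i => ?_) i
    · exact ((continuous_apply m).comp (continuous_snd.comp continuous_subtype_val)).continuousOn
    · exact (continuous_apply i).comp_continuousOn (e.continuousOn.comp
        (continuous_fst.comp continuous_subtype_val).continuousOn fun u hu => hu.2)
  continuousOn_invFun := by
    rw [Topology.IsInducing.subtypeVal.continuousOn_iff]
    have h1 : ContinuousOn (fun z : Cm (n + 1) => e.symm (Fin.tail z))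
        {z | Fin.tail z ∈ e.target ∩ e.symm ⁻¹' D m} :=
      e.continuousOn_symm.comp (tl n).continuous.continuousOn fun z hz => hz.1
    have h2 : ContinuousOn (ν m) (D m) := fun w hw => (nu_cont h hw).continuousWithinAt
    refine ContinuousOn.congr (h1.prodMk ((continuous_apply 0).continuousOn.smul
      (h2.comp h1 fun z hz => hz.2))) fun z hz => ?_
    exact pnt_val h u₀ hz.2 _

/-- the atlas of the cone -/
@[reducible] def csT (h : PMap n O D ν) (u₀ : TT D ν) : ChartedSpace (Cm (n + 1)) (TT D ν) where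
  atlas := {E | ∃ m, ∃ e ∈ atlas (Cm n) W, E = chT h u₀ m e}
  chartAt u := chT h u₀ u.2.choose (chartAt (Cm n) u.1.1)
  mem_chart_source u := ⟨u.2.choose_spec.1, mem_chart_source _ _⟩
  chart_mem_atlas _ := ⟨_, _, chart_mem_atlas _ _, rfl⟩

theorem mfT [IsManifold 𝓘(ℂ, Cm n) ω W] (h : PMap n O D ν) (u₀ : TT D ν) :
    @IsManifold ℂ _ (Cm (n + 1)) _ _ (Cm (n + 1)) _ 𝓘(ℂ, Cm (n + 1)) ω (TT D ν) _ (csT h u₀) := by
  let _ := csT h u₀
  apply isManifold_of_contDiffOn
  rintro _ _ ⟨m, e, he, rfl⟩ ⟨l, e', he', rfl⟩ z hz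
  simp only [modelWithCornersSelf_coe, modelWithCornersSelf_coe_symm, Function.comp_id,
    Function.id_comp, range_id, inter_univ, preimage_id] at hz ⊢
  rw [OpenPartialHomeomorph.trans_source] at hz
  have h1 : Fin.tail z ∈ e.target ∩ e.symm ⁻¹' D m := hz.1
  have h2 : (pnt h u₀ m (e.symm (Fin.tail z)) (z 0)).1.1 ∈ D l ∩ e'.source := hz.2
  rw [pnt_val h u₀ h1.2] at h2
  have h3 : At e (e.symm (Fin.tail z)) := ⟨he, e.map_target h1.1⟩
  have h4 := h.hol m _ h1.2 l e h3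
  have h5 := chg_analyticAt (e := e') (e' := e) ⟨he', h2.2⟩ h3
  rw [e.right_inv h1.1] at h4 h5
  have h6 := an_cons ((an_zero z).mul (h4.comp_of_eq (an_tail z) rfl))
    (h5.comp_of_eq (an_tail z) rfl)
  refine ((h6.congr ?_).contDiffAt).contDiffWithinAt
  filter_upwards [(chT h u₀ m e).open_target.mem_nhds hz.1] with y hy
  have h7 : Fin.tail y ∈ e.target ∩ e.symm ⁻¹' D m := hy
  show _ = (Fin.cons ((pnt h u₀ m (e.symm (Fin.tail y)) (y 0)).1.2 l)
    (e' (pnt h u₀ m (e.symm (Fin.tail y)) (y 0)).1.1) : Cm (n + 1))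
  rw [pnt_val h u₀ h7.2]
  rfl

end constr

section props

variable {n : ℕ} {W T : Type} [TopologicalSpace W] [ChartedSpace (Cm n) W]
  [IsManifold 𝓘(ℂ, Cm n) ω W] [TopologicalSpace T] [ChartedSpace (Cm (n + 1)) T]
  [IsManifold 𝓘(ℂ, Cm (n + 1)) ω T] {O : Set W} {r : ℕ} {D : Fin (r + 1) → Set W}
  {ν : Fin (r + 1) → W → Cm (r + 1)} {pr : T → W} {ζ : T → Cm (r + 1)}
  {pt : Fin (r + 1) → W → ℂ → T}

theorem pr_cont (hT : Tot n D ν pr ζ pt) : Continuous pr := continuous_fst.comp hT.emb.continuous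

theorem hol_iff (h : PMap n O D ν) (hT : Tot n D ν pr ζ pt) {m : Fin (r + 1)} {w : W}
    (hw : w ∈ D m) (c : ℂ) (f : T → ℂ) {e : Chart n W} (he : At e w) :
    HolF (n + 1) f (pt m w c) ↔
      AnalyticAt ℂ (fun p : Cm n × ℂ => f (pt m (e.symm p.1) p.2)) (e w, c) := by
  obtain ⟨E, hE, h1, h2, h3⟩ := hT.chart m e he.1
  have h4 : At E (pt m w c) := ⟨hE, by rw [h1, mem_preimage, hT.pr_pt m w hw]; exact ⟨hw, he.2⟩⟩
  have h5 : E (pt m w c) = Fin.cons c (e w) := by
    rw [h2, hT.pr_pt m w hw, hT.ζ_pt m w hw, Pi.smul_apply, h.one m w hw, smul_eq_mul, mul_one]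
  have h6 : (fun z => f (E.symm z)) = fun z => f (pt m (e.symm (Fin.tail z)) (z 0)) :=
    funext fun z => by rw [h3]
  constructor
  · intro hf
    have h7 := hf E h4
    rw [h5, h6] at h7
    have h8 : AnalyticAt ℂ (fun p : Cm n × ℂ => (Fin.cons p.2 p.1 : Cm (n + 1))) (e w, c) :=
      an_cons analyticAt_snd analyticAt_fst
    have h9 := h7.comp_of_eq h8 rfl
    simpa only [Function.comp_def, Fin.tail_cons, Fin.cons_zero] using h9
  · intro hf
    refine holF_of h4 ?_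
    rw [h5, h6]
    exact hf.comp_of_eq ((an_tail (Fin.cons c (e w) : Cm (n + 1))).prod (an_zero _))
      (by rw [Fin.tail_cons, Fin.cons_zero])

theorem ev_D (h : PMap n O D ν) {m : Fin (r + 1)} {w : W} (hw : w ∈ D m) {e : Chart n W}
    (he : At e w) (c : ℂ) : ∀ᶠ p : Cm n × ℂ in 𝓝 (e w, c), e.symm p.1 ∈ D m :=
  (continuousAt_fst (p := (e w, c))).eventually
    (ev_symm (P := fun y => y ∈ D m) he.2 ((h.isOpen m).mem_nhds hw))

theorem hol_pr (h : PMap n O D ν) (hT : Tot n D ν pr ζ pt) (u : T) (f : W → ℂ)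
    (hf : HolF n f (pr u)) : HolF (n + 1) (fun u => f (pr u)) u := by
  obtain ⟨m, hm⟩ := hT.mem u
  have h1 := (hol_iff h hT hm (ζ u m) (fun u => f (pr u)) (at_chartAt (pr u))).2 (by
    refine ((hf _ (at_chartAt (pr u))).comp_of_eq analyticAt_fst rfl).congr ?_
    filter_upwards [ev_D h hm (at_chartAt (pr u)) (ζ u m)] with p hp
    simp only [Function.comp, hT.pr_pt m _ hp])
  rwa [hT.pt_eq m u hm] at h1

theorem hol_ζ (h : PMap n O D ν) (hT : Tot n D ν pr ζ pt) (u : T) (l : Fin (r + 1)) :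
    HolF (n + 1) (fun u => ζ u l) u := by
  obtain ⟨m, hm⟩ := hT.mem u
  have h1 := (hol_iff h hT hm (ζ u m) (fun u => ζ u l) (at_chartAt (pr u))).2 (by
    refine (analyticAt_snd.mul
      ((h.hol m _ hm l _ (at_chartAt (pr u))).comp_of_eq analyticAt_fst rfl)).congr ?_
    filter_upwards [ev_D h hm (at_chartAt (pr u)) (ζ u m)] with p hp
    simp only [Pi.mul_apply, Function.comp, hT.ζ_pt m _ hp, Pi.smul_apply, smul_eq_mul])
  rwa [hT.pt_eq m u hm] at h1

theorem pt_cont (h : PMap n O D ν) (hT : Tot n D ν pr ζ pt) {m : Fin (r + 1)} {w : W}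
    (hw : w ∈ D m) (c : ℂ) : ContinuousAt (fun p : W × ℂ => pt m p.1 p.2) (w, c) := by
  rw [hT.emb.isInducing.continuousAt_iff]
  have h1 : ContinuousAt (fun p : W × ℂ => (p.1, p.2 • ν m p.1)) (w, c) :=
    continuousAt_fst.prodMk (continuousAt_snd.smul
      (ContinuousAt.comp (g := ν m) (nu_cont h hw) continuousAt_fst))
  refine h1.congr ?_
  filter_upwards [(continuousAt_fst (p := (w, c))).eventually ((h.isOpen m).mem_nhds hw)] with p hp
  simp only [Function.comp, hT.pr_pt m _ hp, hT.ζ_pt m _ hp]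

end props

end H38T

open H38T in
theorem tot_thm : TOT := by
  intro n W _ _ _ _ _ O r D ν h hO
  obtain ⟨w, hw⟩ := hO
  obtain ⟨m, hm⟩ := (h.cover w).1 hw
  let u₀ : TT D ν := ⟨_, mem_TT h hm 0⟩
  refine ⟨TT D ν, inferInstance, inferInstance, inferInstance, csT h u₀, mfT h u₀,
    fun u => u.1.1, fun u => u.1.2, pnt h u₀, ?_⟩
  let _ := csT h u₀
  exact ⟨Topology.IsEmbedding.subtypeVal, fun u => ⟨_, u.2.choose_spec.1⟩,
    fun m w hw c => by rw [pnt_val h u₀ hw], fun m w hw c => by rw [pnt_val h u₀ hw],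
    fun m u hu => pnt_eq h u₀ u hu,
    fun m e he => ⟨chT h u₀ m e, ⟨m, e, he, rfl⟩, rfl, fun _ => rfl, fun _ => rfl⟩⟩

open H38T in
theorem toth : TOTH := by
  intro n W T _ _ _ _ _ _ _ r O D ν pr ζ pt h hT
  have hO : ∀ u, pr u ∈ O := fun u => (h.cover _).2 (hT.mem u)
  refine ⟨hol_pr h hT, hol_ζ h hT, fun m w hw c => pt_cont h hT hw c, fun m w hw c f =>
    ⟨fun hf e he => (hol_iff h hT hw c f he).1 hf,
      fun hf => (hol_iff h hT hw c f (at_chartAt w)).2 (hf _ (at_chartAt w))⟩, fun L hL => ?_⟩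
  exact ⟨fun i => (hL.isOpen i).preimage (pr_cont hT), fun u => hL.cover _ (hO u),
    fun i j e u he hi hj => (hol_pr h hT u _ (hL.holo i j _ (hO u) hi hj) e he).contDiffAt,
    fun i j u hi hj => hL.ne_zero i j _ (hO u) hi hj,
    fun i j k u hi hj hk => hL.cocycle i j k _ (hO u) hi hj hk⟩

end Vale.Agent.P277Z.Pj
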