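import Vale.Agent.P277Z.Pj.Sk

/-!
# P277, block PROJ: homogeneous generators of a direct image (abstract part)
-/

open scoped Topology Matrix
open Vale.Agent.P285.H281.FD Set Filter
open Vale.Agent.P277Z.Coh

noncomputable section

namespace Vale.Agent.P277Z.Pj.Gn

theorem lin {α : Type} [AddCommGroup α] [Module ℂ α] (A N : Submodule ℂ α) (S : α →ₗ[ℂ] α)
    {s : ℕ} (e : Fin s → α) (hA : ∀ v ∈ A, S v ∈ A) (hN : ∀ v ∈ N, S v ∈ N)
    (hgen : ∀ v ∈ A, ∃ c : Fin s → ℂ, v - ∑ j, c j • e j ∈ N)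
    (hsol : ∀ f ∈ A, ∀ a : ℂ, ∃ v ∈ A, f - (S v - a • v) ∈ N) : A ≤ N := by
  have hle : A.map N.mkQ ≤ Submodule.span ℂ (range fun j => N.mkQ (e j)) := by
    rintro _ ⟨v, hv, rfl⟩
    obtain ⟨c, hc⟩ := hgen v hv
    rw [show N.mkQ v = N.mkQ (∑ j, c j • e j) from (Submodule.Quotient.eq N).2 hc, map_sum]
    exact Submodule.sum_mem _ fun j _ => by
      rw [map_smul]
      exact Submodule.smul_mem _ _ (Submodule.subset_span ⟨j, rfl⟩)
  have := FiniteDimensional.span_of_finite ℂ (finite_range fun j => N.mkQ (e j))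
  have : FiniteDimensional ℂ (A.map N.mkQ) := Submodule.finiteDimensional_of_le hle
  let T : Module.End ℂ (A.map N.mkQ) := (N.mapQ N S hN).restrict (by
    rintro _ ⟨v, hv, rfl⟩
    exact ⟨S v, hA v hv, rfl⟩)
  intro v hv
  by_contra h0
  have : Nontrivial (A.map N.mkQ) := ⟨⟨⟨_, v, hv, rfl⟩, 0, fun h =>
    h0 ((Submodule.Quotient.mk_eq_zero N).1 (congrArg Subtype.val h))⟩⟩
  obtain ⟨a, ha⟩ := Module.End.exists_eigenvalue T
  obtain ⟨w, hw⟩ := ha.exists_hasEigenvector
  have h1 : Function.Surjective (T - a • (1 : Module.End ℂ (A.map N.mkQ))) := by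
    rintro ⟨_, f, hf, rfl⟩
    obtain ⟨u, hu, h2⟩ := hsol f hf a
    exact ⟨⟨_, u, hu, rfl⟩, Subtype.ext ((Submodule.Quotient.eq N).2 h2).symm⟩
  refine hw.2 ((LinearMap.injective_iff_surjective.2 h1) ?_)
  simp [hw.apply_eq_smul]

variable {E : Type} [NormedAddCommGroup E] [NormedSpace ℂ E]

theorem an_det {s : ℕ} {M : E → Matrix (Fin s) (Fin s) ℂ} {z : E}
    (h : ∀ j k, AnalyticAt ℂ (fun y => M y j k) z) : AnalyticAt ℂ (fun y => (M y).det) z := by
  simp only [Matrix.det_apply']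
  exact Finset.analyticAt_fun_sum _ fun σ _ => analyticAt_const.mul
    (Finset.analyticAt_fun_prod _ fun i _ => h _ _)

theorem an_inv {s : ℕ} {M : E → Matrix (Fin s) (Fin s) ℂ} {z : E}
    (h : ∀ j k, AnalyticAt ℂ (fun y => M y j k) z) (h0 : (M z).det ≠ 0) (j k : Fin s) :
    AnalyticAt ℂ (fun y => (M y)⁻¹ j k) z := by
  simp only [Matrix.inv_def, Ring.inverse_eq_inv', Matrix.smul_apply, smul_eq_mul,
    Matrix.adjugate_apply]
  refine ((an_det h).inv h0).mul (an_det fun a b => ?_)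
  simp only [Matrix.updateRow_apply]
  split_ifs
  exacts [analyticAt_const, h _ _]

variable {T : Type} [TopologicalSpace T] {B : Base E T} {L : Bd T} {z : E}

/-- the sections near the fibre over `z` -/
def secs (B : Base E T) (L : Bd T) (z : E) : Submodule ℂ (L.ι → T → ℂ) where
  carrier := {v | B.Near z (ScAt B.Hol L v)}
  add_mem' := (B.img L).sec_add
  zero_mem' := (B.img L).sec_zero z
  smul_mem' c _ h := (B.img L).sec_smul (c := fun _ => c) analyticAt_const h

/-- `H + m e` -/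
def nul (B : Base E T) (L : Bd T) (z : E) (H : Submodule ℂ (L.ι → T → ℂ)) {s : ℕ}
    (e : Fin s → L.ι → T → ℂ) : Submodule ℂ (L.ι → T → ℂ) where
  carrier := {v | ∃ h ∈ H, ∃ μ : Fin s → E → ℂ, (∀ j, AnalyticAt ℂ (μ j) z ∧ μ j z = 0) ∧
    B.Near z fun u => ∀ i, u ∈ L.U i → v i u = h i u + ∑ j, μ j (B.t u) * e j i u}
  add_mem' := by
    rintro v w ⟨h, hh, μ, h1, h2⟩ ⟨h', hh', μ', h1', h2'⟩
    refine ⟨h + h', H.add_mem hh hh', fun j y => μ j y + μ' j y, fun j =>
      ⟨(h1 j).1.add (h1' j).1, by simp [(h1 j).2, (h1' j).2]⟩, (h2.and h2').mono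
        fun u _ h3 i hi => ?_⟩
    simp only [Pi.add_apply, h3.1 i hi, h3.2 i hi, add_mul, Finset.sum_add_distrib]
    ring
  zero_mem' := ⟨0, H.zero_mem, fun _ _ => 0, fun _ => ⟨analyticAt_const, rfl⟩,
    .of_forall fun u _ i _ => by simp⟩
  smul_mem' := by
    rintro c v ⟨h, hh, μ, h1, h2⟩
    refine ⟨c • h, H.smul_mem c hh, fun j y => c * μ j y, fun j =>
      ⟨analyticAt_const.mul (h1 j).1, by simp [(h1 j).2]⟩, h2.mono fun u _ h3 i hi => ?_⟩
    simp only [Pi.smul_apply, smul_eq_mul, h3 i hi, mul_add, Finset.mul_sum, mul_assoc]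

/-- **Nakayama** for a contraction `sc` -/
theorem nak {s : ℕ} {e : Fin s → L.ι → T → ℂ} (he : (B.img L).Gen z e) {ι : Type}
    (G : ι → L.ι → T → ℂ) (hG : ∀ a, B.Near z (ScAt B.Hol L (G a))) {sc : T → T} {σ : E → E}
    (hσ : AnalyticAt ℂ σ z) (hσz : σ z = z)
    (hsc : ∀ u ∈ B.Om, sc u ∈ B.Om ∧ B.t (sc u) = σ (B.t u))
    (hU : ∀ i u, u ∈ L.U i → sc u ∈ L.U i)
    (hS : ∀ v u, ScAt B.Hol L v (sc u) → ScAt B.Hol L (fun i u => v i (sc u)) u)
    (hGS : ∀ a, ∃ c : ℂ, (fun i u => G a i (sc u)) = c • G a)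
    (hsol : ∀ f, B.Near z (ScAt B.Hol L f) → ∀ a : ℂ, ∃ v, B.Near z (ScAt B.Hol L v) ∧
      ∃ h ∈ Submodule.span ℂ (range G), B.Near z fun u => ∀ i, u ∈ L.U i →
        f i u = v i (sc u) - a * v i u + h i u) :
    ∃ (q : ℕ) (a : Fin q → ι), (B.img L).Gen z fun k => G (a k) := by
  classical
  have he' := (Base.gen_img_iff e).1 he
  have hn : ∀ {P : T → Prop}, B.Near z P → B.Near z fun u => P (sc u) := fun h => by
    have h1 : Tendsto σ (𝓝 z) (𝓝 z) := by simpa only [ContinuousAt, hσz] using hσ.continuousAt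
    exact (h1.eventually h).mono fun y hy u hu e => hy _ (hsc u hu).1 (by rw [(hsc u hu).2, e])
  let S : (L.ι → T → ℂ) →ₗ[ℂ] (L.ι → T → ℂ) :=
    ⟨⟨fun v i u => v i (sc u), fun _ _ => rfl⟩, fun _ _ => rfl⟩
  have hA : ∀ v ∈ secs B L z, S v ∈ secs B L z := fun v hv => (hn hv).mono fun u _ h => hS v u h
  choose b hb hb' using fun j => he'.2 _ (hA _ (he'.1 j))
  have key := lin (secs B L z) (nul B L z (Submodule.span ℂ (range G)) e) S e hA
    (by
      rintro v ⟨h, hh, μ, h1, h2⟩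
      refine ⟨S h, (Submodule.span_le (p := (Submodule.span ℂ (range G)).comap S)).2 ?_ hh,
        fun k y => ∑ j, μ j (σ y) * b j k y, fun k => ⟨Finset.analyticAt_fun_sum _ fun j _ =>
          (AnalyticAt.fun_comp (by rw [hσz]; exact (h1 j).1) hσ).mul (hb j k), by
            simp [hσz, fun j => (h1 j).2]⟩,
        ((hn h2).and (Base.near_all hb')).mono fun u hu h3 i hi => ?_⟩
      · rintro _ ⟨a, rfl⟩
        obtain ⟨c, hc⟩ := hGS a
        show S (G a) ∈ Submodule.span ℂ (range G)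
        rw [show S (G a) = c • G a from hc]
        exact Submodule.smul_mem _ _ (Submodule.subset_span ⟨a, rfl⟩)
      · have h4 : ∀ j, e j i (sc u) = ∑ k, b j k (B.t u) * e k i u := fun j => h3.2 j i hi
        refine (h3.1 i (hU i u hi)).trans (congrArg (h i (sc u) + ·) ?_)
        simp only [h4, (hsc u hu).2, Finset.sum_mul, Finset.mul_sum, mul_assoc]
        exact Finset.sum_comm)
    (fun v hv => by
      obtain ⟨c, hc, h1⟩ := he'.2 v hv
      refine ⟨fun j => c j z, 0, Submodule.zero_mem _, fun j y => c j y - c j z, fun j =>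
        ⟨(hc j).sub analyticAt_const, sub_self _⟩, h1.mono fun u _ h2 i hi => ?_⟩
      simp [h2 i hi, sub_mul])
    (fun f hf a => by
      obtain ⟨v, hv, h, hh, h1⟩ := hsol f hf a
      refine ⟨v, hv, h, hh, fun _ _ => 0, fun _ => ⟨analyticAt_const, rfl⟩,
        h1.mono fun u _ h2 i hi => ?_⟩
      show f i u - (v i (sc u) - a * v i u) = _
      simp [h2 i hi])
  choose h hh μ hμ h1 using fun j => key (he'.1 j)
  choose c hc using fun j => Finsupp.mem_span_range_iff_exists_finsupp.1 (hh j)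
  let t : Finset ι := Finset.univ.biUnion fun j => (c j).support
  have h2 : ∀ j i u, h j i u = ∑ a : t, c j a * G a i u := fun j i u => by
    rw [← hc j, Finsupp.sum_of_support_subset _ (Finset.subset_biUnion_of_mem
      (fun j => (c j).support) (Finset.mem_univ j)) _ (by simp), ← Finset.sum_coe_sort]
    simp [t]
  let M : E → Matrix (Fin s) (Fin s) ℂ := fun y => 1 - Matrix.of fun j k => μ j k y
  have hM : ∀ j k, AnalyticAt ℂ (fun y => M y j k) z := fun j k =>
    analyticAt_const.sub (hμ j k).1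
  have hM0 : (M z).det ≠ 0 := by
    have h3 : M z = 1 := by
      ext j k
      simp [M, (hμ j k).2]
    simp [h3]
  let G' : t → (B.img L).α := fun a => G a
  suffices H : (B.img L).Gen z G' from ⟨_, _, H.reindex (Fintype.equivFin t).symm⟩
  refine he.trans (e' := G') (fun a => hG a.1) (ρ := fun j a y => ∑ k, (M y)⁻¹ j k * c k a)
    (fun j a => Finset.analyticAt_fun_sum _ fun k _ => (an_inv hM hM0 j k).mul analyticAt_const)
    fun j => ?_
  refine ((Base.near_all h1).and (Base.near_base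
    ((an_det hM).continuousAt.eventually_ne hM0))).mono fun u _ h3 i hi => ?_
  have h4 : M (B.t u) *ᵥ (fun k => e k i u) = fun k => h k i u := by
    ext k
    simp only [M, Matrix.sub_mulVec, Matrix.one_mulVec, Pi.sub_apply]
    exact sub_eq_of_eq_add (h3.1 k i hi)
  have h5 := congrFun (congrArg ((M (B.t u))⁻¹ *ᵥ ·) h4) j
  simp only [Matrix.mulVec_mulVec, Matrix.nonsing_inv_mul _ (Ne.isUnit h3.2),
    Matrix.one_mulVec] at h5
  refine sub_eq_zero.2 (h5.trans (Eq.trans ?_ (Base.img_comb (B := B)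
    (fun (a : t) y => ∑ k, (M y)⁻¹ j k * c k a) G' i u).symm))
  simp only [Matrix.mulVec, dotProduct, h2, Finset.mul_sum, Finset.sum_mul, mul_assoc]
  exact Finset.sum_comm

end Vale.Agent.P277Z.Pj.Gn
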